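import Mathlib.GroupTheory.Index
import Mathlib.GroupTheory.Solvable

/-!
The finite residual of a group, and solvability of almost simple finite sections modulo the socle.
-/

namespace Vale.Agent.P216

/-- The finite residual of `G`: the intersection of all subgroups of finite index. -/
def finiteResidual (G : Type*) [Group G] : Subgroup G :=
  ⨅ (N : Subgroup G) (_ : N.FiniteIndex), N

theorem mem_finiteResidual {G : Type*} [Group G] {g : G} :
    g ∈ finiteResidual G ↔ ∀ N : Subgroup G, N.FiniteIndex → g ∈ N := by
  simp [finiteResidual, Subgroup.mem_iInf]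

instance finiteResidual_normal (G : Type*) [Group G] : (finiteResidual G).Normal := by
  constructor
  intro n hn g
  rw [mem_finiteResidual] at hn ⊢
  intro N hN
  exact Subgroup.normalCore_le N
    ((Subgroup.normalCore_normal N).conj_mem n (hn N.normalCore inferInstance) g)

/-- Every finite almost simple quotient `A = U ⧸ N` of a finite-index subgroup `U` of `G`, with
nonabelian simple normal subgroup `S` of trivial centralizer, has `A ⧸ S` solvable. -/
def AlmostSimpleSolvable (G : Type*) [Group G] : Prop :=
  ∀ U : Subgroup G, U.FiniteIndex → ∀ (N : Subgroup U) (_ : N.Normal), N.FiniteIndex →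
    ∀ (S : Subgroup (U ⧸ N)) (_ : S.Normal), IsSimpleGroup S → (∃ x y : S, x * y ≠ y * x) →
      Subgroup.centralizer (S : Set (U ⧸ N)) = ⊥ → Group.IsSolvable ((U ⧸ N) ⧸ S)

end Vale.Agent.P216
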