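import Vale.Agent.P216.H215.Monogenic

/-!
# `Monogenic` is invariant under homeomorphisms
-/

open Topology

namespace Vale.Agent.P216.ASCoh

variable {X Y Z : Type} [TopologicalSpace X] [TopologicalSpace Y] [TopologicalSpace Z]
  {k : Type} [Field k]

/-- Pull back of cochains. -/
def pullC (g : Y → X) {q : ℕ} (f : Cochain X k q) : Cochain Y k q := fun σ => f (g ∘ σ)

theorem pullC_cobd (g : Y → X) {q : ℕ} (f : Cochain X k q) :
    pullC g (cobd f) = cobd (pullC g f) := rfl

theorem pullC_sub (g : Y → X) {q : ℕ} (f f' : Cochain X k q) :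
    pullC g (f - f') = pullC g f - pullC g f' := rfl

theorem pullC_smul (g : Y → X) {q : ℕ} (c : k) (f : Cochain X k q) :
    pullC g (c • f) = c • pullC g f := rfl

theorem pullC_pullC (g : Y → X) (g' : Z → Y) {q : ℕ} (f : Cochain X k q) :
    pullC g' (pullC g f) = pullC (g ∘ g') f := rfl

theorem pullC_cup (g : Y → X) {p q : ℕ} (f : Cochain X k p) (f' : Cochain X k q) :
    pullC g (cup f f') = cup (pullC g f) (pullC g f') := rfl

theorem pullC_power (g : Y → X) {d : ℕ} (x : Cochain X k d) (j : ℕ) :
    pullC g (power x j) = power (pullC g x) j := by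
  induction j with
  | zero => rfl
  | succ j ih =>
    rw [power, pullC_cup, ih]
    rfl

theorem LocZero.pullC {g : Y → X} (hg : Continuous g) {q : ℕ} {f : Cochain X k q}
    (h : LocZero f) : LocZero (pullC g f) := by
  intro y
  obtain ⟨U, hU, hz⟩ := h (g y)
  exact ⟨g ⁻¹' U, hg.continuousAt.preimage_mem_nhds hU, fun σ hσ => hz _ hσ⟩

theorem IsCocycle.pullC {g : Y → X} (hg : Continuous g) {q : ℕ} {f : Cochain X k q}
    (h : IsCocycle f) : IsCocycle (pullC g f) :=
  LocZero.pullC hg h

theorem IsCobd.pullC {g : Y → X} (hg : Continuous g) {q : ℕ} {f : Cochain X k q}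
    (h : IsCobd f) : IsCobd (pullC g f) := by
  cases q with
  | zero => exact LocZero.pullC hg h
  | succ q =>
    obtain ⟨a, ha⟩ := h
    exact ⟨ASCoh.pullC g a, LocZero.pullC hg ha⟩

/-- `Monogenic` is a topological property. -/
theorem Monogenic.of_homeo (e : X ≃ₜ Y) {d h : ℕ} (hX : Monogenic X k d h) :
    Monogenic Y k d h := by
  obtain ⟨x, hx, hne, hsp⟩ := hX
  have hid : ∀ {q : ℕ} (f : Cochain X k q), pullC e (pullC e.symm f) = f := by
    intro q f
    rw [pullC_pullC]
    funext σ
    simp [pullC, Function.comp_def]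
  have hid' : ∀ {q : ℕ} (f : Cochain Y k q), pullC e.symm (pullC e f) = f := by
    intro q f
    rw [pullC_pullC]
    funext σ
    simp [pullC, Function.comp_def]
  refine ⟨pullC e.symm x, hx.pullC e.symm.continuous, fun j hj h => hne j hj ?_, fun q f hf => ?_⟩
  · rw [← pullC_power] at h
    have := h.pullC e.continuous
    rwa [hid] at this
  · rcases hsp q (pullC e f) (hf.pullC e.continuous) with h | ⟨j, hj, hq, c, h⟩
    · left
      have := h.pullC e.symm.continuous
      rwa [hid'] at this
    · subst hq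
      refine Or.inr ⟨j, hj, rfl, c, ?_⟩
      have := h.pullC e.symm.continuous
      rwa [pullC_sub, hid', pullC_smul, pullC_power] at this

end Vale.Agent.P216.ASCoh
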