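import Vale.Agent.P216.H215.RFinal
import Vale.Agent.P216.H215.ResidDef
import Mathlib.GroupTheory.Transfer
import Mathlib.GroupTheory.SpecificGroups.Dihedral
import Mathlib.GroupTheory.SpecificGroups.Cyclic

/-!
Finitely cyclically covered groups with infinitely many finite quotients.
-/

set_option linter.all false

namespace Vale.Agent.P216.RFS

open Subgroup

theorem fcc_map {G Q : Type*} [Group G] [Group Q] (h : FinitelyCyclicallyCovered G)
    (f : G →* Q) (hf : Function.Surjective f) : FinitelyCyclicallyCovered Q := by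
  obtain ⟨F, hF, hcov⟩ := h
  refine ⟨f '' F, hF.image _, fun x => ?_⟩
  obtain ⟨g, rfl⟩ := hf x
  obtain ⟨a, ha, k, hk⟩ := hcov g
  exact ⟨f a, ⟨a, ha, rfl⟩, k, by simpa using f.map_isConj hk⟩

theorem ker_le_of_fcc {H : Type*} [Group H] (hfcc : FinitelyCyclicallyCovered H)
    (φ : H →* Multiplicative ℤ) {g : H} (hg : φ g ≠ 1) (N : Subgroup H) (hNn : N.Normal)
    (hN : N.FiniteIndex) : φ.ker ≤ N := by
  have hfin : Finite (H ⧸ N) := Subgroup.finite_quotient_of_finiteIndex
  intro h hh
  rw [MonoidHom.mem_ker] at hh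
  have := hfcc.length_apply_eq_one (fun x => |((Multiplicative.toAdd (φ x) : ℤ) : ℝ)|)
    (by intro x y; simp)
    (by intro x n; simp [abs_mul])
    (g := g) (h := h)
    (by
      rw [abs_pos]
      intro h0
      apply hg
      have h1 : Multiplicative.toAdd (φ g) = 0 := by exact_mod_cast h0
      exact h1)
    (by
      intro m _
      rw [map_mul, hh, mul_one, map_pow, toAdd_pow]
      simp [abs_mul])
    (QuotientGroup.mk' N)
  exact (QuotientGroup.eq_one_iff h).1 this

/-- The finite residual quotient is residually finite. -/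
theorem rf_quotient {G : Type*} [Group G] (x : G ⧸ finiteResidual G) (hx : x ≠ 1) :
    ∃ N : Subgroup (G ⧸ finiteResidual G), N.FiniteIndex ∧ x ∉ N := by
  obtain ⟨g, rfl⟩ := QuotientGroup.mk_surjective x
  have h1 : g ∉ finiteResidual G := fun h => hx ((QuotientGroup.eq_one_iff g).2 h)
  rw [mem_finiteResidual] at h1
  push Not at h1
  obtain ⟨N, hN, hg⟩ := h1
  refine ⟨N.map (QuotientGroup.mk' _), ⟨?_⟩, ?_⟩
  · intro h0
    have h2 := N.index_map_dvd (QuotientGroup.mk'_surjective (finiteResidual G))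
    rw [h0] at h2
    exact hN.index_ne_zero (Nat.eq_zero_of_zero_dvd h2)
  · rintro ⟨n, hn, hng⟩
    apply hg
    have h3 : n⁻¹ * g ∈ finiteResidual G := QuotientGroup.eq.1 hng
    have h4 := mem_finiteResidual.1 h3 N hN
    simpa using N.mul_mem hn h4

/-- In a group all of whose finite quotients are cyclic, commutators lie in the residual. -/
theorem commutator_mem_residual {G : Type*} [Group G] {H : Subgroup G} (hH : H.FiniteIndex)
    (hcyc : ∀ (N : Subgroup H) [N.Normal], N.FiniteIndex → IsCyclic (H ⧸ N)) (x y : H) :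
    ((x * y * x⁻¹ * y⁻¹ : H) : G) ∈ finiteResidual G := by
  rw [mem_finiteResidual]
  intro N hN
  have hN' : (N.subgroupOf H).normalCore.FiniteIndex := inferInstance
  have h3 := hcyc (N.subgroupOf H).normalCore hN'
  have h4 : (x : H ⧸ (N.subgroupOf H).normalCore) * y = y * x := by
    obtain ⟨g, hg⟩ := h3.exists_generator
    obtain ⟨i, hi⟩ := hg (x : H ⧸ (N.subgroupOf H).normalCore)
    obtain ⟨j, hj⟩ := hg (y : H ⧸ (N.subgroupOf H).normalCore)
    simp only at hi hj
    rw [← hi, ← hj, ← zpow_add, ← zpow_add, add_comm]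
  have h5 : (x * y * x⁻¹ * y⁻¹ : H) ∈ (N.subgroupOf H).normalCore := by
    rw [← QuotientGroup.eq_one_iff, QuotientGroup.mk_mul, QuotientGroup.mk_mul,
      QuotientGroup.mk_mul, QuotientGroup.mk_inv, QuotientGroup.mk_inv, h4]
    group
  exact Subgroup.mem_subgroupOf.1 (Subgroup.normalCore_le _ h5)

/-- A residually finite finitely cyclically covered infinite group with a cyclic subgroup of finite
index is infinite cyclic or infinite dihedral. -/
theorem cyclic_or_dihedral {Q : Type*} [Group Q] [hinf : Infinite Q]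
    (hF : FinitelyCyclicallyCovered Q)
    (hRF : ∀ x : Q, x ≠ 1 → ∃ N : Subgroup Q, N.FiniteIndex ∧ x ∉ N)
    (hC : ∃ C : Subgroup Q, C.FiniteIndex ∧ IsCyclic C) :
    Nonempty (Q ≃* Multiplicative ℤ) ∨ Nonempty (Q ≃* DihedralGroup 0) := by
  obtain ⟨C₀, hC₀, hC₀c⟩ := hC
  set C := C₀.normalCore with hCdef
  have hCn : C.Normal := Subgroup.normalCore_normal C₀
  have hCfi : C.FiniteIndex := inferInstance
  have hCc : IsCyclic C :=
    isCyclic_of_injective (Subgroup.inclusion (Subgroup.normalCore_le C₀))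
      (Subgroup.inclusion_injective _)
  have hCinf : Infinite C := by
    rw [← not_finite_iff_infinite]
    intro hfin
    have hQ : Finite Q := (Subgroup.finite_iff_finite_and_finiteIndex C).2 ⟨hfin, hCfi⟩
    exact not_finite Q
  obtain ⟨z, hz⟩ := hCc.exists_generator
  have hztop : zpowers z = ⊤ := by
    rw [eq_top_iff]; intro x _; exact hz x
  have hzinj : Function.Injective fun k : ℤ => (z : Q) ^ k := by
    have h1 := (zpowersHom_bijective hztop).1
    intro k l hkl
    have h2 : z ^ k = z ^ l := Subtype.ext (by simpa using hkl)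
    have h3 := @h1 (Multiplicative.ofAdd k) (Multiplicative.ofAdd l) (by simpa using h2)
    exact Multiplicative.ofAdd.injective h3
  -- conjugation acts by `±1`
  have hmem : ∀ x ∈ C, ∃ k : ℤ, (z : Q) ^ k = x := by
    intro x hx
    obtain ⟨k, hk⟩ := hz ⟨x, hx⟩
    exact ⟨k, by simpa using congrArg Subtype.val hk⟩
  have hconjpow : ∀ (g x : Q) (k : ℤ), g * x ^ k * g⁻¹ = (g * x * g⁻¹) ^ k := by
    intro g x k; exact (conj_zpow).symm
  have hpm : ∀ g : Q, g * z * g⁻¹ = z ∨ g * z * g⁻¹ = (z : Q)⁻¹ := by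
    intro g
    obtain ⟨k, hk⟩ := hmem _ (hCn.conj_mem z z.2 g)
    obtain ⟨l, hl⟩ := hmem _ (hCn.conj_mem z z.2 g⁻¹)
    have h1 : (z : Q) ^ (k * l) = (z : Q) ^ (1 : ℤ) := by
      have h2 : g * (g⁻¹ * z * g⁻¹⁻¹) * g⁻¹ = z := by group
      rw [← hl, hconjpow, ← hk, ← zpow_mul] at h2
      rw [h2, zpow_one]
    have h2 : k * l = 1 := hzinj h1
    rcases Int.eq_one_or_neg_one_of_mul_eq_one h2 with h3 | h3
    · left; rw [← hk, h3, zpow_one]
    · right; rw [← hk, h3, zpow_neg_one]
  -- the centralizer of `z`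
  set P : Subgroup Q := Subgroup.centralizer {(z : Q)} with hP
  have memP : ∀ g, g ∈ P ↔ g * z * g⁻¹ = z := by
    intro g
    rw [hP, Subgroup.mem_centralizer_singleton_iff, mul_inv_eq_iff_eq_mul]
  have hCP : C ≤ P := by
    intro x hx
    obtain ⟨k, rfl⟩ := hmem x hx
    rw [memP]; group
  have hPfi : P.FiniteIndex := Subgroup.finiteIndex_of_le hCP
  have hzPc : ∀ x ∈ C, ∀ g ∈ P, g * x * g⁻¹ = x := by
    intro x hx g hg
    obtain ⟨k, rfl⟩ := hmem x hx
    rw [hconjpow, (memP g).1 hg]
  -- transfer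
  have hPcyc : ∃ ψ : P →* Multiplicative ℤ, ∃ x, ψ x ≠ 1 := by
    let e : C ≃* Multiplicative ℤ := (intEquivOfZPowersEqTop z hztop).symm
    let D : Subgroup P := C.subgroupOf P
    have hDfi : D.FiniteIndex := inferInstance
    let ϕ : D →* Multiplicative ℤ := e.toMonoidHom.comp (Subgroup.subgroupOfEquivOfLe hCP).toMonoidHom
    refine ⟨MonoidHom.transfer ϕ, ⟨z, hCP z.2⟩, ?_⟩
    have key : ∀ g : P, ∀ (k : ℕ) (g₀ : P), g₀⁻¹ * g ^ k * g₀ ∈ D → g₀⁻¹ * g ^ k * g₀ = g ^ k := by
      intro g k g₀ h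
      have h1 := hzPc _ (Subgroup.mem_subgroupOf.1 h) g₀ g₀.2
      apply Subtype.ext
      rw [← h1]
      push_cast
      group
    rw [MonoidHom.transfer_eq_pow ϕ _ (key _)]
    intro h
    have h1 : (⟨(⟨z, hCP z.2⟩ : P) ^ D.index, MonoidHom.transfer_eq_pow_aux _ (key _)⟩ : D) = 1 := by
      have h2 : Function.Injective ϕ := e.injective.comp (Subgroup.subgroupOfEquivOfLe hCP).injective
      exact h2 (by rw [h, map_one])
    have h2 : (z : Q) ^ (D.index : ℤ) = (z : Q) ^ (0 : ℤ) := by
      have h3 := congrArg (fun x : D => ((x : P) : Q)) h1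
      simpa using h3
    have h3 : (D.index : ℤ) = 0 := hzinj h2
    exact hDfi.index_ne_zero (by exact_mod_cast h3)
  obtain ⟨ψ, x₁, hx₁⟩ := hPcyc
  have hPfcc : FinitelyCyclicallyCovered P := hF.subgroup P
  have hψinj : Function.Injective ψ := by
    rw [injective_iff_map_eq_one]
    intro x hx
    by_contra hne
    have h1 : (x : Q) ≠ 1 := fun h => hne (Subtype.ext h)
    obtain ⟨N, hN, hxN⟩ := hRF x h1
    have h2 := ker_le_of_fcc hPfcc ψ hx₁ (N.subgroupOf P).normalCore inferInstance inferInstance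
    exact hxN (Subgroup.mem_subgroupOf.1 (Subgroup.normalCore_le _ (h2 (MonoidHom.mem_ker.2 hx))))
  have hPc : IsCyclic P := isCyclic_of_injective ψ hψinj
  have hPinf : Infinite P := Infinite.of_injective _ (Subgroup.inclusion_injective hCP)
  obtain ⟨w, hw⟩ := hPc.exists_generator
  have hwtop : zpowers w = ⊤ := by
    rw [eq_top_iff]; intro x _; exact hw x
  have hwinj : Function.Injective fun k : ℤ => (w : Q) ^ k := by
    have h1 := (zpowersHom_bijective hwtop).1
    intro k l hkl
    have h2 : w ^ k = w ^ l := Subtype.ext (by simpa using hkl)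
    have h3 := @h1 (Multiplicative.ofAdd k) (Multiplicative.ofAdd l) (by simpa using h2)
    exact Multiplicative.ofAdd.injective h3
  have hmemw : ∀ x ∈ P, ∃ k : ℤ, (w : Q) ^ k = x := by
    intro x hx
    obtain ⟨k, hk⟩ := hw ⟨x, hx⟩
    exact ⟨k, by simpa using congrArg Subtype.val hk⟩
  by_cases hPtop : P = ⊤
  · left
    have hQtop : zpowers (w : Q) = ⊤ := by
      rw [eq_top_iff]
      intro x _
      obtain ⟨k, hk⟩ := hmemw x (by rw [hPtop]; trivial)
      exact ⟨k, hk⟩
    exact ⟨(intEquivOfZPowersEqTop (w : Q) hQtop).symm⟩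
  · right
    obtain ⟨s, hs⟩ : ∃ s, s ∉ P := by
      by_contra h
      push Not at h
      exact hPtop (eq_top_iff.2 fun x _ => h x)
    have hsz : s * z * s⁻¹ = (z : Q)⁻¹ := by
      rcases hpm s with h | h
      · exact absurd ((memP s).2 h) hs
      · exact h
    have hsP : ∀ g, g ∉ P → s * g ∈ P := by
      intro g hg
      have hgz : g * z * g⁻¹ = (z : Q)⁻¹ := by
        rcases hpm g with h | h
        · exact absurd ((memP g).2 h) hg
        · exact h
      rw [memP]
      calc s * g * z * (s * g)⁻¹ = s * (g * z * g⁻¹) * s⁻¹ := by group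
        _ = (s * z * s⁻¹)⁻¹ := by rw [hgz]; group
        _ = z := by rw [hsz, inv_inv]
    have hswP : s * w * s⁻¹ ∈ P := by
      have hwz : (w : Q) * z * (w : Q)⁻¹ = z := (memP _).1 w.2
      have hsz' : s⁻¹ * z * s = (z : Q)⁻¹ := by
        have : s⁻¹ * (s * z * s⁻¹)⁻¹ * s = (z : Q)⁻¹ := by group
        rw [hsz, inv_inv] at this
        exact this
      rw [memP]
      calc s * w * s⁻¹ * z * (s * w * s⁻¹)⁻¹ = s * w * (s⁻¹ * z * s) * (w : Q)⁻¹ * s⁻¹ := by group
        _ = s * ((w : Q) * z * (w : Q)⁻¹)⁻¹ * s⁻¹ := by rw [hsz']; group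
        _ = (s * z * s⁻¹)⁻¹ := by rw [hwz]; group
        _ = z := by rw [hsz, inv_inv]
    obtain ⟨k, hk⟩ := hmemw _ hswP
    obtain ⟨j, hj⟩ := hmemw _ (hCP z.2)
    have hj0 : j ≠ 0 := by
      rintro rfl
      rw [zpow_zero] at hj
      have := @hzinj 1 0 (by simp [← hj])
      exact one_ne_zero this
    have hk1 : k = -1 := by
      have h1 : (w : Q) ^ (k * j) = (w : Q) ^ (-j) := by
        rw [zpow_mul, hk, ← hconjpow, hj, hsz, zpow_neg, hj]
      have h2 : k * j = -j := hwinj h1
      have h3 : (k + 1) * j = 0 := by linarith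
      rcases mul_eq_zero.1 h3 with h4 | h4
      · linarith
      · exact absurd h4 hj0
    have hsw : s * w * s⁻¹ = (w : Q)⁻¹ := by rw [← hk, hk1, zpow_neg_one]
    have hswk : ∀ i : ℤ, s * (w : Q) ^ i = (w : Q) ^ (-i) * s := by
      intro i
      rw [← mul_inv_eq_iff_eq_mul, hconjpow, hsw, inv_zpow, zpow_neg]
    have hss : s * s = 1 := by
      obtain ⟨i, hi⟩ := hmemw _ (hsP s hs)
      have h1 : (w : Q) ^ i = (w : Q) ^ (-i) := by
        have h2 : s * (s * s) * s⁻¹ = s * s := by group
        rw [← hi, hswk, mul_inv_cancel_right] at h2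
        exact h2.symm
      have h2 : i = -i := hwinj h1
      have h3 : i = 0 := by linarith
      rw [← hi, h3, zpow_zero]
    let c : ZMod 0 → ℤ := fun i => i
    let f : DihedralGroup 0 → Q := fun d =>
      match d with
      | .r i => (w : Q) ^ (c i)
      | .sr i => s * (w : Q) ^ (c i)
    have hfr : ∀ i : ZMod 0, f (.r i) = (w : Q) ^ (c i) := fun i => rfl
    have hfs : ∀ i : ZMod 0, f (.sr i) = s * (w : Q) ^ (c i) := fun i => rfl
    have hmul : ∀ x y, f (x * y) = f x * f y := by
      rintro (i | i) (j | j)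
      · change (w : Q) ^ (c i + c j) = (w : Q) ^ (c i) * (w : Q) ^ (c j)
        rw [zpow_add]
      · change s * (w : Q) ^ (c j - c i) = (w : Q) ^ (c i) * (s * (w : Q) ^ (c j))
        have h1 := hswk (-(c i))
        rw [neg_neg] at h1
        rw [← mul_assoc, ← h1, mul_assoc, ← zpow_add]
        congr 2
        ring
      · change s * (w : Q) ^ (c i + c j) = s * (w : Q) ^ (c i) * (w : Q) ^ (c j)
        rw [zpow_add, mul_assoc]
      · change (w : Q) ^ (c j - c i) =
          s * (w : Q) ^ (c i) * (s * (w : Q) ^ (c j))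
        rw [hswk, mul_assoc, ← mul_assoc s, hss, one_mul, ← zpow_add]
        congr 1
        ring
    have hinj : Function.Injective f := by
      have hsne : ∀ i : ℤ, s * (w : Q) ^ i ∈ P → False := by
        intro i h
        apply hs
        have := P.mul_mem h (P.inv_mem (P.zpow_mem w.2 i))
        simpa using this
      rintro (i | i) (j | j) h
      · rw [hfr, hfr] at h
        exact congrArg DihedralGroup.r (hwinj h)
      · rw [hfr, hfs] at h
        exact (hsne _ (h ▸ P.zpow_mem w.2 _)).elim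
      · rw [hfr, hfs] at h
        exact (hsne _ (h ▸ P.zpow_mem w.2 _)).elim
      · rw [hfs, hfs] at h
        exact congrArg DihedralGroup.sr (hwinj (mul_left_cancel h))
    have hsurj : Function.Surjective f := by
      intro g
      by_cases hg : g ∈ P
      · obtain ⟨i, hi⟩ := hmemw g hg
        exact ⟨.r i, hi⟩
      · obtain ⟨i, hi⟩ := hmemw _ (hsP g hg)
        refine ⟨.sr i, ?_⟩
        change s * (w : Q) ^ (c i) = g
        change s * (w : Q) ^ i = g
        rw [hi, ← mul_assoc, hss, one_mul]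
    exact ⟨(MulEquiv.ofBijective (MonoidHom.mk' f hmul) ⟨hinj, hsurj⟩).symm⟩

/-- **Structure theorem.** -/
theorem residual_quotient {G : Type*} [Group G] (hG : T1.SFCC G)
    (hR : ¬ (finiteResidual G).FiniteIndex)
    (hQ : RFS.AlmostSimpleSolvable G ∨ ∃ H : Subgroup G, H.FiniteIndex ∧
      ∀ n : ℕ, ∃ (N : Subgroup H) (_ : N.Normal),
          N.FiniteIndex ∧ n ≤ N.index ∧ Group.IsSolvable (H ⧸ N)) :
    Nonempty ((G ⧸ finiteResidual G) ≃* Multiplicative ℤ) ∨
      Nonempty ((G ⧸ finiteResidual G) ≃* DihedralGroup 0) := by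
  have hinf : Infinite (G ⧸ finiteResidual G) := by
    rw [← not_finite_iff_infinite]
    intro hfin
    exact hR ⟨Nat.card_ne_zero.2 ⟨inferInstance, hfin⟩⟩
  have hFQ : FinitelyCyclicallyCovered (G ⧸ finiteResidual G) :=
    fcc_map hG.fcc (QuotientGroup.mk' _) (QuotientGroup.mk'_surjective _)
  refine cyclic_or_dihedral hFQ rf_quotient ?_
  rcases vcyc_or_bounded hG hQ with ⟨H, hH, hcyc⟩ | ⟨B, hB⟩
  · set H' := H.map (QuotientGroup.mk' (finiteResidual G)) with hH'
    have hH'fi : H'.FiniteIndex := by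
      constructor
      intro h0
      have h2 := H.index_map_dvd (QuotientGroup.mk'_surjective (finiteResidual G))
      rw [← hH', h0] at h2
      exact hH.index_ne_zero (Nat.eq_zero_of_zero_dvd h2)
    have hc : ∀ x y : H', x * y = y * x := by
      rintro ⟨_, x, hx, rfl⟩ ⟨_, y, hy, rfl⟩
      apply Subtype.ext
      change (QuotientGroup.mk' (finiteResidual G)) x * (QuotientGroup.mk' (finiteResidual G)) y =
        (QuotientGroup.mk' (finiteResidual G)) y * (QuotientGroup.mk' (finiteResidual G)) x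
      have h1 := commutator_mem_residual hH (fun N _ hN => hcyc N hN) ⟨x, hx⟩ ⟨y, hy⟩
      have h2 : (QuotientGroup.mk' (finiteResidual G)) (x * y * x⁻¹ * y⁻¹) = 1 :=
        (QuotientGroup.eq_one_iff _).2 h1
      rw [map_mul, map_mul, map_mul, map_inv, map_inv, mul_inv_eq_one, mul_inv_eq_iff_eq_mul] at h2
      exact h2
    obtain ⟨K, hK, hKc⟩ := exists_cyclic_of_comm hc (hFQ.subgroup H')
    refine ⟨K.map H'.subtype,
      ⟨index_map_subtype_ne_zero hH'fi.index_ne_zero hK.index_ne_zero⟩, ?_⟩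
    exact isCyclic_of_surjective (K.equivMapOfInjective H'.subtype H'.subtype_injective)
      (K.equivMapOfInjective H'.subtype H'.subtype_injective).surjective
  · exfalso
    obtain ⟨r, a, hcov⟩ := cov_of_fcc hG.fcc
    have hK0 := T1.coreBdd_index_ne_zero (a := a) hcov B
    have hle : T1.coreBdd G B ≤ finiteResidual G := by
      intro g hg
      rw [mem_finiteResidual]
      intro N hN
      have h1 : N.normalCore.index ≠ 0 := (index_normalCore_le hN.index_ne_zero).1
      have h2 := T1.coreBdd_le (D := B) N.normalCore_normal h1 (hB _ N.normalCore_normal h1)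
      exact Subgroup.normalCore_le _ (h2 hg)
    have : (T1.coreBdd G B).FiniteIndex := ⟨hK0⟩
    exact hR (Subgroup.finiteIndex_of_le hle)

end Vale.Agent.P216.RFS
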