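import Vale.Agent.P216.H215.MonoCov
import Vale.Agent.P216.H215.MonoHomeo
import Vale.Agent.P216.H494.CovMain

/-!
# From simply connected manifolds with monogenic cohomology to the manifolds they cover
-/

open Set Topology Bundle Manifold
open scoped ContDiff
open Vale.Agent.P216.H494

namespace Vale.Agent.P216.H215

/-- The statement of theorem D3 for simply connected manifolds modelled on `E`. -/
def D3Goal (E : Type) [NormedAddCommGroup E] [NormedSpace ℝ E] [FiniteDimensional ℝ E] : Prop :=
  ∀ (N : Type) [MetricSpace N] [CompactSpace N] [ChartedSpace E N]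
    [IsManifold 𝓘(ℝ, E) ∞ N] [RiemannianBundle (fun x : N => TangentSpace 𝓘(ℝ, E) x)]
    [IsContMDiffRiemannianBundle 𝓘(ℝ, E) ∞ E (fun x : N => TangentSpace 𝓘(ℝ, E) x)]
    [IsRiemannianManifold 𝓘(ℝ, E) N] [SimplyConnectedSpace N] (d h : ℕ),
    4 ≤ d → 1 ≤ h → (Even d ∨ h = 1) → ASCoh.Monogenic N ℚ d h →
    (primeClosedGeodesicImages N).Infinite

variable (E : Type) [NormedAddCommGroup E] [NormedSpace ℝ E] [FiniteDimensional ℝ E]
    {M : Type} [MetricSpace M] [CompactSpace M] [ChartedSpace E M] [IsManifold 𝓘(ℝ, E) ∞ M]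
    [RiemannianBundle (fun x : M => TangentSpace 𝓘(ℝ, E) x)]
    [IsContMDiffRiemannianBundle 𝓘(ℝ, E) ∞ E (fun x : M => TangentSpace 𝓘(ℝ, E) x)]
    [IsRiemannianManifold 𝓘(ℝ, E) M]

include E in
/-- Theorem D3 for simply connected manifolds gives the theorem for the manifolds they cover. -/
theorem infinite_of_monogenicCovered (H : D3Goal E) (h : MonogenicCovered M) :
    (primeClosedGeodesicImages M).Infinite := by
  obtain ⟨hd, hh, hdh, q, hq, hX⟩ := h
  refine infinite_of_localHomeomorph (E := E) hq.isLocalHomeomorph ?_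
  intro N _ _ _ _ _ _ _ hN
  obtain ⟨e⟩ := hN
  have : SimplyConnectedSpace N := e.toHomotopyEquiv.simplyConnectedSpace
  exact H N _ _ hd hh hdh (hX.of_homeo e.symm)

end Vale.Agent.P216.H215
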