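import Vale.Agent.P216.H215.OddH
import Vale.Agent.P216.H269D.H1G
import Vale.Agent.P216.D246.Dim
import Vale.Agent.P216.H126.CovUnion4

/-!
# Closed simply connected manifolds: the cases of the cohomology ring
-/

open Set Topology Bundle Manifold
open scoped ContDiff

namespace Vale.Agent.P216.H215

open Vale.Agent.P216.Sl Vale.Agent.P216.PS Vale.Agent.P216.ASCoh
open Vale.Agent.P216.H133C (pw)

/-- `H^1 = 0` for list cocycles of simply connected manifolds. -/
theorem exL_one {k : Type} [Field k] (E : Type) [NormedAddCommGroup E] [NormedSpace ℝ E]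
    {M : Type} [MetricSpace M] [CompactSpace M] [ChartedSpace E M] [SimplyConnectedSpace M]
    {f : List M → k} (hf : CocL (univ : Set M) 1 f) : ExL (univ : Set M) 1 f := by
  obtain ⟨ε, hε, hf⟩ := hf
  have h1 : H269D.MCoc (fun x y : M => Multiplicative.ofAdd (f [x, y])) ε := by
    intro x y z h1 h2 h3
    have hs : SmL (univ : Set M) ε [x, y, z] := by
      refine ⟨fun _ _ => mem_univ _, fun a ha b hb => ?_⟩
      simp only [List.mem_cons, List.not_mem_nil, or_false] at ha hb
      rcases ha with rfl | rfl | rfl <;> rcases hb with rfl | rfl | rfl <;>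
        first
          | (rw [dist_self]; exact hε)
          | assumption
          | (rw [dist_comm]; assumption)
    have h4 := hf [x, y, z] rfl hs
    rw [N929.dl_cons, N929.dl_cons, N929.dl_cons, N929.dl_nil] at h4
    rw [← ofAdd_add]
    congr 1
    linear_combination h4
  obtain ⟨lam, δ, hδ, h⟩ := H269D.h1g_mfd E h1 hε
  refine ⟨fun l => match l with
    | [x] => -(Multiplicative.toAdd (lam x))
    | _ => 0, fun h0 => absurd h0 one_ne_zero, δ, hδ, fun l hl hs => ?_⟩
  obtain ⟨x, y, rfl⟩ := List.length_eq_two.1 hl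
  have h2 := congrArg Multiplicative.toAdd (h x y (hs.2 x (by simp) y (by simp)))
  rw [toAdd_ofAdd, toAdd_mul, toAdd_inv] at h2
  rw [N929.dl_cons, N929.dl_cons, N929.dl_nil, h2]
  ring

/-- The degree `d` and the height `h` of a closed simply connected manifold of dimension at least
two, different from three, whose rational cohomology ring is generated by one class. -/
theorem monogenic_cases (E : Type) [NormedAddCommGroup E] [NormedSpace ℝ E] [FiniteDimensional ℝ E]
    {M : Type} [MetricSpace M] [CompactSpace M] [ChartedSpace E M] [SimplyConnectedSpace M]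
    (hn : 2 ≤ Module.finrank ℝ E) (h3 : Module.finrank ℝ E ≠ 3) {d h : ℕ}
    (hM : Monogenic M ℚ d h) : 1 ≤ h ∧ (d = 2 ∨ 4 ≤ d ∧ (Even d ∨ h = 1)) := by
  have h2 : (2 : ℚ) ≠ 0 := two_ne_zero
  obtain ⟨w, -, hw, hw0⟩ := D246.exists_not_exL_mfd (M := M) (k := ℚ) (E := E) h2 rfl
    (by omega : 1 ≤ Module.finrank ℝ E)
  rcases Nat.eq_zero_or_pos d with rfl | hd
  · exfalso
    obtain ⟨x, -, -, hs⟩ := hM
    have key : ∀ l : List M, l.length = Module.finrank ℝ E + 1 →
        toL (ofL (Module.finrank ℝ E + 1) w) l = w l := fun l hl => toL_ofL w hl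
    rcases hs _ (ofL (Module.finrank ℝ E + 1) w) (by
      rw [H934D.isCocycle_iff]
      obtain ⟨ε, hε, hw⟩ := hw
      refine ⟨ε, hε, fun l hl hs => ?_⟩
      rw [← hw l hl hs]
      exact N929.dl_congr fun l' hl' _ => key l' (by omega)) with h1 | ⟨j, -, e, -⟩
    · rw [H934D.isCobd_iff] at h1
      exact hw0 (Comm.exL_congr one_pos h1 fun l hl _ => (key l hl).symm)
    · omega
  · obtain ⟨B⟩ := H934D.baseK_of_monogenic hd hM
    have hdim : Module.finrank ℝ E = d * h := by
      refine D246.finrank_eq h2 (by omega) (H934D.pw_cocL B.hε B.cξ h) (B.ne h le_rfl)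
        fun q hq u hu => B.zero q (fun j hj he => ?_) u hu
      have := Nat.mul_le_mul_left d hj
      omega
    have hh : 1 ≤ h := by
      rcases Nat.eq_zero_or_pos h with rfl | h
      · omega
      · exact h
    refine ⟨hh, ?_⟩
    have hodd : Odd d → h = 1 := fun hd => le_antisymm (monogenic_odd h2 hd hM) hh
    rcases (by omega : d = 1 ∨ d = 2 ∨ d = 3 ∨ 4 ≤ d) with rfl | rfl | rfl | h4
    · exfalso
      have hc : CocL (univ : Set M) 1 B.ξ := ⟨B.ε, B.hε, fun l hl hs => B.cξ l hl hs⟩
      refine B.ne 1 hh (Comm.exL_congr one_pos (exL_one E hc) fun l hl _ => ?_)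
      have e3 : (l.drop 1).length = 1 := by
        rw [List.length_drop]; omega
      have e4 : l.take (1 + 1) = l := List.take_of_length_le (by omega)
      change B.ξ (l.take (1 + 1)) * (if (l.drop 1).length = 1 then 1 else 0) = B.ξ l
      rw [if_pos e3, e4, mul_one]
    · exact Or.inl rfl
    · exfalso
      have := hodd (by decide)
      subst this
      omega
    · right
      refine ⟨h4, ?_⟩
      rcases Nat.even_or_odd d with h | h
      · exact Or.inl h
      · exact Or.inr (hodd h)

/-- The theorem on closed simply connected manifolds with rational cohomology ring generated by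
one class of degree two. -/
def EGoal : Prop :=
  ∀ {E : Type} [NormedAddCommGroup E] [NormedSpace ℝ E] [FiniteDimensional ℝ E]
    {N : Type} [MetricSpace N] [CompactSpace N] [ChartedSpace E N] [IsManifold 𝓘(ℝ, E) ∞ N]
    [RiemannianBundle (fun x : N => TangentSpace 𝓘(ℝ, E) x)]
    [IsContMDiffRiemannianBundle 𝓘(ℝ, E) ∞ E (fun x : N => TangentSpace 𝓘(ℝ, E) x)]
    [IsRiemannianManifold 𝓘(ℝ, E) N] [SimplyConnectedSpace N] {h : ℕ},
    1 ≤ h → ASCoh.Monogenic N ℚ 2 h → (primeClosedGeodesicImages N).Infinite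

/-- The theorem on closed simply connected manifolds whose rational cohomology ring is not
generated by one class. -/
def VGoal : Prop :=
  ∀ {E : Type} [NormedAddCommGroup E] [NormedSpace ℝ E] [FiniteDimensional ℝ E]
    {N : Type} [MetricSpace N] [CompactSpace N] [ChartedSpace E N] [IsManifold 𝓘(ℝ, E) ∞ N]
    [RiemannianBundle (fun x : N => TangentSpace 𝓘(ℝ, E) x)]
    [IsContMDiffRiemannianBundle 𝓘(ℝ, E) ∞ E (fun x : N => TangentSpace 𝓘(ℝ, E) x)]
    [IsRiemannianManifold 𝓘(ℝ, E) N] [SimplyConnectedSpace N],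
    2 ≤ Module.finrank ℝ E → (∀ d h : ℕ, ¬ ASCoh.Monogenic N ℚ d h) →
    (primeClosedGeodesicImages N).Infinite

/-- **All closed simply connected manifolds of dimension at least two, different from three.** -/
theorem infinite_simplyConnected (hE : EGoal) (hD : H126.D3Goal) (hV : VGoal)
    {E : Type} [NormedAddCommGroup E] [NormedSpace ℝ E] [FiniteDimensional ℝ E]
    {N : Type} [MetricSpace N] [CompactSpace N] [ChartedSpace E N] [IsManifold 𝓘(ℝ, E) ∞ N]
    [RiemannianBundle (fun x : N => TangentSpace 𝓘(ℝ, E) x)]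
    [IsContMDiffRiemannianBundle 𝓘(ℝ, E) ∞ E (fun x : N => TangentSpace 𝓘(ℝ, E) x)]
    [IsRiemannianManifold 𝓘(ℝ, E) N] [SimplyConnectedSpace N]
    (hn : 2 ≤ Module.finrank ℝ E) (h3 : Module.finrank ℝ E ≠ 3) :
    (primeClosedGeodesicImages N).Infinite := by
  by_cases hM : ∃ d h : ℕ, ASCoh.Monogenic N ℚ d h
  · obtain ⟨d, h, hM⟩ := hM
    obtain ⟨hh, rfl | ⟨h4, he⟩⟩ := monogenic_cases E hn h3 hM
    · exact hE (E := E) hh hM
    · exact hD (E := E) h4 hh he hM
  · push Not at hM
    exact hV (E := E) hn hM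

end Vale.Agent.P216.H215
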