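import Vale.Agent.P216.H787.Cls
import Vale.Agent.P216.N929.Fib0

/-!
# The reversal of lists, and graded commutativity of the cup product of list cochains

`rvL` : the reversal of lists, with the sign `(-1) ^ (m (m - 1) / 2)` on the lists of length `m`, is
a chain map which is homotopic to the identity (the homotopy `hm` is the cone over the first entry).
* `exL_rev` : `f ∘ rvL - f` is exact for every cocycle `f`;
* `cup_comm` : `f ∪ g - (-1) ^ (p q) g ∪ f` is exact for cocycles `f`, `g` of degrees `p`, `q`.
-/

open Set Finsupp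

namespace Vale.Agent.P216.H215.Comm

open Vale.Agent.P216.Sl Vale.Agent.P216.PS Vale.Agent.P216.N929

variable {k : Type} [Field k] {α : Type}

/-- The sign `(-1) ^ (m (m - 1) / 2)`. -/
def sg (k : Type) [Field k] : ℕ → k
  | 0 => 1
  | m + 1 => (-1) ^ m * sg k m

theorem sg_mul_self (m : ℕ) : sg k m * sg k m = 1 := by
  induction m with
  | zero => rw [sg, one_mul]
  | succ m ih =>
    rw [sg]
    calc (-1) ^ m * sg k m * ((-1) ^ m * sg k m)
        = ((-1) ^ m * (-1) ^ m) * (sg k m * sg k m) := by ring
      _ = 1 := by rw [ih, ← mul_pow]; norm_num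

theorem sg_add (p q : ℕ) : sg k (p + q) = (-1) ^ (p * q) * (sg k p * sg k q) := by
  induction p with
  | zero => rw [Nat.zero_add, Nat.zero_mul, pow_zero, sg]; ring
  | succ p ih =>
    rw [show p + 1 + q = (p + q) + 1 by omega, sg, ih, sg, Nat.succ_mul, pow_add, pow_add]
    ring

theorem sg_cup (p q : ℕ) :
    sg k (p + q + 1) = (-1) ^ (p * q) * (sg k (p + 1) * sg k (q + 1)) := by
  rw [sg, sg_add, sg, sg, pow_add]
  ring

/-- Append an entry. -/
noncomputable def snoc (x : α) : Ch k α →ₗ[k] Ch k α :=
  Finsupp.lmapDomain k k fun l => l ++ [x]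

@[simp] theorem snoc_single (x : α) (l : List α) (r : k) :
    snoc x (single l r) = single (l ++ [x]) r := by
  simp [snoc, Finsupp.lmapDomain_apply, Finsupp.mapDomain_single]

theorem snoc_cons (x y : α) (c : Ch k α) : snoc x (cons y c) = cons y (snoc x c) := by
  have := lin_ext_apply (f := (snoc x).comp (cons y)) (g := (cons y).comp (snoc (k := k) x))
    (fun l => by simp) c
  simpa using this

/-- The reversal. -/
noncomputable def rvL : Ch k α →ₗ[k] Ch k α :=
  Finsupp.linearCombination k fun l => single l.reverse (sg k l.length)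

theorem rvL_single (l : List α) (r : k) :
    rvL (single l r) = r • single l.reverse (sg k l.length) := by
  simp [rvL, Finsupp.linearCombination_single]

/-- Lists of length `m`. -/
def Len (m : ℕ) (l : List α) : Prop := l.length = m

theorem bdL_len {m : ℕ} {l : List α} (hl : l.length = m + 1) :
    (bdL l : Ch k α) ∈ Sp k (Len m) :=
  Sp_mono (fun l' hl' => by
    have : l'.length + 1 = l.length := hl'.1
    show l'.length = m
    omega) (bdL_sub l)

theorem bd_bdL (l : List α) : bd (bdL l : Ch k α) = 0 := by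
  have := bd_bd (single l (1 : k))
  rwa [bd_single, one_smul] at this

theorem rvL_cons (x : α) {m : ℕ} {c : Ch k α} (hc : c ∈ Sp k (Len m)) :
    rvL (cons x c) = (-1 : k) ^ m • snoc x (rvL c) := by
  have := eq_of_mem (F := rvL.comp (cons x)) (G := (-1 : k) ^ m • (snoc x).comp rvL)
    (fun l (hl : l.length = m) => by
      rw [LinearMap.comp_apply, cons_single, rvL_single, LinearMap.smul_apply,
        LinearMap.comp_apply, rvL_single, one_smul, one_smul, snoc_single, List.length_cons, hl,
        List.reverse_cons, smul_single, smul_eq_mul, sg]) hc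
  simpa using this

theorem bd_snoc (x : α) {m : ℕ} {c : Ch k α} (hc : c ∈ Sp k (Len m)) :
    bd (snoc x c) = snoc x (bd c) + (-1 : k) ^ m • c := by
  have key : ∀ l : List α, (bdL (l ++ [x]) : Ch k α) =
      snoc x (bdL l) + (-1 : k) ^ l.length • single l 1 := by
    intro l
    induction l with
    | nil =>
      rw [List.nil_append, bdL_cons, bdL_nil, map_zero, map_zero, List.length_nil, pow_zero,
        one_smul, sub_zero, zero_add]
    | cons y l ih =>
      rw [List.cons_append, bdL_cons, ih, bdL_cons, map_sub, map_add, snoc_single, snoc_cons,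
        map_smul, cons_single, List.length_cons, pow_succ]
      module
  have := eq_of_mem (F := bd.comp (snoc x)) (G := (snoc x).comp bd + (-1 : k) ^ m • LinearMap.id)
    (fun l (hl : l.length = m) => by
      rw [LinearMap.comp_apply, snoc_single, bd_single, one_smul, key, LinearMap.add_apply,
        LinearMap.comp_apply, bd_single, one_smul, LinearMap.smul_apply, LinearMap.id_apply, hl]) hc
  simpa using this

theorem rvL_len {m : ℕ} {c : Ch k α} (hc : c ∈ Sp k (Len m)) : rvL c ∈ Sp k (Len m) :=
  map_mem rvL (fun l (hl : l.length = m) => by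
    rw [rvL_single, one_smul]
    exact single_mem (P := Len m) (by show l.reverse.length = m; rw [List.length_reverse, hl]) _) hc

/-- The reversal is a chain map. -/
theorem bd_rvL (l : List α) : bd (rvL (single l (1 : k))) = rvL (bdL l) := by
  induction l with
  | nil =>
    rw [bdL_nil, map_zero, rvL_single, one_smul, bd_single, List.reverse_nil, bdL_nil, smul_zero]
  | cons x l ih =>
    have h0 : (single l (1 : k)) ∈ Sp k (Len l.length) :=
      single_mem (P := Len l.length) (l := l) rfl 1
    have h1 := rvL_cons x h0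
    rw [cons_single] at h1
    rw [h1, map_smul, bd_snoc x (rvL_len h0), ih, bdL_cons, map_sub]
    rcases l with _ | ⟨y, l⟩
    · simp only [bdL_nil, map_zero, List.length_nil, pow_zero, one_smul, zero_add, sub_zero]
    · have h2 := rvL_cons x (bdL_len (k := k) (m := l.length) (l := y :: l) rfl)
      rw [h2, List.length_cons, smul_add, smul_smul, ← mul_pow, pow_succ]
      simp only [mul_neg, mul_one, neg_neg, one_pow, one_smul, neg_smul]
      abel

theorem bd_rvL' (c : Ch k α) : bd (rvL c) = rvL (bd c) := by
  have := lin_ext_apply (f := bd.comp rvL) (g := rvL.comp (bd (k := k))) (fun l => by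
    rw [LinearMap.comp_apply, LinearMap.comp_apply, bd_rvL, bd_single, one_smul]) c
  simpa using this

/-- The homotopy, on the lists of length `m`. -/
noncomputable def hm : ℕ → Ch k α →ₗ[k] Ch k α
  | 0 => 0
  | m + 1 => Finsupp.linearCombination k fun l => match l with
    | [] => 0
    | x :: l => cons x (rvL (single (x :: l) 1) - single (x :: l) 1 - hm m (bdL (x :: l)))

theorem hm_zero (c : Ch k α) : hm 0 c = 0 := rfl

theorem hm_succ (m : ℕ) (x : α) (l : List α) : hm (m + 1) (single (x :: l) (1 : k)) =
    cons x (rvL (single (x :: l) 1) - single (x :: l) 1 - hm m (bdL (x :: l))) := by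
  rw [hm, Finsupp.linearCombination_single, one_smul]

theorem bd_hm (m : ℕ) : ∀ l : List α, l.length = m + 1 → bd (hm (m + 1) (single l (1 : k))) =
    rvL (single l 1) - single l 1 - hm m (bdL l) := by
  induction m with
  | zero =>
    intro l hl
    obtain ⟨x, rfl⟩ := List.length_eq_one_iff.1 hl
    have h : rvL (single [x] (1 : k)) = single [x] 1 := by
      rw [rvL_single, one_smul, List.reverse_singleton, List.length_singleton, sg, sg, pow_zero,
        one_mul]
    rw [hm_succ, h, hm_zero, sub_self, sub_zero, map_zero, map_zero]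
  | succ m ih =>
    intro l hl
    obtain ⟨x, l, rfl⟩ : ∃ x l', l = x :: l' := by
      rcases l with _ | ⟨x, l⟩
      · simp at hl
      · exact ⟨x, l, rfl⟩
    have h1 : bd (hm (m + 1) (bdL (x :: l) : Ch k α)) =
        rvL (bdL (x :: l)) - bdL (x :: l) - hm m (bd (bdL (x :: l))) := by
      have := eq_of_mem (F := bd.comp (hm (m + 1)))
        (G := rvL - LinearMap.id - (hm m).comp bd)
        (fun l' (hl' : l'.length = m + 1) => by
          rw [LinearMap.comp_apply, ih l' hl', LinearMap.sub_apply, LinearMap.sub_apply,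
            LinearMap.comp_apply, bd_single, one_smul, LinearMap.id_apply])
        (bdL_len (k := k) (m := m + 1) (l := x :: l) hl)
      simpa using this
    have hb : bd (rvL (single (x :: l) (1 : k)) - single (x :: l) 1 -
        hm (m + 1) (bdL (x :: l))) = 0 := by
      rw [map_sub, map_sub, bd_rvL, bd_single, one_smul, h1, bd_bdL, map_zero, sub_zero, sub_self]
    rw [hm_succ, bd_cons, hb, map_zero, sub_zero]

/-- The support of the homotopy. -/
theorem hm_mem (m : ℕ) : ∀ l : List α, l.length = m →
    hm m (single l (1 : k)) ∈ Sp k fun l' => l'.length = m + 1 ∧ ∀ x ∈ l', x ∈ l := by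
  induction m with
  | zero =>
    intro l _
    rw [hm_zero]
    exact Submodule.zero_mem _
  | succ m ih =>
    intro l hl
    obtain ⟨x, l, rfl⟩ : ∃ x l', l = x :: l' := by
      rcases l with _ | ⟨x, l⟩
      · simp at hl
      · exact ⟨x, l, rfl⟩
    rw [hm_succ]
    have h1 : rvL (single (x :: l) (1 : k)) - single (x :: l) 1 - hm m (bdL (x :: l)) ∈
        Sp k fun l' => l'.length = m + 1 ∧ ∀ y ∈ l', y ∈ x :: l := by
      refine Submodule.sub_mem _ (Submodule.sub_mem _ ?_ (single_mem (P := fun l' : List α =>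
        l'.length = m + 1 ∧ ∀ y ∈ l', y ∈ x :: l) ⟨hl, fun y hy => hy⟩ _)) ?_
      · rw [rvL_single, one_smul]
        exact single_mem (P := fun l' : List α => l'.length = m + 1 ∧ ∀ y ∈ l', y ∈ x :: l)
          ⟨by rw [List.length_reverse, hl], fun y hy => List.mem_reverse.1 hy⟩ _
      · refine map_mem (N := Sp k fun l' : List α => l'.length = m + 1 ∧ ∀ y ∈ l', y ∈ x :: l)
          (hm m) (fun l' hl' => ?_) (bdL_sub (x :: l))
        have h2 : l'.length + 1 = (x :: l).length := hl'.1
        exact Sp_mono (fun l'' (hl'' : l''.length = m + 1 ∧ ∀ y ∈ l'', y ∈ l') =>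
          ⟨hl''.1, fun y hy => hl'.2 y (hl''.2 y hy)⟩) (ih l' (by omega))
    refine map_mem (cons x) (fun l' hl' => ?_) h1
    rw [cons_single]
    refine single_mem (P := fun l' : List α => l'.length = m + 1 + 1 ∧ ∀ y ∈ l', y ∈ x :: l)
      ⟨by rw [List.length_cons, hl'.1], fun y hy => ?_⟩ _
    rcases List.mem_cons.1 hy with rfl | hy
    · exact List.mem_cons_self
    · exact hl'.2 y hy

variable [PseudoMetricSpace α] {X : Set α}

theorem smL_sub {ε : ℝ} {l l' : List α} (h : SmL X ε l) (hl : ∀ x ∈ l', x ∈ l) : SmL X ε l' :=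
  ⟨fun x hx => h.1 x (hl x hx), fun x hx y hy => h.2 x (hl x hx) y (hl y hy)⟩

/-- A cocycle is cohomologous to its reversal. -/
theorem exL_rev {n : ℕ} {f : List α → k} (hf : CocL X n f) :
    ExL X n fun l => sg k l.length * f l.reverse - f l := by
  obtain ⟨ε, hε, hf⟩ := hf
  refine ⟨fun l => ev f (hm n (single l 1)), fun h l => ?_, ε, hε, fun l hl hs => ?_⟩
  · subst h
    beta_reduce
    rw [hm_zero, map_zero]
  · have h1 := congrArg (ev f) (bd_hm (k := k) n l hl)
    rw [← ev_dl, ev_zero_of (P := fun l' => l'.length = n + 1 + 1 ∧ ∀ x ∈ l', x ∈ l)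
      (fun l' hl' => hf l' hl'.1 (smL_sub hs hl'.2)) (hm_mem (n + 1) l hl), map_sub, map_sub,
      ev_single, one_mul, rvL_single, one_smul, ev_single] at h1
    have h2 : dl (fun l => ev f (hm n (single l (1 : k)))) l = ev f (hm n (bdL l)) := by
      have := lin_ext_apply (f := ev fun l => ev f (hm n (single l (1 : k))))
        (g := (ev f).comp (hm n)) (fun l => by simp) (bdL l : Ch k α)
      simpa [dl] using this
    rw [h2]
    linear_combination -h1

theorem exL_congr {n : ℕ} {f g : List α → k} {ε : ℝ} (hε : 0 < ε) (h : ExL X n g)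
    (he : ∀ l, l.length = n + 1 → SmL X ε l → f l = g l) : ExL X n f := by
  obtain ⟨s, hs, ε', hε', h'⟩ := h
  refine ⟨s, hs, min ε ε', lt_min hε hε', fun l hl hl' => ?_⟩
  rw [he l hl (hl'.mono le_rfl (min_le_left _ _)), h' l hl (hl'.mono le_rfl (min_le_right _ _))]

theorem exL_add {n : ℕ} {f g : List α → k} (hf : ExL X n f) (hg : ExL X n g) :
    ExL X n fun l => f l + g l := by
  obtain ⟨s, hs, ε, hε, h⟩ := hf
  obtain ⟨s', hs', ε', hε', h'⟩ := hg
  refine ⟨fun l => s l + s' l, fun h0 l => by beta_reduce; rw [hs h0, hs' h0, add_zero], min ε ε',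
    lt_min hε hε', fun l hl hl' => ?_⟩
  beta_reduce
  rw [N929.dl_add_fun, h l hl (hl'.mono le_rfl (min_le_left _ _)),
    h' l hl (hl'.mono le_rfl (min_le_right _ _))]

theorem exL_smul {n : ℕ} {f : List α → k} (c : k) (hf : ExL X n f) :
    ExL X n fun l => c * f l := by
  obtain ⟨s, hs, ε, hε, h⟩ := hf
  refine ⟨fun l => c * s l, fun h0 l => by beta_reduce; rw [hs h0, mul_zero], ε, hε,
    fun l hl hl' => ?_⟩
  beta_reduce
  rw [N929.dl_smul_fun, h l hl hl']

/-- `f ∪ g` is exact if `f` is exact and `g` is a cocycle. -/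
theorem exL_cup_left {m e : ℕ} {f g : List α → k} (hf : ExL X m f) (hg : CocL X e g) :
    ExL X (m + e) (N929.cup m f g) := by
  obtain ⟨s, hs0, ε, hε, h⟩ := hf
  obtain ⟨ε', hε', h'⟩ := hg
  rcases m with _ | m
  · refine ⟨fun _ => 0, fun _ _ => rfl, ε, hε, fun l hl hl' => ?_⟩
    have e0 : s = fun _ => 0 := funext (hs0 rfl)
    rw [PS.dl_zero_fun, N929.cup, h (l.take (0 + 1)) (by rw [List.length_take]; omega)
      (smL_sub hl' fun x hx => List.mem_of_mem_take hx), e0, PS.dl_zero_fun, zero_mul]
  · refine ⟨N929.cup m s g, fun h0 => by omega, min ε ε', lt_min hε hε', fun l hl hl' => ?_⟩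
    rw [N929.dl_cup _ _ _ _ (by omega), N929.cup,
      h (l.take (m + 1 + 1)) (by rw [List.length_take]; omega)
        (SmL.mono (smL_sub hl' fun x hx => List.mem_of_mem_take hx) le_rfl (min_le_left _ _)),
      h' (l.drop m) (by rw [List.length_drop]; omega)
        (SmL.mono (smL_sub hl' fun x hx => List.mem_of_mem_drop hx) le_rfl (min_le_right _ _))]
    ring

/-- `g ∪ f` is exact if `f` is exact and `g` is a cocycle. -/
theorem exL_cup_right {m e : ℕ} {f g : List α → k} (hf : ExL X m f) (hg : CocL X e g) :
    ExL X (e + m) (N929.cup e g f) := by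
  obtain ⟨s, hs0, ε, hε, h⟩ := hf
  obtain ⟨ε', hε', h'⟩ := hg
  rcases m with _ | m
  · refine ⟨fun _ => 0, fun _ _ => rfl, ε, hε, fun l hl hl' => ?_⟩
    have e0 : s = fun _ => 0 := funext (hs0 rfl)
    rw [PS.dl_zero_fun, N929.cup, h (l.drop e) (by rw [List.length_drop]; omega)
      (smL_sub hl' fun x hx => List.mem_of_mem_drop hx), e0, PS.dl_zero_fun, mul_zero]
  · refine ⟨fun l => (-1) ^ e * N929.cup e g s l, fun h0 => by omega, min ε ε', lt_min hε hε',
      fun l hl hl' => ?_⟩
    rw [N929.dl_smul_fun, N929.dl_cup _ _ _ _ (by omega), N929.cup,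
      h (l.drop e) (by rw [List.length_drop]; omega)
        (SmL.mono (smL_sub hl' fun x hx => List.mem_of_mem_drop hx) le_rfl (min_le_left _ _)),
      h' (l.take (e + 2)) (by rw [List.length_take]; omega)
        (SmL.mono (smL_sub hl' fun x hx => List.mem_of_mem_take hx) le_rfl (min_le_right _ _))]
    have e1 : ((-1 : k) ^ e) * (-1) ^ e = 1 := by rw [← mul_pow]; norm_num
    linear_combination (-(g (List.take (e + 1) l) * dl s (List.drop e l))) * e1

/-- The signed reversal of a cocycle is a cocycle. -/
theorem cocL_rev {n : ℕ} {f : List α → k} (hf : CocL X n f) :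
    CocL X n fun l => sg k l.length * f l.reverse := by
  obtain ⟨ε, hε, hf⟩ := hf
  refine ⟨ε, hε, fun l hl hs => ?_⟩
  have h1 : dl (fun l => sg k l.length * f l.reverse) l = ev f (rvL (bdL l)) := by
    have := lin_ext_apply (f := ev fun l => sg k l.length * f l.reverse)
      (g := (ev f).comp (rvL (k := k))) (fun l => by
        rw [ev_single, one_mul, LinearMap.comp_apply, rvL_single, one_smul, ev_single])
      (bdL l : Ch k α)
    simpa [dl] using this
  rw [h1, ← bd_rvL, ← ev_dl, rvL_single, one_smul, ev_single, hf l.reverse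
    (by rw [List.length_reverse, hl]) (smL_sub hs fun x hx => List.mem_reverse.1 hx), mul_zero]

/-- **Graded commutativity.** -/
theorem cup_comm {p q : ℕ} {f g : List α → k} (hf : CocL X p f) (hg : CocL X q g) :
    ExL X (p + q) fun l => N929.cup p f g l - (-1) ^ (p * q) * N929.cup q g f l := by
  have hc : CocL X (p + q) (N929.cup p f g) := by
    obtain ⟨ε, hε, hf⟩ := hf
    obtain ⟨ε', hε', hg⟩ := hg
    refine ⟨min ε ε', lt_min hε hε', fun l hl hs => ?_⟩
    rw [N929.dl_cup _ _ _ _ (by omega),
      hf (l.take (p + 2)) (by rw [List.length_take]; omega)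
        (SmL.mono (smL_sub hs fun x hx => List.mem_of_mem_take hx) le_rfl (min_le_left _ _)),
      hg (l.drop p) (by rw [List.length_drop]; omega)
        (SmL.mono (smL_sub hs fun x hx => List.mem_of_mem_drop hx) le_rfl (min_le_right _ _))]
    ring
  have h1 := exL_rev hc
  have h2 := exL_cup_left (exL_rev hg) (cocL_rev hf)
  have h3 := exL_cup_right (exL_rev hf) hg
  rw [show q + p = p + q by omega] at h2 h3
  refine exL_congr one_pos (exL_add (exL_smul (-1) h1)
    (exL_smul ((-1) ^ (p * q)) (exL_add h2 h3))) fun l hl _ => ?_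
  have e1 : N929.cup p f g l.reverse = f (l.drop q).reverse * g (l.take (q + 1)).reverse := by
    rw [N929.cup, List.take_reverse, List.drop_reverse]
    congr 3
    · congr 1; omega
    · congr 1; omega
  have e2 : sg k l.length = (-1) ^ (p * q) *
      (sg k (l.drop q).length * sg k (l.take (q + 1)).length) := by
    rw [hl, List.length_drop, List.length_take, hl, sg_cup]
    congr 3
    · omega
    · omega
  rw [e1, e2]
  simp only [N929.cup]
  ring

end Vale.Agent.P216.H215.Comm
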