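import Mathlib.Topology.Homeomorph.Defs
import Mathlib.Algebra.Field.Defs
import Mathlib.Algebra.BigOperators.Fin

/-!
# Alexander-Spanier cohomology; cohomology rings generated by one element

`H^q(X; k)` is the `q`-th cohomology of the complex of all functions `f (x₀, …, x_q)` of `q + 1`
points of `X` modulo the functions which vanish when `x₀, …, x_q` are close together.  On manifolds
(and on all paracompact locally contractible spaces) this is singular cohomology.
-/

open Topology

namespace Vale.Agent.P216.ASCoh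

variable {X : Type} [TopologicalSpace X] {k : Type} [Field k]

/-- Cochains of degree `q`: all functions of `q + 1` points. -/
abbrev Cochain (X k : Type) (q : ℕ) : Type := (Fin (q + 1) → X) → k

/-- `f` vanishes on a neighbourhood of the diagonal; such cochains represent zero. -/
def LocZero {q : ℕ} (f : Cochain X k q) : Prop :=
  ∀ x : X, ∃ U ∈ 𝓝 x, ∀ σ : Fin (q + 1) → X, (∀ i, σ i ∈ U) → f σ = 0

/-- The coboundary `(δ f)(x₀, …, x_{q+1}) = ∑ i, (-1)^i f (x₀, …, omit xᵢ, …, x_{q+1})`. -/
def cobd {q : ℕ} (f : Cochain X k q) : Cochain X k (q + 1) :=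
  fun σ => ∑ i : Fin (q + 2), (-1) ^ (i : ℕ) * f (fun j => σ (i.succAbove j))

/-- `f` is a cocycle. -/
def IsCocycle {q : ℕ} (f : Cochain X k q) : Prop := LocZero (cobd f)

/-- `f` is a coboundary (it represents the zero class). -/
def IsCobd : {q : ℕ} → Cochain X k q → Prop
  | 0, f => LocZero f
  | q + 1, f => ∃ g : Cochain X k q, LocZero (f - cobd g)

/-- The cup product
`(f ∪ g)(x₀, …, x_{p+q}) = f (x₀, …, x_p) * g (x_p, …, x_{p+q})`. -/
def cup {p q : ℕ} (f : Cochain X k p) (g : Cochain X k q) : Cochain X k (p + q) :=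
  fun σ => f (fun i => σ ⟨i, by omega⟩) * g (fun i => σ ⟨p + i, by omega⟩)

/-- The powers `x ^ j` of a cochain, of degree `d * j`. -/
def power {d : ℕ} (x : Cochain X k d) : (j : ℕ) → Cochain X k (d * j)
  | 0 => fun _ => 1
  | j + 1 => cup (power x j) x

/-- `H^*(X; k) = k[x] / (x ^ (h + 1))` with `x` of degree `d`: the classes `1, x, …, x ^ h` are
nonzero, and every cohomology class is zero or a multiple of one of them. -/
def Monogenic (X k : Type) [TopologicalSpace X] [Field k] (d h : ℕ) : Prop :=
  ∃ x : Cochain X k d, IsCocycle x ∧ (∀ j ≤ h, ¬ IsCobd (power x j)) ∧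
    ∀ (q : ℕ) (f : Cochain X k q), IsCocycle f →
      IsCobd f ∨ ∃ j ≤ h, ∃ e : d * j = q, ∃ c : k, IsCobd (f - c • (e ▸ power x j))

end Vale.Agent.P216.ASCoh
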