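import Mathlib
import Vale.Agent.P216.A215.Stmt

/-!
# `S²` is homeomorphic to `CPn 1`

`x ↦ ½ (1 + x₀, x₁ - i x₂; x₁ + i x₂, 1 - x₀)`.
-/

open scoped ComplexConjugate

namespace Vale.Agent.P216.H215

open Vale.Agent.P216 H391

abbrev S2 : Type := Metric.sphere (0 : EuclideanSpace ℝ (Fin 3)) 1

theorem S2_sq (x : S2) : x.1 0 ^ 2 + x.1 1 ^ 2 + x.1 2 ^ 2 = 1 := by
  have h := x.2
  rw [mem_sphere_zero_iff_norm, EuclideanSpace.norm_eq, Real.sqrt_eq_one, Fin.sum_univ_three] at h
  simpa [Real.norm_eq_abs, sq_abs] using h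

/-- The matrix attached to a point of `S²`. -/
noncomputable def pauli (x : EuclideanSpace ℝ (Fin 3)) : Mt 2 := fun i j =>
  if i = 0 then (if j = 0 then (((1 + x 0) / 2 : ℝ) : ℂ) else ⟨x 1 / 2, -(x 2 / 2)⟩)
  else (if j = 0 then ⟨x 1 / 2, x 2 / 2⟩ else (((1 - x 0) / 2 : ℝ) : ℂ))

theorem pauli_mem (x : S2) : pauli x.1 ∈ CP 2 := by
  have h := S2_sq x
  set a := x.1 0
  set b := x.1 1
  set c := x.1 2
  by_cases h0 : 1 + a = 0
  · have ha : a = -1 := by linarith
    have hb : b = 0 := by
      rw [ha] at h; nlinarith [sq_nonneg b, sq_nonneg c]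
    have hc : c = 0 := by
      rw [ha] at h; nlinarith [sq_nonneg b, sq_nonneg c]
    refine ⟨fun i => if i = 0 then 0 else 1, ?_, ?_⟩
    · simp [ns, Fin.sum_univ_two]
    · funext i j
      fin_cases i <;> fin_cases j <;>
        simp [pauli, prj, show x.1 0 = a from rfl, show x.1 1 = b from rfl,
          show x.1 2 = c from rfl, ha, hb, hc, Complex.ext_iff]
  · have hpos : 0 < 1 + a := by
      rcases lt_or_gt_of_ne h0 with h1 | h1
      · nlinarith [sq_nonneg b, sq_nonneg c]
      · exact h1
    set s := Real.sqrt ((1 + a) / 2) with hs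
    have hs0 : 0 < s := Real.sqrt_pos.2 (by linarith)
    have hss : s ^ 2 = (1 + a) / 2 := Real.sq_sqrt (by linarith)
    have hsne : s ≠ 0 := hs0.ne'
    have hbc : (b / (2 * s)) ^ 2 + (c / (2 * s)) ^ 2 = (1 - a) / 2 := by
      have : (b / (2 * s)) ^ 2 + (c / (2 * s)) ^ 2 = (b ^ 2 + c ^ 2) / (4 * s ^ 2) := by
        field_simp
        ring
      rw [this, hss, div_eq_iff (by linarith)]
      nlinarith
    refine ⟨fun i => if i = 0 then (s : ℂ) else ⟨b / (2 * s), c / (2 * s)⟩, ?_, ?_⟩
    · rw [ns, Fin.sum_univ_two]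
      simp only [if_true, Fin.isValue, one_ne_zero, if_false]
      rw [Complex.norm_real, Real.norm_eq_abs, sq_abs, hss, ← Complex.normSq_eq_norm_sq,
        Complex.normSq_mk]
      nlinarith
    · funext i j
      fin_cases i <;> fin_cases j
      · simp only [pauli, prj, Fin.zero_eta, Fin.isValue, if_true, Complex.conj_ofReal]
        rw [← Complex.ofReal_mul, ← sq, hss]
      · simp only [pauli, prj, Fin.zero_eta, Fin.mk_one, Fin.isValue, if_true, one_ne_zero, if_false]
        apply Complex.ext
        · simp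
          field_simp
          rfl
        · simp
          field_simp
          rfl
      · simp only [pauli, prj, Fin.zero_eta, Fin.mk_one, Fin.isValue, if_true, one_ne_zero, if_false]
        apply Complex.ext
        · simp
          field_simp
          rfl
        · simp
          field_simp
          rfl
      · simp only [pauli, prj, Fin.mk_one, Fin.isValue, one_ne_zero, if_false]
        apply Complex.ext
        · simp
          nlinarith
        · simp
          ring

/-- The inverse map. -/
noncomputable def unpauli (P : Mt 2) : EuclideanSpace ℝ (Fin 3) :=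
  WithLp.toLp 2 ![2 * (P 0 0).re - 1, 2 * (P 1 0).re, 2 * (P 1 0).im]

theorem unpauli_mem {P : Mt 2} (hP : P ∈ CP 2) :
    unpauli P ∈ Metric.sphere (0 : EuclideanSpace ℝ (Fin 3)) 1 := by
  obtain ⟨v, hv, rfl⟩ := hP
  rw [mem_sphere_zero_iff_norm, EuclideanSpace.norm_eq, Real.sqrt_eq_one, Fin.sum_univ_three]
  rw [ns, Fin.sum_univ_two, ← Complex.normSq_eq_norm_sq, ← Complex.normSq_eq_norm_sq,
    Complex.normSq_apply, Complex.normSq_apply] at hv
  simp only [unpauli, prj, Real.norm_eq_abs, sq_abs, Matrix.cons_val_zero, Matrix.cons_val_one,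
    Matrix.cons_val, Complex.mul_re, Complex.mul_im, Complex.conj_re, Complex.conj_im]
  set a := (v 0).re
  set b := (v 0).im
  set c := (v 1).re
  set d := (v 1).im
  have e : (2 * (a * a - b * -b) - 1) ^ 2 + (2 * (c * a - d * -b)) ^ 2 +
      (2 * (c * -b + d * a)) ^ 2 - 1 =
      4 * (a * a + b * b) * ((a * a + b * b) + (c * c + d * d) - 1) := by ring
  have e2 : (a * a + b * b) + (c * c + d * d) - 1 = 0 := by linarith
  rw [e2, mul_zero, sub_eq_zero] at e
  exact e

theorem continuous_pauli : Continuous pauli := by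
  unfold pauli
  refine continuous_pi fun i => continuous_pi fun j => ?_
  have h : ∀ i : Fin 3, Continuous fun x : EuclideanSpace ℝ (Fin 3) => x i := fun i =>
    (continuous_apply i).comp (PiLp.continuous_ofLp 2 _)
  have h0 := h 0
  have h1 := h 1
  have h2 := h 2
  have hm : ∀ f g : EuclideanSpace ℝ (Fin 3) → ℝ, Continuous f → Continuous g →
      Continuous fun x => (⟨f x, g x⟩ : ℂ) := fun f g hf hg => by
    have : (fun x => (⟨f x, g x⟩ : ℂ)) = fun x => ((f x : ℝ) : ℂ) + ((g x : ℝ) : ℂ) * Complex.I := by
      funext x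
      exact (Complex.re_add_im ⟨f x, g x⟩).symm
    rw [this]
    fun_prop
  fin_cases i <;> fin_cases j
  · exact Complex.continuous_ofReal.comp ((continuous_const.add h0).div_const 2)
  · simpa using hm _ _ (h1.div_const 2) (h2.div_const 2).neg
  · simpa using hm _ _ (h1.div_const 2) (h2.div_const 2)
  · exact Complex.continuous_ofReal.comp ((continuous_const.sub h0).div_const 2)

theorem continuous_unpauli : Continuous unpauli := by
  unfold unpauli
  refine (PiLp.continuous_toLp 2 _).comp (continuous_pi fun i => ?_)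
  have he : ∀ a b : Fin 2, Continuous fun P : Mt 2 => P a b := fun a b =>
    (continuous_apply b).comp (continuous_apply a)
  fin_cases i
  · exact (continuous_const.mul (Complex.continuous_re.comp (he 0 0))).sub continuous_const
  · exact continuous_const.mul (Complex.continuous_re.comp (he 1 0))
  · exact continuous_const.mul (Complex.continuous_im.comp (he 1 0))

theorem unpauli_pauli (x : EuclideanSpace ℝ (Fin 3)) : unpauli (pauli x) = x := by
  ext i
  fin_cases i
  · simp [unpauli, pauli]
    ring
  · simp [unpauli, pauli]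
    ring
  · simp [unpauli, pauli]
    ring

theorem pauli_unpauli {P : Mt 2} (hP : P ∈ CP 2) : pauli (unpauli P) = P := by
  obtain ⟨v, hv, rfl⟩ := hP
  rw [ns, Fin.sum_univ_two, ← Complex.normSq_eq_norm_sq, ← Complex.normSq_eq_norm_sq,
    Complex.normSq_apply, Complex.normSq_apply] at hv
  funext i j
  fin_cases i <;> fin_cases j <;> apply Complex.ext <;>
    simp [pauli, unpauli, prj] <;> ring_nf <;> try linarith

/-- `S²` is homeomorphic to the space of rank one projections of `ℂ²`. -/
noncomputable def sphereTwo : Metric.sphere (0 : EuclideanSpace ℝ (Fin 3)) 1 ≃ₜ CPn 1 where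
  toFun x := ⟨pauli x.1, pauli_mem x⟩
  invFun P := ⟨unpauli P.1, unpauli_mem P.2⟩
  left_inv x := Subtype.ext (unpauli_pauli x.1)
  right_inv P := Subtype.ext (pauli_unpauli P.2)
  continuous_toFun := (continuous_pauli.comp continuous_subtype_val).subtype_mk _
  continuous_invFun := (continuous_unpauli.comp continuous_subtype_val).subtype_mk _

end Vale.Agent.P216.H215
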