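import Vale.Agent.P216.H609.Main
import Vale.Agent.P216.H215.SphereTwo

open Bundle Manifold Vale.Agent.P216
open scoped ContDiff

namespace Vale.Agent.P216.H215

/-- Every metric on a surface homeomorphic to `S²` has infinitely many closed geodesics. -/
theorem infinite_of_sphereTwo {E : Type} [NormedAddCommGroup E] [NormedSpace ℝ E]
    [FiniteDimensional ℝ E]
    {M : Type} [MetricSpace M] [CompactSpace M] [ChartedSpace E M] [IsManifold 𝓘(ℝ, E) ∞ M]
    [RiemannianBundle (fun x : M => TangentSpace 𝓘(ℝ, E) x)]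
    [IsContMDiffRiemannianBundle 𝓘(ℝ, E) ∞ E (fun x : M => TangentSpace 𝓘(ℝ, E) x)]
    [IsRiemannianManifold 𝓘(ℝ, E) M]
    (e : M ≃ₜ Metric.sphere (0 : EuclideanSpace ℝ (Fin 3)) 1) :
    (primeClosedGeodesicImages M).Infinite :=
  H609.theoremA_CPn (E := E) le_rfl (e.trans sphereTwo).toHomotopyEquiv

end Vale.Agent.P216.H215
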