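import Vale.Agent.P216.H215.ResidDef
import Mathlib.GroupTheory.SpecificGroups.Dihedral
import Mathlib.Algebra.Group.Conj
import Mathlib.Data.Real.Basic

/-!
# The hypothesis on an infinite fundamental group
-/

namespace Vale.Agent.P216.H215

/-- `G` is the union of the conjugates of finitely many cyclic subgroups, with linear control: every
`g` is conjugate to a power `a ^ k` of one of finitely many elements `a`, with `|k| ≤ lam g`, where
`lam` is subadditive. -/
def CyclicallyCovered (G : Type) [Group G] : Prop :=
  ∃ (F : Finset G) (lam : G → ℝ), (∀ g h, lam (g * h) ≤ lam g + lam h) ∧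
    ∀ g : G, ∃ a ∈ F, ∃ k : ℤ, |(k : ℝ)| ≤ lam g ∧ IsConj g (a ^ k)

/-- `G` is not cyclically covered, or `G ⧸ R`, `R` the finite residual, is infinite, not isomorphic
to `ℤ` or to the infinite dihedral group, and (a) almost simple finite sections of `G` are solvable
modulo the socle, or (b) some subgroup of finite index has finite solvable quotients of unbounded
order. -/
def LargeGroup (G : Type) [Group G] : Prop :=
  ¬ CyclicallyCovered G ∨
    (¬ (finiteResidual G).FiniteIndex ∧
      IsEmpty ((G ⧸ finiteResidual G) ≃* Multiplicative ℤ) ∧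
      IsEmpty ((G ⧸ finiteResidual G) ≃* DihedralGroup 0) ∧
      (AlmostSimpleSolvable G ∨
        ∃ H : Subgroup G, H.FiniteIndex ∧ ∀ n : ℕ,
          ∃ (N : Subgroup H) (_ : N.Normal), N.FiniteIndex ∧ n ≤ N.index ∧
            Group.IsSolvable (H ⧸ N)))

end Vale.Agent.P216.H215
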