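import Vale.Agent.P216.H215.PiMain

/-!
# All closed manifolds with finite fundamental group, given the non-monogenic case and dimension 3
-/

open Set Topology Bundle Manifold
open scoped ContDiff
open Vale.Agent.P216.H494

namespace Vale.Agent.P216.H215

/-- The theorem on closed simply connected manifolds of dimension three. -/
def ThreeGoal : Prop :=
  ∀ {E : Type} [NormedAddCommGroup E] [NormedSpace ℝ E] [FiniteDimensional ℝ E]
    {N : Type} [MetricSpace N] [CompactSpace N] [ChartedSpace E N] [IsManifold 𝓘(ℝ, E) ∞ N]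
    [RiemannianBundle (fun x : N => TangentSpace 𝓘(ℝ, E) x)]
    [IsContMDiffRiemannianBundle 𝓘(ℝ, E) ∞ E (fun x : N => TangentSpace 𝓘(ℝ, E) x)]
    [IsRiemannianManifold 𝓘(ℝ, E) N] [SimplyConnectedSpace N],
    Module.finrank ℝ E = 3 → (primeClosedGeodesicImages N).Infinite

variable (E : Type) [NormedAddCommGroup E] [NormedSpace ℝ E] [FiniteDimensional ℝ E]
    {M : Type} [MetricSpace M] [CompactSpace M] [ChartedSpace E M] [IsManifold 𝓘(ℝ, E) ∞ M]
    [RiemannianBundle (fun x : M => TangentSpace 𝓘(ℝ, E) x)]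
    [IsContMDiffRiemannianBundle 𝓘(ℝ, E) ∞ E (fun x : M => TangentSpace 𝓘(ℝ, E) x)]
    [IsRiemannianManifold 𝓘(ℝ, E) M]

include E in
/-- **Finite fundamental group.** -/
theorem infinite_of_finite (hV : VGoal) (h3 : ThreeGoal) (hn : 2 ≤ Module.finrank ℝ E) (x₀ : M)
    (hfin : Finite (FundamentalGroup M x₀)) : (primeClosedGeodesicImages M).Infinite := by
  by_cases hd : Module.finrank ℝ E = 3
  · obtain ⟨X, _, _, _, _, q, hq, -⟩ := H126U.exists_universal_cover_riemannian E x₀
    refine infinite_of_localHomeomorph (E := E) hq.isLocalHomeomorph ?_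
    intro N _ _ _ _ _ _ _ hN
    obtain ⟨e⟩ := hN
    have : SimplyConnectedSpace N := e.toHomotopyEquiv.simplyConnectedSpace
    exact h3 (E := E) (N := N) hd
  · exact main_pi E @hV hn x₀ (Or.inl ⟨hfin, fun h => absurd h hd⟩)

include E in
/-- **Finite fundamental group, or large fundamental group.** -/
theorem main_pi2 (hV : VGoal) (h3 : ThreeGoal) (hn : 2 ≤ Module.finrank ℝ E) (x₀ : M)
    (h : Finite (FundamentalGroup M x₀) ∨ LargeGroup (FundamentalGroup M x₀)) :
    (primeClosedGeodesicImages M).Infinite := by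
  rcases h with h | h
  · exact infinite_of_finite E @hV @h3 hn x₀ h
  · exact H126.infinite_of_largeGroup E x₀ h

end Vale.Agent.P216.H215
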