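import Vale.Agent.P216.H250.Pi0P
import Vale.Agent.P216.B7.Props

/-!
# P216-B7, Z10c: homotopic paths are joined in a larger path space, uniformly
-/

set_option linter.all false

open Set Filter Topology
open scoped BoundedContinuousFunction unitInterval

namespace Vale.Agent.P216.H215.Z10c

open Vale.Agent.P216.LS Vale.Agent.P216.H250

variable {M : Type} [MetricSpace M] {a b : M} {t ρ : ℝ}

/-- Paths joined by a family of chains of vertices. -/
theorem joined_of_chain [CompactSpace M] (hρ : 0 < ρ) (h : UniqSeg M ρ) (ht : 0 ≤ t) {n : ℕ}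
    (hn : 0 < n) (htn : t ≤ n * (ρ / 2)) {w w' : ℝ → M} (hw : w ∈ PF a b t) (hw' : w' ∈ PF a b t)
    (x : I → ℕ → M) (hc : ∀ i ≤ n, Continuous fun s => x s i) (hx0 : ∀ s, x s 0 = a)
    (hxn : ∀ s, x s n = b) (hxd : ∀ s, ∀ i < n, dist (x s i) (x s (i + 1)) ≤ ρ / 2)
    (h0 : ∀ i ≤ n, x 0 i = w ((i : ℝ) / n * t)) (h1 : ∀ i ≤ n, x 1 i = w' ((i : ℝ) / n * t)) :
    JoinedIn (PF a b (n * (ρ / 2))) w w' := by
  set r := ρ / 2 with hr
  have hr0 : 0 < r := half_pos hρ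
  have hn0 : (0 : ℝ) < n := by exact_mod_cast hn
  have hT0 : 0 < n * r := by positivity
  have hpm : ∀ s, pol r n (x s) ∈ PF a b (n * r) := fun s => by
    have := pol_mem h hr0.le (by linarith) n (x s) fun i hi => hxd s i hi
    rwa [hx0, hxn] at this
  have hcc : ∀ u, Continuous fun s => pol r n (x s) u := fun u => by
    rw [← continuousOn_univ]
    exact continuousOn_pol h n x (fun i hi => (hc i hi).continuousOn)
      (fun z _ i hi => (hxd z i hi).trans_lt (by linarith)) u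
  have j1 : JoinedIn (PF a b (n * r)) (pol r n (x 0)) (pol r n (x 1)) :=
    ⟨⟨⟨fun s => pol r n (x s), continuous_pi hcc⟩, rfl, rfl⟩, hpm⟩
  have aux : ∀ (v : ℝ → M) (hv : v ∈ PF a b t) (z : I)
      (hz : ∀ i ≤ n, x z i = v ((i : ℝ) / n * t)), JoinedIn (PF a b (n * r)) v (pol r n (x z)) := by
    intro v hv z hz
    refine (JI.slow ht htn hT0 hv).trans ?_
    refine JI.vertices h hr0 (by linarith) n a b _ _ (JI.slow ht htn hT0 hv).target_mem (hpm z)
      fun i hi => ?_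
    rw [pol_vertex h hr0 (by linarith) n (x z) (fun i hi => hxd z i hi) i hi, hz i hi]
    congr 1
    field_simp
  exact ((aux w hw 0 h0).trans j1).trans (aux w' hw' 1 h1).symm

/-- Homotopic paths, without uniformity. -/
theorem joined_of_homotopy [CompactSpace M] (hρ : 0 < ρ) (h : UniqSeg M ρ) (ht : 0 ≤ t)
    {w w' : ℝ → M} (hw : w ∈ PF a b t) (hw' : w' ∈ PF a b t) {γ γ' : Path a b}
    (hγ : ∀ s : I, γ s = w (s * t)) (hγ' : ∀ s : I, γ' s = w' (s * t)) (hh : γ.Homotopic γ') :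
    ∃ T, t ≤ T ∧ JoinedIn (PF a b T) w w' := by
  obtain ⟨F⟩ := hh
  have hr0 : 0 < ρ / 2 := half_pos hρ
  obtain ⟨m, hm⟩ := exists_nat_ge (t / (ρ / 2))
  obtain ⟨n, hmn, hn, hs⟩ := exists_steps F.toContinuousMap hr0 m
  have hn0 : (0 : ℝ) < n := by exact_mod_cast hn
  have htn : t ≤ n * (ρ / 2) := by
    rw [div_le_iff₀ hr0] at hm
    have : (m : ℝ) ≤ n := by exact_mod_cast hmn
    nlinarith
  have hpr : ∀ i ≤ n, ((projIcc (0 : ℝ) 1 zero_le_one ((i : ℝ) / n) : I) : ℝ) = (i : ℝ) / n := by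
    intro i hi
    rw [coe_projIcc]
    have hin : (i : ℝ) ≤ n := by exact_mod_cast hi
    have h1 : (i : ℝ) / n ≤ 1 := (div_le_one hn0).2 hin
    rw [min_eq_right h1, max_eq_right (by positivity)]
  refine ⟨n * (ρ / 2), htn, joined_of_chain hρ h ht hn htn hw hw'
    (fun s i => F (s, projIcc 0 1 zero_le_one ((i : ℝ) / n)))
    (fun i _ => F.continuous.comp (by fun_prop)) (fun s => ?_) (fun s => ?_)
    (fun s i hi => (hs s i hi).le) (fun i hi => ?_) fun i hi => ?_⟩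
  · show F (s, projIcc 0 1 zero_le_one (((0 : ℕ) : ℝ) / n)) = a
    rw [pI_zero]
    simp
  · show F (s, projIcc 0 1 zero_le_one (((n : ℕ) : ℝ) / n)) = b
    rw [pI_one hn]
    simp
  · show F (0, _) = _
    rw [F.apply_zero]
    change γ _ = _
    rw [hγ, hpr i hi]
  · show F (1, _) = _
    rw [F.apply_one]
    change γ' _ = _
    rw [hγ', hpr i hi]

/-- Close paths are joined. -/
theorem joined_of_close [CompactSpace M] (hρ : 0 < ρ) (h : UniqSeg M ρ) (ht : 0 ≤ t) :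
    ∃ T, t ≤ T ∧ ∀ (a b : M) (w w' : ℝ → M), w ∈ PF a b t → w' ∈ PF a b t →
      (∀ u, dist (w u) (w' u) ≤ ρ / 8) → JoinedIn (PF a b T) w w' := by
  obtain ⟨n, hn⟩ := exists_nat_gt (8 * t / ρ)
  have hn0 : (0 : ℝ) < n := lt_of_le_of_lt (by positivity) hn
  have hn1 : 0 < n := by exact_mod_cast hn0
  rw [div_lt_iff₀ hρ] at hn
  refine ⟨n * (ρ / 2), by linarith, fun a b w w' hw hw' hd => ?_⟩
  have hlt : ∀ u, dist (w u) (w' u) < ρ := fun u => (hd u).trans_lt (by linarith)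
  have hsg : ∀ u, sg (w u) (w' u) (ρ / 8) ∈ PF (w u) (w' u) (ρ / 8) := fun u =>
    sg_mem h (hlt u) (hd u)
  refine joined_of_chain hρ h ht hn1 (by linarith) hw hw'
    (fun s i => sg (w ((i : ℝ) / n * t)) (w' ((i : ℝ) / n * t)) (ρ / 8) (s * (ρ / 8)))
    (fun i _ => (PF.cont (hsg _)).comp (by fun_prop)) (fun s => ?_) (fun s => ?_)
    (fun s i hi => ?_) (fun i hi => ?_) fun i hi => ?_
  · have e : (((0 : ℕ) : ℝ) / n * t) = 0 := by simp
    show sg (w (((0 : ℕ) : ℝ) / n * t)) (w' (((0 : ℕ) : ℝ) / n * t)) (ρ / 8) _ = a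
    rw [e, PF.zero hw, PF.zero hw', sg, seg_self]
  · have e : (((n : ℕ) : ℝ) / n * t) = t := by field_simp
    show sg (w (((n : ℕ) : ℝ) / n * t)) (w' (((n : ℕ) : ℝ) / n * t)) (ρ / 8) _ = b
    rw [e, PF.last hw, PF.last hw', sg, seg_self]
  · have h1 : ∀ u, dist (w u) (sg (w u) (w' u) (ρ / 8) (s * (ρ / 8))) ≤ ρ / 8 := fun u => by
      have := PF.le_of_le (hsg u) (show (0 : ℝ) ≤ s * (ρ / 8) from mul_nonneg s.2.1 (by linarith))
      rw [PF.zero (hsg u)] at this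
      refine this.trans ?_
      have := s.2.2
      nlinarith
    have h2 := h1 ((i : ℝ) / n * t)
    have h3 := h1 (((i + 1 : ℕ) : ℝ) / n * t)
    have h4 : dist (w ((i : ℝ) / n * t)) (w (((i + 1 : ℕ) : ℝ) / n * t)) ≤ ρ / 8 := by
      have h5 : (i : ℝ) / n * t ≤ ((i + 1 : ℕ) : ℝ) / n * t := by
        push_cast
        gcongr
        linarith
      refine (PF.le_of_le hw h5).trans ?_
      have h6 : ((i + 1 : ℕ) : ℝ) / n * t - (i : ℝ) / n * t = t / n := by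
        push_cast
        field_simp
        ring
      rw [h6, div_le_iff₀ hn0]
      linarith
    show dist (sg (w ((i : ℝ) / n * t)) (w' ((i : ℝ) / n * t)) (ρ / 8) (s * (ρ / 8)))
      (sg (w (((i + 1 : ℕ) : ℝ) / n * t)) (w' (((i + 1 : ℕ) : ℝ) / n * t)) (ρ / 8) (s * (ρ / 8))) ≤
        ρ / 2
    have h7 := dist_triangle4 (sg (w ((i : ℝ) / n * t)) (w' ((i : ℝ) / n * t)) (ρ / 8) (s * (ρ / 8)))
      (w ((i : ℝ) / n * t)) (w (((i + 1 : ℕ) : ℝ) / n * t))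
      (sg (w (((i + 1 : ℕ) : ℝ) / n * t)) (w' (((i + 1 : ℕ) : ℝ) / n * t)) (ρ / 8) (s * (ρ / 8)))
    rw [dist_comm] at h2
    linarith
  · show sg (w ((i : ℝ) / n * t)) (w' ((i : ℝ) / n * t)) (ρ / 8) (((0 : I) : ℝ) * (ρ / 8)) = _
    have e : ((0 : I) : ℝ) * (ρ / 8) = 0 := by simp
    rw [e, PF.zero (hsg _)]
  · show sg (w ((i : ℝ) / n * t)) (w' ((i : ℝ) / n * t)) (ρ / 8) (((1 : I) : ℝ) * (ρ / 8)) = _
    have e : ((1 : I) : ℝ) * (ρ / 8) = ρ / 8 := by simp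
    rw [e, PF.last (hsg _)]

/-- The path of an element of `P a b t`. -/
def pth {w : ℝ →ᵇ M} (hw : w ∈ PS.P a b t) : Path a b where
  toFun s := w (s * t)
  continuous_toFun := by fun_prop
  source' := by
    show w (((0 : I) : ℝ) * t) = a
    rw [Set.Icc.coe_zero, zero_mul]
    exact hw.2.1 0 le_rfl
  target' := by
    show w (((1 : I) : ℝ) * t) = b
    rw [Set.Icc.coe_one, one_mul]
    exact hw.2.2 t le_rfl

/-- **Z10c.** Homotopic elements of `P a b t` are joined in `P a b t'`, uniformly. -/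
theorem joined_of_homotopic [CompactSpace M] (hρ : 0 < ρ) (h : UniqSeg M ρ) (a b : M) {t : ℝ}
    (ht : 0 ≤ t) : ∃ t', t ≤ t' ∧ ∀ (w : ℝ →ᵇ M) (hw : w ∈ PS.P a b t) (w' : ℝ →ᵇ M)
      (hw' : w' ∈ PS.P a b t), (pth hw).Homotopic (pth hw') → JoinedIn (PS.P a b t') w w' := by
  classical
  obtain ⟨T, hT, hclose⟩ := joined_of_close (M := M) hρ h ht
  have hcomp : IsCompact (PS.P a b t) := PS.isCompact_P a b t
  obtain ⟨Y, hYs, hYf, hY⟩ := hcomp.finite_cover_balls (show (0 : ℝ) < ρ / 16 by positivity)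
  -- one bound for each pair of the net
  have hpair : ∀ z : (ℝ →ᵇ M) × (ℝ →ᵇ M), ∃ τ, t ≤ τ ∧
      ((∃ (w : ℝ →ᵇ M) (hw : w ∈ PS.P a b t) (w' : ℝ →ᵇ M) (hw' : w' ∈ PS.P a b t),
        dist w z.1 < ρ / 16 ∧ dist w' z.2 < ρ / 16 ∧ (pth hw).Homotopic (pth hw')) →
        ∃ w ∈ PS.P a b t, ∃ w' ∈ PS.P a b t,
          dist w z.1 < ρ / 16 ∧ dist w' z.2 < ρ / 16 ∧ JoinedIn (PS.P a b τ) w w') := by
    intro z
    by_cases hz : ∃ (w : ℝ →ᵇ M) (hw : w ∈ PS.P a b t) (w' : ℝ →ᵇ M) (hw' : w' ∈ PS.P a b t),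
        dist w z.1 < ρ / 16 ∧ dist w' z.2 < ρ / 16 ∧ (pth hw).Homotopic (pth hw')
    · obtain ⟨w, hw, w', hw', h1, h2, h3⟩ := hz
      obtain ⟨τ, hτ, hj⟩ := joined_of_homotopy hρ h ht (mem_PF_of_mem_P hw) (mem_PF_of_mem_P hw')
        (γ := pth hw) (γ' := pth hw') (fun _ => rfl) (fun _ => rfl) h3
      exact ⟨τ, hτ, fun _ => ⟨w, hw, w', hw', h1, h2, joinedIn_P (ht.trans hτ) hj⟩⟩
    · exact ⟨t, le_rfl, fun h => absurd h hz⟩
  choose τ hτ hpair using hpair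
  obtain ⟨T1, hT1t, hT1⟩ : ∃ T1, t ≤ T1 ∧ ∀ z ∈ Y ×ˢ Y, τ z ≤ T1 := by
    obtain ⟨B, hB⟩ := ((hYf.prod hYf).image τ).bddAbove
    exact ⟨max B t, le_max_right _ _, fun y hy => (hB (mem_image_of_mem τ hy)).trans
      (le_max_left _ _)⟩
  have hP : ∀ {s s' : ℝ}, s ≤ s' → PS.P a b s ⊆ PS.P a b s' := fun hs => PS.P_mono hs
  have hcl : ∀ w ∈ PS.P a b t, ∀ w' ∈ PS.P a b t, dist w w' ≤ ρ / 8 →
      JoinedIn (PS.P a b (max T T1)) w w' := fun w hw w' hw' hd =>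
    (joinedIn_P (ht.trans hT) (hclose a b w w' (mem_PF_of_mem_P hw) (mem_PF_of_mem_P hw')
      fun u => (BoundedContinuousFunction.dist_coe_le_dist u).trans hd)).mono (hP (le_max_left _ _))
  refine ⟨max T T1, hT.trans (le_max_left _ _), fun w hw w' hw' hh => ?_⟩
  obtain ⟨y, hy, hwy⟩ := mem_iUnion₂.1 (hY hw)
  obtain ⟨y', hy', hwy'⟩ := mem_iUnion₂.1 (hY hw')
  rw [Metric.mem_ball] at hwy hwy'
  obtain ⟨v, hv, v', hv', h1, h2, h3⟩ := hpair (y, y') ⟨w, hw, w', hw', hwy, hwy', hh⟩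
  have d1 : dist w v ≤ ρ / 8 := by
    have := dist_triangle_right w v y
    simp only at h1
    linarith
  have d2 : dist v' w' ≤ ρ / 8 := by
    have := dist_triangle_right v' w' y'
    simp only at h2
    linarith
  exact ((hcl w hw v hv d1).trans (h3.mono (hP ((hT1 _ ⟨hy, hy'⟩).trans (le_max_right _ _))))).trans
    (hcl v' hv' w' hw' d2)

/-- Paths with homotopic lifts are homotopic. -/
theorem homotopic_of_lift {X : Type} [TopologicalSpace X] [SimplyConnectedSpace X]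
    {N : Type} [TopologicalSpace N] (π : C(X, N)) {p q : X} {a b : N} {γ γ' : Path a b}
    (Γ Γ' : Path p q) (hγ : ∀ s, π (Γ s) = γ s) (hγ' : ∀ s, π (Γ' s) = γ' s) :
    γ.Homotopic γ' := by
  have hp : π p = a := by rw [← Γ.source, hγ, γ.source]
  have hq : π q = b := by rw [← Γ.target, hγ, γ.target]
  subst hp
  subst hq
  have h1 : γ = Γ.map π.continuous := by
    ext s
    exact (hγ s).symm
  have h2 : γ' = Γ'.map π.continuous := by
    ext s
    exact (hγ' s).symm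
  rw [h1, h2]
  exact (SimplyConnectedSpace.paths_homotopic Γ Γ').map π

end Vale.Agent.P216.H215.Z10c
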