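import Vale.Agent.P216.T1.Landau

/-!
Minimal nonabelian normal subgroups of finite groups covered by few conjugates of cyclic groups.
-/

set_option linter.all false

namespace Vale.Agent.P216.RFS

open Subgroup

variable {Q : Type*} [Group Q]

/-- The conjugate of a subgroup. -/
def cj (g : Q) (B : Subgroup Q) : Subgroup Q := B.map (MulAut.conj g).toMonoidHom

lemma mem_cj {g : Q} {B : Subgroup Q} {x : Q} : x ∈ cj g B ↔ g⁻¹ * x * g ∈ B := by
  unfold cj
  rw [Subgroup.mem_map]
  constructor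
  · rintro ⟨y, hy, rfl⟩
    have : g⁻¹ * (MulAut.conj g y) * g = y := by simp [MulAut.conj_apply]; group
    have h2 : g⁻¹ * ((MulAut.conj g).toMonoidHom y) * g = y := this
    rw [h2]; exact hy
  · intro h
    refine ⟨_, h, ?_⟩
    change g * (g⁻¹ * x * g) * g⁻¹ = x
    group

lemma conj_mem_cj {g : Q} {B : Subgroup Q} {x : Q} (hx : x ∈ B) : g * x * g⁻¹ ∈ cj g B := by
  rw [mem_cj]
  have : g⁻¹ * (g * x * g⁻¹) * g = x := by group
  rwa [this]

lemma cj_cj (g h : Q) (B : Subgroup Q) : cj g (cj h B) = cj (g * h) B := by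
  ext x
  rw [mem_cj, mem_cj, mem_cj]
  have : h⁻¹ * (g⁻¹ * x * g) * h = (g * h)⁻¹ * x * (g * h) := by group
  rw [this]

lemma cj_one (B : Subgroup Q) : cj 1 B = B := by
  ext x; rw [mem_cj]; simp

lemma cj_mono {g : Q} {B C : Subgroup Q} (h : B ≤ C) : cj g B ≤ cj g C := fun x hx => by
  rw [mem_cj] at hx ⊢; exact h hx

lemma cj_normal {g : Q} {A : Subgroup Q} (hA : A.Normal) : cj g A = A := by
  ext x
  rw [mem_cj]
  constructor
  · intro h
    have := hA.conj_mem _ h g
    have e : g * (g⁻¹ * x * g) * g⁻¹ = x := by group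
    rwa [e] at this
  · intro h
    have := hA.conj_mem _ h g⁻¹
    have e : g⁻¹ * x * g⁻¹⁻¹ = g⁻¹ * x * g := by group
    rwa [e] at this

lemma cj_eq_bot {g : Q} {B : Subgroup Q} (h : cj g B = ⊥) : B = ⊥ := by
  rw [eq_bot_iff]
  intro x hx
  have := conj_mem_cj (g := g) hx
  rw [h, Subgroup.mem_bot] at this
  rw [Subgroup.mem_bot]
  have e : x = g⁻¹ * (g * x * g⁻¹) * g := by group
  rw [e, this]; group

lemma card_cj (g : Q) (B : Subgroup Q) : Nat.card (cj g B) = Nat.card B := by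
  refine Nat.card_congr ?_
  exact ((MulAut.conj g).subgroupMap B).toEquiv.symm

/-- Structure of a minimal nonabelian normal subgroup `A`: a subgroup `B` normal in `A`, simple,
whose conjugates commute with each other. -/
structure IsComp (A B : Subgroup Q) : Prop where
  le : B ≤ A
  ne_bot : B ≠ ⊥
  nrm : ∀ a ∈ A, ∀ b ∈ B, a * b * a⁻¹ ∈ B
  simple : ∀ C : Subgroup Q, C ≤ B → (∀ b ∈ B, ∀ c ∈ C, b * c * b⁻¹ ∈ C) → C = ⊥ ∨ C = B
  comm : ∀ g : Q, cj g B = B ∨ ∀ x ∈ B, ∀ y ∈ cj g B, x * y = y * x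
  sup : ⨆ g : Q, cj g B = A
  center : ∀ x ∈ B, (∀ y ∈ B, x * y = y * x) → x = 1

lemma iSup_cj_normal (B : Subgroup Q) : (⨆ g : Q, cj g B).Normal := by
  constructor
  intro x hx g
  have h1 : cj g (⨆ h : Q, cj h B) ≤ ⨆ h : Q, cj h B := by
    unfold cj
    rw [Subgroup.map_iSup]
    refine iSup_le fun h => ?_
    have : (B.map (MulAut.conj h).toMonoidHom).map (MulAut.conj g).toMonoidHom = cj (g * h) B :=
      cj_cj g h B
    rw [this]
    exact le_iSup (fun h : Q => cj h B) (g * h)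
  exact h1 (conj_mem_cj hx)

theorem exists_isComp [Finite Q] {A : Subgroup Q} (hA : A.Normal)
    (hmin : ∀ W : Subgroup Q, W.Normal → W ≤ A → W = ⊥ ∨ W = A)
    (hnc : ∃ x ∈ A, ∃ y ∈ A, x * y ≠ y * x) : ∃ B : Subgroup Q, IsComp A B := by
  classical
  have hA0 : A ≠ ⊥ := by
    rintro rfl
    obtain ⟨x, hx, y, hy, h⟩ := hnc
    rw [Subgroup.mem_bot] at hx hy
    subst hx; subst hy
    exact h rfl
  -- a minimal nontrivial subgroup normalized by `A`
  let P : Subgroup Q → Prop := fun B => B ≤ A ∧ B ≠ ⊥ ∧ ∀ a ∈ A, ∀ b ∈ B, a * b * a⁻¹ ∈ B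
  have hPA : P A := ⟨le_rfl, hA0, fun a ha b hb => A.mul_mem (A.mul_mem ha hb) (A.inv_mem ha)⟩
  obtain ⟨B, hPB, hBmin⟩ : ∃ B, P B ∧ ∀ C, P C → C ≤ B → C = B := by
    obtain ⟨B, hB⟩ := Set.Finite.exists_minimal (s := {B : Subgroup Q | P B}) (Set.toFinite _)
      ⟨A, hPA⟩
    exact ⟨B, hB.prop, fun C hC hCB => le_antisymm hCB (hB.le_of_le hC hCB)⟩
  obtain ⟨hBA, hB0, hBn⟩ := hPB
  have hcjP : ∀ g, P (cj g B) := by
    intro g
    refine ⟨?_, fun h => hB0 (cj_eq_bot h), ?_⟩
    · have := cj_mono (g := g) hBA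
      rwa [cj_normal hA] at this
    · intro a ha b hb
      rw [mem_cj] at hb ⊢
      have h1 : g⁻¹ * a * g⁻¹⁻¹ ∈ A := hA.conj_mem _ ha g⁻¹
      have := hBn _ h1 _ hb
      have e : g⁻¹ * a * g⁻¹⁻¹ * (g⁻¹ * b * g) * (g⁻¹ * a * g⁻¹⁻¹)⁻¹ = g⁻¹ * (a * b * a⁻¹) * g := by
        group
      rwa [e] at this
  have hcomm : ∀ g : Q, cj g B = B ∨ ∀ x ∈ B, ∀ y ∈ cj g B, x * y = y * x := by
    intro g
    by_cases hi : B ⊓ cj g B = ⊥
    · right
      intro x hx y hy
      have h1 : x * y * x⁻¹ * y⁻¹ ∈ B ⊓ cj g B := by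
        refine Subgroup.mem_inf.2 ⟨?_, ?_⟩
        · have := hBn y ((hcjP g).1 hy) x⁻¹ (B.inv_mem hx)
          have e : x * y * x⁻¹ * y⁻¹ = x * (y * x⁻¹ * y⁻¹) := by group
          rw [e]
          exact B.mul_mem hx this
        · exact (cj g B).mul_mem ((hcjP g).2.2 x (hBA hx) y hy) ((cj g B).inv_mem hy)
      rw [hi, Subgroup.mem_bot] at h1
      have e : x * y = (x * y * x⁻¹ * y⁻¹) * (y * x) := by group
      rw [e, h1, one_mul]
    · left
      have h1 : P (B ⊓ cj g B) := by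
        refine ⟨inf_le_left.trans hBA, hi, fun a ha b hb => ?_⟩
        rw [Subgroup.mem_inf] at hb ⊢
        exact ⟨hBn a ha b hb.1, (hcjP g).2.2 a ha b hb.2⟩
      have h2 := hBmin _ h1 inf_le_left
      have h3 : B ≤ cj g B := inf_eq_left.1 h2
      exact (Subgroup.eq_of_le_of_card_ge h3 (by rw [card_cj])).symm
  have hsup : ⨆ g : Q, cj g B = A := by
    rcases hmin _ (iSup_cj_normal B) (iSup_le fun g => (hcjP g).1) with h | h
    · exfalso
      apply hB0
      rw [eq_bot_iff, ← h]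
      have := le_iSup (fun g : Q => cj g B) 1
      rwa [cj_one] at this
    · exact h
  -- an element of `A` normalizes every subgroup of `B` normal in `B`
  have hsimple : ∀ C : Subgroup Q, C ≤ B → (∀ b ∈ B, ∀ c ∈ C, b * c * b⁻¹ ∈ C) →
      C = ⊥ ∨ C = B := by
    intro C hCB hC
    by_cases hC0 : C = ⊥
    · exact Or.inl hC0
    right
    apply hBmin C _ hCB
    refine ⟨hCB.trans hBA, hC0, ?_⟩
    have h1 : A ≤ normalizer (C : Set Q) := by
      rw [← hsup]
      refine iSup_le fun g => ?_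
      rw [Subgroup.le_normalizer_iff]
      rcases hcomm g with h | h
      · rw [h]; exact hC
      · intro y hy c hc
        have := h c (hCB hc) y hy
        rw [← this]
        simpa using hc
    rwa [Subgroup.le_normalizer_iff] at h1
  have hBnc : ¬ ∀ x ∈ B, ∀ y ∈ B, x * y = y * x := by
    intro hab
    -- then all conjugates commute and `A` is abelian
    have h1 : ∀ g h : Q, ∀ x ∈ cj g B, ∀ y ∈ cj h B, x * y = y * x := by
      intro g h x hx y hy
      have key : ∀ k : Q, ∀ x ∈ B, ∀ y ∈ cj k B, x * y = y * x := by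
        intro k x hx y hy
        rcases hcomm k with h | h
        · rw [h] at hy; exact hab x hx y hy
        · exact h x hx y hy
      rw [mem_cj] at hx
      have hy' : g⁻¹ * y * g ∈ cj (g⁻¹ * h) B := by
        rw [mem_cj] at hy ⊢
        have e : (g⁻¹ * h)⁻¹ * (g⁻¹ * y * g) * (g⁻¹ * h) = h⁻¹ * y * h := by group
        rwa [e]
      have := key _ _ hx _ hy'
      have e1 : x * y = g * ((g⁻¹ * x * g) * (g⁻¹ * y * g)) * g⁻¹ := by group
      have e2 : y * x = g * ((g⁻¹ * y * g) * (g⁻¹ * x * g)) * g⁻¹ := by group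
      rw [e1, e2, this]
    have h2 : ∀ g : Q, A ≤ centralizer (cj g B : Set Q) := by
      intro g
      rw [← hsup]
      refine iSup_le fun h => fun x hx => ?_
      rw [Subgroup.mem_centralizer_iff]
      intro y hy
      exact h1 g h y hy x hx
    have h3 : A ≤ centralizer (A : Set Q) := by
      conv_lhs => rw [← hsup]
      refine iSup_le fun g x hx => ?_
      rw [Subgroup.mem_centralizer_iff]
      intro y hy
      have := h2 g hy
      rw [Subgroup.mem_centralizer_iff] at this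
      exact (this x hx).symm
    obtain ⟨x, hx, y, hy, h⟩ := hnc
    have := h3 hx
    rw [Subgroup.mem_centralizer_iff] at this
    exact h (this y hy).symm
  refine ⟨B, hBA, hB0, hBn, hsimple, hcomm, hsup, ?_⟩
  -- the centre of `B` is trivial
  intro x hx hxc
  let Z : Subgroup Q := B ⊓ centralizer (B : Set Q)
  have hZ : Z = ⊥ ∨ Z = B := by
    apply hsimple Z inf_le_left
    intro b hb c hc
    rw [Subgroup.mem_inf, Subgroup.mem_centralizer_iff] at hc ⊢
    have e : b * c * b⁻¹ = c := by rw [hc.2 b hb]; group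
    rw [e]
    exact hc
  rcases hZ with h | h
  · have : x ∈ Z := by
      rw [Subgroup.mem_inf, Subgroup.mem_centralizer_iff]
      exact ⟨hx, fun y hy => (hxc y hy).symm⟩
    rw [h, Subgroup.mem_bot] at this
    exact this
  · exfalso
    apply hBnc
    intro x hx y hy
    have : x ∈ Z := by rw [h]; exact hx
    rw [Subgroup.mem_inf, Subgroup.mem_centralizer_iff] at this
    exact (this.2 y hy).symm

end Vale.Agent.P216.RFS
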