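import Vale.Agent.P216.H215.Comp

/-!
The number of conjugates of a component is at most the number of cyclic subgroups in a covering.
-/

set_option linter.all false

namespace Vale.Agent.P216.RFS

open Subgroup

variable {Q : Type*} [Group Q]

lemma zpow_mem_zpowers_of_prime {a : Q} (ha : IsOfFinOrder a) {p : ℕ} (hp : p.Prime) {k l : ℤ}
    (hk1 : a ^ k ≠ 1) (hk : (a ^ k) ^ p = 1) (hl : (a ^ l) ^ p = 1) :
    a ^ l ∈ zpowers (a ^ k) := by
  set n : ℤ := (orderOf a : ℤ) with hn
  have hn0 : 0 < n := by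
    have := ha.orderOf_pos
    rw [hn]; exact_mod_cast this
  have h1 : n ∣ k * p := by
    rw [hn, orderOf_dvd_iff_zpow_eq_one, zpow_mul, zpow_natCast]; exact hk
  have h2 : n ∣ l * p := by
    rw [hn, orderOf_dvd_iff_zpow_eq_one, zpow_mul, zpow_natCast]; exact hl
  have h3 : ¬ n ∣ k := by
    rw [hn, orderOf_dvd_iff_zpow_eq_one]; exact hk1
  set d : ℤ := (Int.gcd n k : ℤ) with hd
  have hdn : d ∣ n := Int.gcd_dvd_left _ _
  have hdk : d ∣ k := Int.gcd_dvd_right _ _
  have hd0 : 0 < d := by
    have : 0 < Int.gcd n k := Int.gcd_pos_of_ne_zero_left _ hn0.ne'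
    rw [hd]; exact_mod_cast this
  obtain ⟨c, hc⟩ := hdn
  have hc0 : 0 < c := by
    by_contra hcon
    push Not at hcon
    nlinarith
  -- `n ∣ d * p`
  have h4 : n ∣ d * p := by
    have : d * p = (Int.gcd (n * p) (k * p) : ℤ) := by
      rw [Int.gcd_mul_right, hd]; push_cast; simp
    rw [this]
    exact Int.dvd_coe_gcd (Dvd.intro _ rfl) h1
  have h5 : c ∣ p := by
    rw [hc] at h4
    exact Int.dvd_of_mul_dvd_mul_left hd0.ne' h4
  have h6 : c = p := by
    have h7 : c.natAbs ∣ p := by
      have := Int.natAbs_dvd_natAbs.2 h5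
      simpa using this
    rcases (Nat.dvd_prime hp).1 h7 with h8 | h8
    · exfalso
      apply h3
      have : c = 1 := by omega
      rw [hc, this, mul_one]
      exact hdk
    · omega
  have h7 : d ∣ l := by
    rw [hc, h6, mul_comm l] at h2
    rw [mul_comm d] at h2
    exact Int.dvd_of_mul_dvd_mul_left (by exact_mod_cast hp.ne_zero) h2
  obtain ⟨e, he⟩ := h7
  have hb := Int.gcd_eq_gcd_ab n k
  rw [Subgroup.mem_zpowers_iff]
  refine ⟨Int.gcdB n k * e, ?_⟩
  rw [← zpow_mul]
  have h8 : l = n * (Int.gcdA n k * e) + k * (Int.gcdB n k * e) := by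
    rw [he, hd, hb]; ring
  rw [h8, zpow_add, zpow_mul a n]
  have h9 : a ^ n = 1 := by rw [hn, zpow_natCast, pow_orderOf_eq_one]
  rw [h9, one_zpow, one_mul]

/-- Those conjugates of `B` which are not centralized by `y`. -/
def supp (B : Subgroup Q) (y : Q) : Set (Subgroup Q) :=
  {D | D ∈ Set.range (fun g => cj g B) ∧ ¬ ∀ x ∈ D, x * y = y * x}

lemma ncard_supp_conj (B : Subgroup Q) (g y : Q) :
    (supp B (g * y * g⁻¹)).ncard = (supp B y).ncard := by
  have : supp B (g * y * g⁻¹) = cj g '' supp B y := by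
    ext D
    constructor
    · rintro ⟨⟨h, rfl⟩, hD⟩
      refine ⟨cj (g⁻¹ * h) B, ⟨⟨_, rfl⟩, fun hcon => hD fun x hx => ?_⟩, ?_⟩
      · have hx' : g⁻¹ * x * g ∈ cj (g⁻¹ * h) B := by
          rw [mem_cj] at hx ⊢
          have e : (g⁻¹ * h)⁻¹ * (g⁻¹ * x * g) * (g⁻¹ * h) = h⁻¹ * x * h := by group
          rwa [e]
        have := hcon _ hx'
        have e1 : x * (g * y * g⁻¹) = g * ((g⁻¹ * x * g) * y) * g⁻¹ := by group
        rw [e1, this]; group
      · simp only [cj_cj]
        congr 1; group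
    · rintro ⟨_, ⟨⟨h, rfl⟩, hD⟩, rfl⟩
      refine ⟨⟨g * h, (cj_cj g h B).symm⟩, fun hcon => hD fun x hx => ?_⟩
      have := hcon (g * x * g⁻¹) (conj_mem_cj hx)
      have e1 : x * y = g⁻¹ * (g * x * g⁻¹ * (g * y * g⁻¹)) * g := by group
      rw [e1, this]; group
  rw [this]
  apply Set.ncard_image_of_injective
  intro D D' h
  have := congrArg (cj g⁻¹) h
  simpa [cj_cj, cj_one] using this

lemma supp_subset_of_mem_zpowers (B : Subgroup Q) {y z : Q} (h : z ∈ zpowers y) :
    supp B z ⊆ supp B y := by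
  rintro D ⟨hD, hz⟩
  refine ⟨hD, fun hcon => hz fun x hx => ?_⟩
  obtain ⟨k, rfl⟩ := Subgroup.mem_zpowers_iff.1 h
  have h1 : Commute x y := hcon x hx
  exact (h1.zpow_right k).eq

theorem IsComp.exists_supp [Finite Q] {A B : Subgroup Q} (h : IsComp A B) {p : ℕ} (hp : p.Prime)
    (hpB : p ∣ Nat.card B) (T : Finset (Subgroup Q))
    (hT : (T : Set (Subgroup Q)) ⊆ Set.range (fun g => cj g B)) :
    ∃ y : Q, y ^ p = 1 ∧ supp B y = T := by
  classical
  have : Fact p.Prime := ⟨hp⟩
  obtain ⟨⟨x₀, hx₀B⟩, hx₀⟩ := exists_prime_orderOf_dvd_card' p hpB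
  have hx₀' : orderOf x₀ = p := by rwa [Subgroup.orderOf_mk] at hx₀
  have hx1 : x₀ ≠ 1 := by
    rintro rfl
    rw [orderOf_one] at hx₀'
    exact hp.one_lt.ne hx₀'
  -- distinct conjugates commute
  have hcomm : ∀ g k : Q, cj g B ≠ cj k B → ∀ x ∈ cj g B, ∀ y ∈ cj k B, x * y = y * x := by
    intro g k hne x hx y hy
    rcases h.comm (g⁻¹ * k) with h1 | h1
    · exfalso
      apply hne
      have h2 := congrArg (cj g) h1
      rw [cj_cj, mul_inv_cancel_left] at h2
      exact h2.symm
    · rw [mem_cj] at hx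
      have hy' : g⁻¹ * y * g ∈ cj (g⁻¹ * k) B := by
        rw [mem_cj] at hy ⊢
        have e : (g⁻¹ * k)⁻¹ * (g⁻¹ * y * g) * (g⁻¹ * k) = k⁻¹ * y * k := by group
        rwa [e]
      have := h1 _ hx _ hy'
      have e1 : x * y = g * ((g⁻¹ * x * g) * (g⁻¹ * y * g)) * g⁻¹ := by group
      have e2 : y * x = g * ((g⁻¹ * y * g) * (g⁻¹ * x * g)) * g⁻¹ := by group
      rw [e1, e2, this]
  induction T using Finset.induction_on with
  | empty =>
    refine ⟨1, one_pow _, ?_⟩
    ext D
    simp [supp]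
  | insert D T hDT ih =>
    obtain ⟨y, hy, hyT⟩ := ih ((Finset.coe_subset.2 (Finset.subset_insert D T)).trans hT)
    obtain ⟨g, hg⟩ := hT (Finset.mem_coe.2 (Finset.mem_insert_self D T))
    simp only at hg
    subst hg
    set w : Q := g * x₀ * g⁻¹ with hw
    have hwD : w ∈ cj g B := conj_mem_cj hx₀B
    have hwp : w ^ p = 1 := by
      rw [hw, conj_pow, ← hx₀', pow_orderOf_eq_one]; group
    have hynot : cj g B ∉ supp B y := by
      rw [hyT]; exact_mod_cast hDT
    have hyc : ∀ x ∈ cj g B, x * y = y * x := by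
      by_contra hcon
      exact hynot ⟨⟨g, rfl⟩, hcon⟩
    have hcw : Commute w y := hyc w hwD
    refine ⟨w * y, ?_, ?_⟩
    · rw [hcw.mul_pow, hwp, hy, one_mul]
    · ext D'
      rw [Finset.coe_insert, Set.mem_insert_iff, ← hyT]
      constructor
      · rintro ⟨⟨k, rfl⟩, hD'⟩
        by_cases heq : cj k B = cj g B
        · exact Or.inl heq
        · right
          refine ⟨⟨k, rfl⟩, fun hcon => hD' fun x hx => ?_⟩
          have h1 : Commute x w := hcomm k g heq x hx w hwD
          have h2 : Commute x y := hcon x hx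
          exact (h1.mul_right h2).eq
      · rintro (rfl | ⟨⟨k, rfl⟩, hD'⟩)
        · refine ⟨⟨g, rfl⟩, fun hcon => ?_⟩
          apply hx1
          apply h.center x₀ hx₀B
          intro b hb
          have h1 : Commute (g * b * g⁻¹) (w * y) := hcon _ (conj_mem_cj hb)
          have h2 : Commute (g * b * g⁻¹) y := hyc _ (conj_mem_cj hb)
          have h3 : Commute (g * b * g⁻¹) w := by
            have := h1.mul_right h2.inv_right
            rwa [mul_inv_cancel_right] at this
          have h4 := h3.eq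
          rw [hw] at h4
          have e1 : x₀ * b = g⁻¹ * (g * x₀ * g⁻¹ * (g * b * g⁻¹)) * g := by group
          have e2 : b * x₀ = g⁻¹ * (g * b * g⁻¹ * (g * x₀ * g⁻¹)) * g := by group
          rw [e1, e2, h4]
        · by_cases heq : cj k B = cj g B
          · exfalso
            apply hD'
            change ∀ x ∈ cj k B, x * y = y * x
            rw [heq]
            exact hyc
          · refine ⟨⟨k, rfl⟩, fun hcon => hD' fun x hx => ?_⟩
            have h1 : Commute x w := hcomm k g heq x hx w hwD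
            have h2 : Commute x (w * y) := hcon x hx
            have h3 : Commute x y := by
              have := h1.inv_right.mul_right h2
              rwa [← mul_assoc, inv_mul_cancel, one_mul] at this
            exact h3.eq

theorem IsComp.ncard_le [Finite Q] {A B : Subgroup Q} (h : IsComp A B) {r : ℕ} {a : Fin r → Q}
    (hcov : ∀ g : Q, ∃ i, ∃ k : ℤ, IsConj g (a i ^ k)) :
    (Set.range (fun g => cj g B)).ncard ≤ r := by
  classical
  have hB1 : Nat.card B ≠ 1 := by
    intro h1
    exact h.ne_bot (Subgroup.card_eq_one.1 h1)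
  obtain ⟨p, hp, hpB⟩ := Nat.exists_prime_and_dvd hB1
  set Ω : Set (Subgroup Q) := Set.range (fun g => cj g B) with hΩ
  have hΩf : Ω.Finite := Set.toFinite _
  by_contra hcon
  push Not at hcon
  have hT : ∀ j : Fin Ω.ncard, ∃ T : Finset (Subgroup Q), (T : Set (Subgroup Q)) ⊆ Ω ∧
      T.card = j + 1 := by
    intro j
    have h1 : (j : ℕ) + 1 ≤ hΩf.toFinset.card := by
      rw [← Set.ncard_eq_toFinset_card Ω hΩf]
      exact j.2
    obtain ⟨T, hT1, hT2⟩ := Finset.exists_subset_card_eq h1
    exact ⟨T, fun D hD => hΩf.mem_toFinset.1 (hT1 hD), hT2⟩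
  choose T hT1 hT2 using hT
  choose y hy1 hy2 using fun j => h.exists_supp hp hpB (T j) (hT1 j)
  choose i k hik using fun j => hcov (y j)
  obtain ⟨j, j', hjj, hij⟩ := Fintype.exists_ne_map_eq_of_card_lt i (by simpa using hcon)
  -- the supports have the same size
  have key : ∀ j, (supp B (a (i j) ^ k j)).ncard = j + 1 := by
    intro j
    obtain ⟨c, hc⟩ := isConj_iff.1 (hik j)
    rw [← hc, ncard_supp_conj, hy2, Set.ncard_coe_finset, hT2]
  have hpow : ∀ j, (a (i j) ^ k j) ^ p = 1 := by
    intro j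
    obtain ⟨c, hc⟩ := isConj_iff.1 (hik j)
    rw [← hc, conj_pow, hy1]; group
  have hne : ∀ j, a (i j) ^ k j ≠ 1 := by
    intro j h1
    have := key j
    rw [h1] at this
    have h2 : supp B (1 : Q) = ∅ := by
      ext D; simp [supp]
    rw [h2, Set.ncard_empty] at this
    omega
  have hfin : IsOfFinOrder (a (i j)) := isOfFinOrder_of_finite _
  have e1 : supp B (a (i j) ^ k j) = supp B (a (i j') ^ k j') := by
    apply Set.Subset.antisymm
    · apply supp_subset_of_mem_zpowers
      rw [hij]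
      refine zpow_mem_zpowers_of_prime (isOfFinOrder_of_finite _) hp (hne j') (hpow j') ?_
      rw [← hij]
      exact hpow j
    · apply supp_subset_of_mem_zpowers
      rw [← hij]
      refine zpow_mem_zpowers_of_prime (isOfFinOrder_of_finite _) hp (hne j) (hpow j) ?_
      rw [hij]
      exact hpow j'
  have e2 := key j
  rw [e1, key j'] at e2
  apply hjj
  ext
  omega

theorem IsComp.index_le [Finite Q] {A B : Subgroup Q} (h : IsComp A B) {r : ℕ} {a : Fin r → Q}
    (hcov : ∀ g : Q, ∃ i, ∃ k : ℤ, IsConj g (a i ^ k)) :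
    (normalizer (B : Set Q)).index ≤ r := by
  refine le_trans ?_ (h.ncard_le hcov)
  -- the cosets of the normalizer inject into the set of conjugates
  let f : Q ⧸ normalizer (B : Set Q) → Set.range (fun g => cj g B) := fun x =>
    ⟨cj x.out B, ⟨_, rfl⟩⟩
  have hf : Function.Injective f := by
    intro x y hxy
    have h1 : cj x.out B = cj y.out B := congrArg Subtype.val hxy
    have h2 : x.out⁻¹ * y.out ∈ normalizer (B : Set Q) := by
      rw [Subgroup.mem_normalizer_iff_map_conj_eq]
      change cj (x.out⁻¹ * y.out) B = B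
      rw [← cj_cj, ← h1, cj_cj, inv_mul_cancel, cj_one]
    have h3 := QuotientGroup.eq.2 h2
    simpa using h3
  have := Nat.card_le_card_of_injective f hf
  rw [Nat.card_coe_set_eq] at this
  exact this

end Vale.Agent.P216.RFS
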