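import Vale.Agent.P216.H215.Monogenic
import Mathlib.Topology.Covering.Basic
import Mathlib.AlgebraicTopology.FundamentalGroupoid.SimplyConnected
import Mathlib.Data.Rat.Defs

/-!
# Spaces covered by a compact simply connected space with monogenic rational cohomology ring
-/

open Topology

namespace Vale.Agent.P216.H215

/-- The rational cohomology ring of some compact simply connected Hausdorff covering space `X` of
`M` is generated by one class: it is `ℚ[x] / (x ^ (h + 1))`, `x` of degree `d`. -/
inductive MonogenicCovered (M : Type) [TopologicalSpace M] : Prop
  | intro {X : Type} [TopologicalSpace X] [CompactSpace X] [T2Space X] [SimplyConnectedSpace X]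
      (q : X → M) (hq : IsCoveringMap q) (d h : ℕ) (hX : ASCoh.Monogenic X ℚ d h) :
      MonogenicCovered M

end Vale.Agent.P216.H215
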