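import Vale.Agent.P216.H215.Large
import Vale.Agent.P216.H215.MonoCov2
import Vale.Agent.P216.H215.SCGlue
import Vale.Agent.P216.H215.AllSpheres

/-!
# The union of all cases
-/

open Set Topology Bundle Manifold
open scoped ContDiff
open Vale.Agent.P216.H494

namespace Vale.Agent.P216.H215

variable (E : Type) [NormedAddCommGroup E] [NormedSpace ℝ E] [FiniteDimensional ℝ E]
    {M : Type} [MetricSpace M] [CompactSpace M] [ChartedSpace E M] [IsManifold 𝓘(ℝ, E) ∞ M]
    [RiemannianBundle (fun x : M => TangentSpace 𝓘(ℝ, E) x)]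
    [IsContMDiffRiemannianBundle 𝓘(ℝ, E) ∞ E (fun x : M => TangentSpace 𝓘(ℝ, E) x)]
    [IsRiemannianManifold 𝓘(ℝ, E) M]

include E in
/-- `M` covered by a compact simply connected space with monogenic rational cohomology ring. -/
theorem infinite_of_monogenicCovered' (hE : EGoal) (hD : H126.D3Goal)
    (hn : 2 ≤ Module.finrank ℝ E) (h3 : Module.finrank ℝ E ≠ 3) (h : MonogenicCovered M) :
    (primeClosedGeodesicImages M).Infinite := by
  obtain @⟨X, _, _, _, _, q, hq, d, h, hX⟩ := h
  refine infinite_of_localHomeomorph (E := E) hq.isLocalHomeomorph ?_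
  intro N _ _ _ _ _ _ _ hN
  obtain ⟨e⟩ := hN
  have : SimplyConnectedSpace N := e.toHomotopyEquiv.simplyConnectedSpace
  have hM : ASCoh.Monogenic N ℚ d h := hX.of_homeo e.symm
  obtain ⟨hh, rfl | ⟨h4, he⟩⟩ := monogenic_cases E hn h3 hM
  · exact hE (E := E) hh hM
  · exact hD (E := E) h4 hh he hM

include E in
/-- All cases together. -/
theorem main_finite (hE : EGoal) (hD : H126.D3Goal) (hn : 2 ≤ Module.finrank ℝ E)
    (h : (Module.finrank ℝ E ≠ 3 ∧ MonogenicCovered M) ∨
      (∃ (n : ℕ) (q : Metric.sphere (0 : EuclideanSpace ℝ (Fin (n + 1))) 1 → M),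
        2 ≤ n ∧ IsCoveringMap q) ∨
      ∃ x₀ : M, LargeGroup (FundamentalGroup M x₀)) :
    (primeClosedGeodesicImages M).Infinite := by
  rcases h with ⟨h3, h⟩ | ⟨n, q, hn, hq⟩ | ⟨x₀, h⟩
  · exact infinite_of_monogenicCovered' E @hE @hD hn h3 h
  · exact main_sphere_covering E hn hq
  · exact H126.infinite_of_largeGroup E x₀ h

end Vale.Agent.P216.H215
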