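import Vale.Agent.P216.D239.Glue
import Vale.Agent.P216.H140D.MidAll
import Vale.Agent.P216.H494.EFinal
import Vale.Agent.P216.H215.FiniteMain2

/-!
# Every manifold covered by a compact simply connected space with monogenic rational cohomology
-/

open Set Topology Bundle Manifold
open scoped ContDiff

namespace Vale.Agent.P216.H215

theorem gmid : D239.GMid := by
  intro E _ _ _ M _ _ _ _ _ d h ρ hρ hU hd he hh hn
  exact H140D.midK_all hρ hU (by omega) (by omega) (fun k _ hk => hk.2)

/-- **Theorem D.** -/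
theorem d3Goal : H126.D3Goal := @D239.d3Goal_of @gmid

/-- **Theorem E.** -/
theorem eGoal : EGoal := @H494E.eGoal

variable (E : Type) [NormedAddCommGroup E] [NormedSpace ℝ E] [FiniteDimensional ℝ E]
    {M : Type} [MetricSpace M] [CompactSpace M] [ChartedSpace E M] [IsManifold 𝓘(ℝ, E) ∞ M]
    [RiemannianBundle (fun x : M => TangentSpace 𝓘(ℝ, E) x)]
    [IsContMDiffRiemannianBundle 𝓘(ℝ, E) ∞ E (fun x : M => TangentSpace 𝓘(ℝ, E) x)]
    [IsRiemannianManifold 𝓘(ℝ, E) M]

include E in
/-- **The union of all cases.** -/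
theorem main_union (hn : 2 ≤ Module.finrank ℝ E)
    (h : (Module.finrank ℝ E ≠ 3 ∧ MonogenicCovered M) ∨
      (∃ (n : ℕ) (q : Metric.sphere (0 : EuclideanSpace ℝ (Fin (n + 1))) 1 → M),
        2 ≤ n ∧ IsCoveringMap q) ∨
      ∃ x₀ : M, LargeGroup (FundamentalGroup M x₀)) :
    (primeClosedGeodesicImages M).Infinite :=
  main_finite E @eGoal @d3Goal hn h

end Vale.Agent.P216.H215
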