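import Vale.Agent.P216.H215.AllSpheres
import Vale.Agent.P216.H126.CovUnion4

/-!
# The union of all cases
-/

open Set Topology Bundle Manifold
open scoped ContDiff
open Vale.Agent.P216.H494 Vale.Agent.P216.H126

namespace Vale.Agent.P216.H215

variable (E : Type) [NormedAddCommGroup E] [NormedSpace ℝ E] [FiniteDimensional ℝ E]
    {M : Type} [MetricSpace M] [CompactSpace M] [ChartedSpace E M] [IsManifold 𝓘(ℝ, E) ∞ M]
    [RiemannianBundle (fun x : M => TangentSpace 𝓘(ℝ, E) x)]
    [IsContMDiffRiemannianBundle 𝓘(ℝ, E) ∞ E (fun x : M => TangentSpace 𝓘(ℝ, E) x)]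
    [IsRiemannianManifold 𝓘(ℝ, E) M]

include E in
/-- All cases together, given theorem D3. -/
theorem main_all (H : H126.D3Goal)
    (h : H126.MonogenicCovered M ∨ OddCovered M ∨
      (∃ (n : ℕ) (q : Metric.sphere (0 : EuclideanSpace ℝ (Fin (n + 1))) 1 → M),
        2 ≤ n ∧ IsCoveringMap q) ∨
      ∃ x₀ : M, LargeGroup (FundamentalGroup M x₀)) :
    (primeClosedGeodesicImages M).Infinite := by
  rcases h with h | h | ⟨n, q, hn, hq⟩ | ⟨x₀, h⟩
  · exact infinite_of_monogenicCovered_of E @H h
  · exact infinite_of_oddCovered E h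
  · exact main_sphere_covering E hn hq
  · exact infinite_of_largeGroup E x₀ h

end Vale.Agent.P216.H215
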