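import Vale.Agent.P216.B7.Props
import Vale.Agent.P216.H126G.FG

/-!
# Linear fundamental groups, given the virtually infinite cyclic case
-/

set_option linter.all false

open Set Topology Bundle Manifold Matrix
open scoped ContDiff

namespace Vale.Agent.P216.H215

section dihedral

/-- The rotations. -/
def rotHom : Multiplicative ℤ →* DihedralGroup 0 where
  toFun z := DihedralGroup.r (n := 0) (Multiplicative.toAdd z : ℤ)
  map_one' := rfl
  map_mul' a b := rfl

theorem rotHom_injective : Function.Injective rotHom := by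
  intro a b h
  have h1 : (DihedralGroup.r (n := 0) (Multiplicative.toAdd a : ℤ)) =
    DihedralGroup.r (n := 0) (Multiplicative.toAdd b : ℤ) := h
  injection h1

/-- The sign of an element of the infinite dihedral group. -/
def sgnHom : DihedralGroup 0 →* Multiplicative (ZMod 2) where
  toFun g := match g with
    | DihedralGroup.r _ => Multiplicative.ofAdd 0
    | DihedralGroup.sr _ => Multiplicative.ofAdd 1
  map_one' := rfl
  map_mul' a b := by
    rcases a with a | a <;> rcases b with b | b
    · rfl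
    · rfl
    · rfl
    · change Multiplicative.ofAdd (0 : ZMod 2) = Multiplicative.ofAdd 1 * Multiplicative.ofAdd 1
      rw [← ofAdd_add]
      rfl

theorem rotHom_range : rotHom.range = sgnHom.ker := by
  ext g
  rw [MonoidHom.mem_range, MonoidHom.mem_ker]
  constructor
  · rintro ⟨z, rfl⟩
    rfl
  · rintro h
    rcases g with a | a
    · exact ⟨Multiplicative.ofAdd (a : ℤ), rfl⟩
    · exfalso
      have h1 : (Multiplicative.ofAdd (1 : ZMod 2)) = Multiplicative.ofAdd 0 := h
      exact absurd (Multiplicative.ofAdd.injective h1) (by decide)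

theorem exists_subgroup_dihedral {G : Type} [Group G] (e : G ≃* DihedralGroup 0) :
    ∃ H : Subgroup G, H.FiniteIndex ∧ Nonempty (Multiplicative ℤ ≃* H) := by
  let f : Multiplicative ℤ →* G := e.symm.toMonoidHom.comp rotHom
  have hf : Function.Injective f := e.symm.injective.comp rotHom_injective
  have hr : f.range = (sgnHom.comp e.toMonoidHom).ker := by
    ext g
    rw [MonoidHom.mem_range, MonoidHom.mem_ker]
    have h1 := congrArg (fun S : Subgroup (DihedralGroup 0) => e g ∈ S) rotHom_range
    simp only [MonoidHom.mem_range, MonoidHom.mem_ker, eq_iff_iff] at h1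
    rw [← show sgnHom (e g) = (sgnHom.comp e.toMonoidHom) g from rfl, ← h1]
    constructor
    · rintro ⟨z, hz⟩
      refine ⟨z, ?_⟩
      rw [← hz]
      exact (e.apply_symm_apply _).symm
    · rintro ⟨z, hz⟩
      refine ⟨z, ?_⟩
      change e.symm (rotHom z) = g
      rw [hz, e.symm_apply_apply]
  refine ⟨f.range, ?_, ⟨MonoidHom.ofInjective hf⟩⟩
  rw [hr]
  infer_instance

theorem exists_subgroup_int {G : Type} [Group G] (e : G ≃* Multiplicative ℤ) :
    ∃ H : Subgroup G, H.FiniteIndex ∧ Nonempty (Multiplicative ℤ ≃* H) :=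
  ⟨⊤, inferInstance, ⟨e.symm.trans Subgroup.topEquiv.symm⟩⟩

end dihedral

/-- `G` is linear over some field. -/
def IsLinear (G : Type) [Group G] : Prop :=
  ∃ (n : ℕ) (K : Type) (_ : Field K) (ρ : G →* GL (Fin n) K), Function.Injective ρ

/-- `G` has an infinite cyclic subgroup of finite index. -/
def IsVirtZ (G : Type) [Group G] : Prop :=
  ∃ H : Subgroup G, H.FiniteIndex ∧ Nonempty (Multiplicative ℤ ≃* H)

variable (E : Type) [NormedAddCommGroup E] [NormedSpace ℝ E] [FiniteDimensional ℝ E]
    {M : Type} [MetricSpace M] [CompactSpace M] [ChartedSpace E M] [IsManifold 𝓘(ℝ, E) ∞ M]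
    [RiemannianBundle (fun x : M => TangentSpace 𝓘(ℝ, E) x)]
    [IsContMDiffRiemannianBundle 𝓘(ℝ, E) ∞ E (fun x : M => TangentSpace 𝓘(ℝ, E) x)]
    [IsRiemannianManifold 𝓘(ℝ, E) M]

include E in
/-- **Linear fundamental groups.** -/
theorem infinite_of_linear (hV : VGoal) (h3 : ThreeGoal) (hZ : B7.VirtZGoal)
    (hn : 2 ≤ Module.finrank ℝ E) (x₀ : M) {n : ℕ} {K : Type} [Field K]
    (ρ : FundamentalGroup M x₀ →* GL (Fin n) K) (hρ : Function.Injective ρ) :
    (primeClosedGeodesicImages M).Infinite := by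
  by_cases h1 : Nonempty (FundamentalGroup M x₀ ≃* Multiplicative ℤ)
  · obtain ⟨e⟩ := h1
    obtain ⟨H, hH, he⟩ := exists_subgroup_int e
    exact hZ E M hn x₀ H hH he
  by_cases h2 : Nonempty (FundamentalGroup M x₀ ≃* DihedralGroup 0)
  · obtain ⟨e⟩ := h2
    obtain ⟨H, hH, he⟩ := exists_subgroup_dihedral e
    exact hZ E M hn x₀ H hH he
  exact H126G.main_pi3 E @hV @h3 hn x₀
    (Or.inr (Or.inl ⟨⟨n, K, _, ρ, hρ⟩, not_nonempty_iff.1 h1, not_nonempty_iff.1 h2⟩))

end Vale.Agent.P216.H215
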