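import Vale.Agent.P216.H215.Monogenic
import Mathlib.Topology.Covering.Basic
import Mathlib.AlgebraicTopology.FundamentalGroupoid.SimplyConnected
import Mathlib.Algebra.Ring.Parity
import Mathlib.Data.Rat.Defs

/-!
# Spaces covered by a compact simply connected space whose rational cohomology ring is generated
by one class
-/

open Topology

namespace Vale.Agent.P216

/-- Some compact simply connected Hausdorff covering space `X` of `M` has the rational cohomology
ring `ℚ[x] / (x ^ (h + 1))`, with `x` of degree `d ≥ 4` and `h ≥ 1`, and `d` is even or `h = 1`. -/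
inductive MonogenicCovered (M : Type) [TopologicalSpace M] : Prop
  | intro {d h : ℕ} (hd : 4 ≤ d) (hh : 1 ≤ h) (hdh : Even d ∨ h = 1)
      {X : Type} [TopologicalSpace X] [CompactSpace X] [T2Space X] [SimplyConnectedSpace X]
      (q : X → M) (hq : IsCoveringMap q) (hX : ASCoh.Monogenic X ℚ d h) : MonogenicCovered M

end Vale.Agent.P216
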