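import Vale.Agent.P216.H215.Comm
import Vale.Agent.P216.H934D.Bridge

/-!
# A cohomology ring generated by one class of odd degree `d` has `h ≤ 1`
-/

open Set

namespace Vale.Agent.P216.H215

open Vale.Agent.P216.Sl Vale.Agent.P216.PS Vale.Agent.P216.ASCoh
open Vale.Agent.P216.H133C (pw)

variable {k M : Type} [Field k] [MetricSpace M] [CompactSpace M]

theorem monogenic_odd (h2 : (2 : k) ≠ 0) {d h : ℕ} (hd : Odd d) (hM : Monogenic M k d h) :
    h ≤ 1 := by
  by_contra hh
  obtain ⟨B⟩ := H934D.baseK_of_monogenic hd.pos hM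
  have hc : CocL (univ : Set M) d B.ξ := ⟨B.ε, B.hε, fun l hl hs => B.cξ l hl hs⟩
  have h1 := Comm.exL_smul (2 : k)⁻¹ (Comm.cup_comm hc hc)
  refine B.ne 2 (by omega) ?_
  rw [mul_two]
  refine Comm.exL_congr one_pos h1 fun l hl _ => ?_
  have e1 : (-1 : k) ^ (d * d) = -1 := (hd.mul hd).neg_one_pow
  have e2 : pw B.ξ d 2 l = N929.cup d B.ξ B.ξ l := by
    have e3 : ((l.drop d).drop d).length = 1 := by
      rw [List.length_drop, List.length_drop]; omega
    have e4 : (l.drop d).take (d + 1) = l.drop d :=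
      List.take_of_length_le (by rw [List.length_drop]; omega)
    change B.ξ (l.take (d + 1)) * (B.ξ ((l.drop d).take (d + 1)) *
      if ((l.drop d).drop d).length = 1 then 1 else 0) = B.ξ (l.take (d + 1)) * B.ξ (l.drop d)
    rw [if_pos e3, e4, mul_one]
  rw [e1, e2]
  field_simp
  ring

end Vale.Agent.P216.H215
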