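import Vale.Agent.P216.H215.SphCovDef
import Vale.Agent.P216.H215.MonoHomeo
import Vale.Agent.P216.H934D.Bridge
import Vale.Agent.P216.H494.CovMain

/-!
# Theorem B for the manifolds covered by the manifolds of Theorem B
-/

set_option linter.all false

open Set Topology Bundle Manifold
open scoped ContDiff

namespace Vale.Agent.P216.H215

open Vale.Agent.P216.Sl Vale.Agent.P216.H494

/-- The list form of Theorem B on a closed Riemannian manifold. -/
def ThmBGoal : Prop :=
  ∀ {E : Type} [NormedAddCommGroup E] [NormedSpace ℝ E] [FiniteDimensional ℝ E]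
    {N : Type} [MetricSpace N] [CompactSpace N] [ChartedSpace E N] [IsManifold 𝓘(ℝ, E) ∞ N]
    [RiemannianBundle (fun x : N => TangentSpace 𝓘(ℝ, E) x)]
    [IsContMDiffRiemannianBundle 𝓘(ℝ, E) ∞ E (fun x : N => TangentSpace 𝓘(ℝ, E) x)]
    [IsRiemannianManifold 𝓘(ℝ, E) N] [PathConnectedSpace N] (x₀ : N),
    Infinite (ConjClasses (FundamentalGroup N x₀)) →
    ∀ (k : Type) [Field k] (q : ℕ) (U : List N → k), 1 ≤ q → Nrm U →
      CocL (univ : Set N) (q + 1) U →
      ∀ s : C(Metric.sphere (0 : EuclideanSpace ℝ (Fin (q + 2))) 1, N),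
        ¬ ExL univ (q + 1) (fun l => U (l.map s)) → (primeClosedGeodesicImages N).Infinite

section lists

variable {N : Type} [MetricSpace N] [CompactSpace N] {S : Type} [MetricSpace S] [CompactSpace S]
  {k : Type} [Field k]

theorem dl_sub0 {α : Type} (f g : List α → k) (l : List α) :
    dl (fun l => f l - g l) l = dl f l - dl g l := by
  have h := PS.dl_add f (fun l => (-1) * g l) l
  have h2 := PS.dl_smul (-1 : k) g l
  rw [h2] at h
  have e : (fun l => f l + (-1) * g l) = fun l => f l - g l := by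
    funext l
    ring
  rw [e] at h
  rw [h]
  ring

/-- A class which is not zero on `S` is represented by a normalised list cocycle. -/
theorem exists_list_cocycle {n : ℕ} (hn : n ≠ 0) {U : ASCoh.Cochain N k n}
    (hU : ASCoh.IsCocycle U) (s : C(S, N))
    (hs : ¬ ASCoh.IsCobd (fun σ => U (fun i => s (σ i)) : ASCoh.Cochain S k n)) :
    ∃ f : List N → k, Nrm f ∧ CocL (univ : Set N) n f ∧
      ¬ ExL univ n (fun l => f (l.map s)) := by
  obtain ⟨ε, hε, hd⟩ := (H934D.isCocycle_iff U).1 hU
  refine ⟨nrm (toL U), nrm_Nrm _, ⟨ε, hε, fun l hl hsm => ?_⟩, fun hex => hs ?_⟩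
  · rw [dl_nrm]
    refine nrm_eq_zero fun l' hl' hm => hd l' (hl'.trans hl) ⟨fun x hx => mem_univ _, ?_⟩
    exact fun x hx y hy => hsm.2 x (hm x hx) y (hm y hy)
  · rw [H934D.isCobd_iff]
    obtain ⟨g, hg, ε', hε', h⟩ := hex
    have huc : UniformContinuous s := CompactSpace.uniformContinuous_of_continuous s.continuous
    obtain ⟨η, hη, hs2⟩ := Metric.uniformContinuous_iff.1 huc ε hε
    refine ⟨fun l => g l - hmt (toL U) (l.map s), fun h0 => absurd h0 hn, min ε' η,
      lt_min hε' hη, fun l hl hsm => ?_⟩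
    have h1 : nrm (toL U) (l.map s) = dl g l := h l hl (hsm.mono subset_rfl (min_le_left _ _))
    have h2 := nrm_sub (toL U) (l.map s)
    have h3 : hmt (dl (toL U)) (l.map s) = 0 := by
      refine hmt_eq_zero fun l' hl' hm => hd l' ?_ ⟨fun x hx => mem_univ _, ?_⟩
      · rw [hl', List.length_map, hl]
      · intro x hx y hy
        obtain ⟨x', hx', rfl⟩ := List.mem_map.1 (hm x hx)
        obtain ⟨y', hy', rfl⟩ := List.mem_map.1 (hm y hy)
        exact hs2 ((hsm.2 x' hx' y' hy').trans_le (min_le_right _ _))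
    have h4 : toL (fun σ => U (fun i => s (σ i)) : ASCoh.Cochain S k n) l =
        toL U (l.map s) := by
      obtain ⟨σ, rfl⟩ := exists_ofFn hl
      rw [toL_ofFn, List.map_ofFn, toL_ofFn]
      rfl
    have h5 : dl (fun l => hmt (toL U) (l.map s)) l = dl (hmt (toL U)) (l.map s) :=
      dl_map (hmt (toL U)) s l
    rw [dl_sub0, ← h1, h4, h5]
    rw [h3, add_zero] at h2
    rw [← h2]
    ring

end lists

/-- Surjectivity of the map of fundamental groups of a homeomorphism. -/
theorem map_surj {X Y : Type} [TopologicalSpace X] [TopologicalSpace Y] (e : X ≃ₜ Y) (x : X) :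
    Function.Surjective (FundamentalGroup.map (⟨e, e.continuous⟩ : C(X, Y)) x) := by
  intro q
  obtain ⟨γ, rfl⟩ := Path.Homotopic.Quotient.mk_surjective q
  refine ⟨FundamentalGroup.fromPath (Path.Homotopic.Quotient.mk
    ((γ.map e.symm.continuous).cast (e.symm_apply_apply x).symm (e.symm_apply_apply x).symm)), ?_⟩
  change Path.Homotopic.Quotient.mk ((((γ.map e.symm.continuous).cast
    (e.symm_apply_apply x).symm (e.symm_apply_apply x).symm)).map e.continuous) =
    Path.Homotopic.Quotient.mk γ
  congr 1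
  ext t
  simp

theorem infinite_conj_of_homeo {X Y : Type} [TopologicalSpace X] [TopologicalSpace Y] (e : X ≃ₜ Y)
    (y : Y) (h : Infinite (ConjClasses (FundamentalGroup Y y))) :
    Infinite (ConjClasses (FundamentalGroup X (e.symm y))) := by
  rw [← e.apply_symm_apply y] at h
  exact Infinite.of_surjective _ (ConjClasses.map_surjective (map_surj e (e.symm y)))

variable (E : Type) [NormedAddCommGroup E] [NormedSpace ℝ E] [FiniteDimensional ℝ E]
    {M : Type} [MetricSpace M] [CompactSpace M] [ChartedSpace E M] [IsManifold 𝓘(ℝ, E) ∞ M]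
    [RiemannianBundle (fun x : M => TangentSpace 𝓘(ℝ, E) x)]
    [IsContMDiffRiemannianBundle 𝓘(ℝ, E) ∞ E (fun x : M => TangentSpace 𝓘(ℝ, E) x)]
    [IsRiemannianManifold 𝓘(ℝ, E) M]

include E in
/-- **Theorem B**, covering form. -/
theorem infinite_of_sphereCovered (hB : ThmBGoal) (h : SphereCovered M) :
    (primeClosedGeodesicImages M).Infinite := by
  obtain ⟨p, hp, y, hy, U, hU, s, hs⟩ := h
  refine infinite_of_localHomeomorph (E := E) hp.isLocalHomeomorph ?_
  intro N' _ _ _ _ _ _ _ hN
  obtain ⟨e⟩ := hN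
  have : PathConnectedSpace N' := e.symm.surjective.pathConnectedSpace e.symm.continuous
  have hy' := infinite_conj_of_homeo e y hy
  obtain ⟨f, hf, hc, hx⟩ := exists_list_cocycle (Nat.succ_ne_zero _)
    (hU.pullC (g := e) e.continuous)
    (⟨fun t => e.symm (s t), e.symm.continuous.comp s.continuous⟩ : C(_, N')) (by
      intro h
      refine hs ?_
      have h2 : (fun σ => ASCoh.pullC e U fun i => e.symm (s (σ i)) : ASCoh.Cochain _ _ _) =
          fun σ => U fun i => s (σ i) := by
        funext σ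
        simp [ASCoh.pullC, Function.comp_def]
      rw [← h2]
      exact h)
  exact hB (E := E) _ hy' _ _ f (by omega) hf hc _ hx

end Vale.Agent.P216.H215
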