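import Vale.Agent.P216.H215.LinMain
import Vale.Agent.P216.H215.SphCov

/-!
# All cases together
-/

set_option linter.all false

open Set Topology Bundle Manifold Matrix
open scoped ContDiff

namespace Vale.Agent.P216.H215

variable (E : Type) [NormedAddCommGroup E] [NormedSpace ℝ E] [FiniteDimensional ℝ E]
    {M : Type} [MetricSpace M] [CompactSpace M] [ChartedSpace E M] [IsManifold 𝓘(ℝ, E) ∞ M]
    [RiemannianBundle (fun x : M => TangentSpace 𝓘(ℝ, E) x)]
    [IsContMDiffRiemannianBundle 𝓘(ℝ, E) ∞ E (fun x : M => TangentSpace 𝓘(ℝ, E) x)]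
    [IsRiemannianManifold 𝓘(ℝ, E) M]

include E in
/-- **Linear or large fundamental group, or covered by a space with a spherical class.** -/
theorem main_pb (hV : VGoal) (h3 : ThreeGoal) (hZ : B7.VirtZGoal) (hB : ThmBGoal)
    (hn : 2 ≤ Module.finrank ℝ E) (x₀ : M)
    (h : (∃ (n : ℕ) (K : Type) (_ : Field K) (ρ : FundamentalGroup M x₀ →* GL (Fin n) K),
          Function.Injective ρ) ∨
      LargeGroup (FundamentalGroup M x₀) ∨ SphereCovered M) :
    (primeClosedGeodesicImages M).Infinite := by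
  rcases h with ⟨n, K, _, ρ, hρ⟩ | h | h
  · exact infinite_of_linear E @hV @h3 @hZ hn x₀ ρ hρ
  · exact H126G.main_pi3 E @hV @h3 hn x₀ (Or.inr (Or.inr h))
  · exact infinite_of_sphereCovered E @hB h

include E in
/-- The version without the virtually infinite cyclic case. -/
theorem main_pb0 (hV : VGoal) (h3 : ThreeGoal) (hB : ThmBGoal)
    (hn : 2 ≤ Module.finrank ℝ E) (x₀ : M)
    (h : Finite (FundamentalGroup M x₀) ∨
      ((∃ (n : ℕ) (K : Type) (_ : Field K) (ρ : FundamentalGroup M x₀ →* GL (Fin n) K),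
          Function.Injective ρ) ∧
        IsEmpty (FundamentalGroup M x₀ ≃* Multiplicative ℤ) ∧
        IsEmpty (FundamentalGroup M x₀ ≃* DihedralGroup 0)) ∨
      LargeGroup (FundamentalGroup M x₀) ∨ SphereCovered M) :
    (primeClosedGeodesicImages M).Infinite := by
  rcases h with h | h | h | h
  · exact H126G.main_pi3 E @hV @h3 hn x₀ (Or.inl h)
  · exact H126G.main_pi3 E @hV @h3 hn x₀ (Or.inr (Or.inl h))
  · exact H126G.main_pi3 E @hV @h3 hn x₀ (Or.inr (Or.inr h))
  · exact infinite_of_sphereCovered E @hB h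

end Vale.Agent.P216.H215
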