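import Vale.Agent.P216.H215.PbMain

/-!
# All cases together, with the virtually cyclic groups as a case of its own
-/

set_option linter.all false

open Set Topology Bundle Manifold Matrix
open scoped ContDiff

namespace Vale.Agent.P216.H215

theorem finite_of_bot {G : Type} [Group G] (h : (⊥ : Subgroup G).FiniteIndex) : Finite G := by
  have h1 : (⊥ : Subgroup G).index ≠ 0 := h.index_ne_zero
  rw [Subgroup.index_bot] at h1
  exact Nat.finite_of_card_ne_zero h1

variable (E : Type) [NormedAddCommGroup E] [NormedSpace ℝ E] [FiniteDimensional ℝ E]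
    {M : Type} [MetricSpace M] [CompactSpace M] [ChartedSpace E M] [IsManifold 𝓘(ℝ, E) ∞ M]
    [RiemannianBundle (fun x : M => TangentSpace 𝓘(ℝ, E) x)]
    [IsContMDiffRiemannianBundle 𝓘(ℝ, E) ∞ E (fun x : M => TangentSpace 𝓘(ℝ, E) x)]
    [IsRiemannianManifold 𝓘(ℝ, E) M]

include E in
/-- **Virtually cyclic, linear or large fundamental group, or covered by a space with a spherical
class.** -/
theorem main_pb2 (hV : VGoal) (h3 : ThreeGoal) (hZ : B7.VirtZGoal) (hB : ThmBGoal)
    (hn : 2 ≤ Module.finrank ℝ E) (x₀ : M)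
    (h : (∃ H : Subgroup (FundamentalGroup M x₀), H.FiniteIndex ∧
          (H = ⊥ ∨ Nonempty (Multiplicative ℤ ≃* H))) ∨
      (∃ (n : ℕ) (K : Type) (_ : Field K) (ρ : FundamentalGroup M x₀ →* GL (Fin n) K),
          Function.Injective ρ) ∨
      LargeGroup (FundamentalGroup M x₀) ∨ SphereCovered M) :
    (primeClosedGeodesicImages M).Infinite := by
  rcases h with ⟨H, hH, h | h⟩ | h
  · subst h
    have := finite_of_bot hH
    exact infinite_of_finite E @hV @h3 hn x₀ this
  · exact hZ E M hn x₀ H hH h
  · exact main_pb E @hV @h3 @hZ @hB hn x₀ h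

end Vale.Agent.P216.H215
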