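import Vale.Agent.P216.H215.D3Fin
import Vale.Agent.P216.H126.CovPi

/-!
# All closed manifolds with finite fundamental group, given the non-monogenic case
-/

open Set Topology Bundle Manifold
open scoped ContDiff

namespace Vale.Agent.P216.H215

variable (E : Type) [NormedAddCommGroup E] [NormedSpace ℝ E] [FiniteDimensional ℝ E]
    {M : Type} [MetricSpace M] [CompactSpace M] [ChartedSpace E M] [IsManifold 𝓘(ℝ, E) ∞ M]
    [RiemannianBundle (fun x : M => TangentSpace 𝓘(ℝ, E) x)]
    [IsContMDiffRiemannianBundle 𝓘(ℝ, E) ∞ E (fun x : M => TangentSpace 𝓘(ℝ, E) x)]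
    [IsRiemannianManifold 𝓘(ℝ, E) M]

include E in
/-- **Finite fundamental group, or large fundamental group.** -/
theorem main_pi (hV : VGoal) (hn : 2 ≤ Module.finrank ℝ E) (x₀ : M)
    (h : (Finite (FundamentalGroup M x₀) ∧ (Module.finrank ℝ E = 3 →
        ∃ q : Metric.sphere (0 : EuclideanSpace ℝ (Fin 4)) 1 → M, IsCoveringMap q)) ∨
      LargeGroup (FundamentalGroup M x₀)) :
    (primeClosedGeodesicImages M).Infinite := by
  rcases h with ⟨hfin, h3⟩ | h
  · exact H126.infinite_of_finite_pi1 @eGoal @d3Goal @hV E hn h3 x₀ hfin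
  · exact H126.infinite_of_largeGroup E x₀ h

end Vale.Agent.P216.H215
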