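import Vale.Agent.P216.H215.SFCC
import Vale.Agent.P216.T1.Sub

/-!
Geometry plus group theory: infinitely many closed geodesics when the fundamental group has
finite `p`-quotients of unbounded order.
-/

open Set Filter Topology Bundle Manifold
open scoped ContDiff

namespace Vale.Agent.P216

theorem StronglyFinitelyCyclicallyCovered.sfcc {Γ : Type*} [Group Γ]
    (h : StronglyFinitelyCyclicallyCovered Γ) : T1.SFCC Γ := by
  classical
  obtain ⟨F, lam, hF, hsub, hcov⟩ := h
  have := hF.fintype
  refine T1.SFCC.of_fintype (ι := F) (a := fun i => (i : Γ)) hsub fun g => ?_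
  obtain ⟨a, ha, k, hk, hc⟩ := hcov g
  exact ⟨⟨a, ha⟩, k, hc, hk⟩

variable (E : Type*) [NormedAddCommGroup E] [NormedSpace ℝ E] [FiniteDimensional ℝ E]
  (M : Type*) [MetricSpace M] [ChartedSpace E M] [IsManifold 𝓘(ℝ, E) ∞ M]
  [RiemannianBundle (fun (x : M) ↦ TangentSpace 𝓘(ℝ, E) x)]
  [IsContMDiffRiemannianBundle 𝓘(ℝ, E) ∞ E (fun (x : M) ↦ TangentSpace 𝓘(ℝ, E) x)]
  [IsRiemannianManifold 𝓘(ℝ, E) M]

include E in
/-- The fundamental group of a closed Riemannian manifold with finitely many closed geodesics. -/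
theorem sfcc_fundamentalGroup [CompactSpace M] (x₀ : M)
    (hfin : (primeClosedGeodesicImages M).Finite) : T1.SFCC (FundamentalGroup M x₀) :=
  (stronglyFinitelyCyclicallyCovered_fundamentalGroup E M x₀ hfin).sfcc

end Vale.Agent.P216
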