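import Vale.Agent.P216.T1.Landau

/-!
Groups covered by finitely many conjugates of cyclic subgroups have few nonabelian simple
quotients.
-/

set_option linter.all false

namespace Vale.Agent.P216.RFS

open Subgroup
open scoped commutatorElement

/-- A finite group is not the union of the conjugates of a proper subgroup. -/
theorem exists_not_conj {Q : Type*} [Group Q] [Finite Q] (C : Subgroup Q) (hC : C ≠ ⊤) :
    ∃ y : Q, ∀ g : Q, g⁻¹ * y * g ∉ C := by
  classical
  by_contra hcon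
  push Not at hcon
  have := Fintype.ofFinite Q
  have := Fintype.ofFinite (Q ⧸ C)
  have h1 := MulAction.sum_card_fixedBy_eq_card_orbits_mul_card_group Q (Q ⧸ C)
  have h2 : Fintype.card (Quotient (MulAction.orbitRel Q (Q ⧸ C))) = 1 := by
    rw [Fintype.card_eq_one_iff_nonempty_unique]
    have : Subsingleton (Quotient (MulAction.orbitRel Q (Q ⧸ C))) :=
      MulAction.pretransitive_iff_subsingleton_quotient Q (Q ⧸ C) |>.1 inferInstance
    exact ⟨⟨⟨Quotient.mk _ (((1 : Q) : Q ⧸ C))⟩, fun x => Subsingleton.elim _ _⟩⟩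
  rw [h2, one_mul] at h1
  -- every element has a fixed point
  have h3 : ∀ y : Q, 1 ≤ Fintype.card (MulAction.fixedBy (Q ⧸ C) y) := by
    intro y
    obtain ⟨g, hg⟩ := hcon y
    apply Fintype.card_pos_iff.2
    refine ⟨⟨(g : Q ⧸ C), ?_⟩⟩
    rw [MulAction.mem_fixedBy]
    change ((y * g : Q) : Q ⧸ C) = (g : Q ⧸ C)
    rw [eq_comm, QuotientGroup.eq]
    rwa [← mul_assoc]
  have h4 : 2 ≤ Fintype.card (MulAction.fixedBy (Q ⧸ C) (1 : Q)) := by
    have h5 : MulAction.fixedBy (Q ⧸ C) (1 : Q) = Set.univ := by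
      ext x; simp
    have h6 : Fintype.card (MulAction.fixedBy (Q ⧸ C) (1 : Q)) = Nat.card (Q ⧸ C) := by
      rw [← Nat.card_eq_fintype_card, h5, Nat.card_coe_set_eq, Set.ncard_univ]
    rw [h6]
    have h7 : C.index ≠ 1 := fun h => hC (Subgroup.index_eq_one.1 h)
    have h8 : C.index ≠ 0 := Subgroup.index_ne_zero_of_finite
    change 2 ≤ C.index
    omega
  have h5 : Fintype.card Q < ∑ y : Q, Fintype.card (MulAction.fixedBy (Q ⧸ C) y) := by
    have : Fintype.card Q = ∑ y : Q, 1 := by simp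
    rw [this]
    exact Finset.sum_lt_sum (fun y _ => h3 y) ⟨1, Finset.mem_univ _, h4⟩
  omega

variable {W : Type*} [Group W]

/-- `J` is a normal subgroup of finite index with nonabelian simple quotient. -/
structure SimpleQuot (J : Subgroup W) : Prop where
  nrm : J.Normal
  idx : J.index ≠ 0
  max : ∀ X : Subgroup W, X.Normal → J ≤ X → X = J ∨ X = ⊤
  nc : ∃ x y : W, ⁅x, y⁆ ∉ J

lemma SimpleQuot.ne_top {J : Subgroup W} (h : SimpleQuot J) : J ≠ ⊤ := by
  rintro rfl
  obtain ⟨x, y, hxy⟩ := h.nc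
  exact hxy trivial

lemma SimpleQuot.sup_eq_top {J X : Subgroup W} (h : SimpleQuot J) (hX : X.Normal)
    (hXJ : ¬ X ≤ J) : X ⊔ J = ⊤ := by
  have := h.nrm
  rcases h.max (X ⊔ J) (Subgroup.sup_normal X J) le_sup_right with h1 | h1
  · exact absurd (h1 ▸ le_sup_left) hXJ
  · exact h1

/-- Primality. -/
lemma SimpleQuot.prime {J X Y : Subgroup W} (h : SimpleQuot J) (hX : X.Normal) (hY : Y.Normal)
    (hXY : X ⊓ Y ≤ J) : X ≤ J ∨ Y ≤ J := by
  by_contra hcon
  push Not at hcon
  have hJ := h.nrm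
  have h1 := h.sup_eq_top hX hcon.1
  have h2 := h.sup_eq_top hY hcon.2
  obtain ⟨x, y, hxy⟩ := h.nc
  apply hxy
  obtain ⟨x₁, hx₁, j₁, hj₁, rfl⟩ := Subgroup.mem_sup_of_normal_left.1 (h1 ▸ Subgroup.mem_top x : x ∈ X ⊔ J)
  obtain ⟨y₁, hy₁, j₂, hj₂, rfl⟩ := Subgroup.mem_sup_of_normal_left.1 (h2 ▸ Subgroup.mem_top y : y ∈ Y ⊔ J)
  have h3 : ⁅x₁, y₁⁆ ∈ J := by
    apply hXY
    rw [Subgroup.mem_inf, commutatorElement_def]
    constructor
    · have := hX.conj_mem _ (X.inv_mem hx₁) y₁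
      have e : x₁ * y₁ * x₁⁻¹ * y₁⁻¹ = x₁ * (y₁ * x₁⁻¹ * y₁⁻¹) := by group
      rw [e]
      exact X.mul_mem hx₁ this
    · exact Y.mul_mem (hY.conj_mem _ hy₁ x₁) (Y.inv_mem hy₁)
  -- modulo `J`
  have h4 : QuotientGroup.mk' J ⁅x₁ * j₁, y₁ * j₂⁆ = QuotientGroup.mk' J ⁅x₁, y₁⁆ := by
    have e1 : QuotientGroup.mk' J j₁ = 1 := (QuotientGroup.eq_one_iff _).2 hj₁
    have e2 : QuotientGroup.mk' J j₂ = 1 := (QuotientGroup.eq_one_iff _).2 hj₂
    simp only [map_commutatorElement, map_mul, e1, e2, mul_one]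
  have h5 : QuotientGroup.mk' J ⁅x₁, y₁⁆ = 1 := (QuotientGroup.eq_one_iff _).2 h3
  rw [h5] at h4
  exact (QuotientGroup.eq_one_iff _).1 h4

lemma inf_normal (s : Finset (Subgroup W)) (hs : ∀ J ∈ s, J.Normal) :
    (s.inf id).Normal := by
  classical
  induction s using Finset.induction_on with
  | empty => simpa using (inferInstance : (⊤ : Subgroup W).Normal)
  | insert J s _ ih =>
    rw [Finset.inf_insert]
    have h1 : (id J : Subgroup W).Normal := hs J (Finset.mem_insert_self _ _)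
    have h2 := ih fun K hK => hs K (Finset.mem_insert_of_mem hK)
    exact Subgroup.normal_inf_normal _ _

lemma SimpleQuot.exists_le {J : Subgroup W} (h : SimpleQuot J) (s : Finset (Subgroup W))
    (hs : ∀ K ∈ s, K.Normal) (hle : s.inf id ≤ J) : ∃ K ∈ s, K ≤ J := by
  classical
  induction s using Finset.induction_on with
  | empty =>
    exfalso
    rw [Finset.inf_empty, top_le_iff] at hle
    exact h.ne_top hle
  | insert K s _ ih =>
    rw [Finset.inf_insert] at hle
    rcases h.prime (hs K (Finset.mem_insert_self _ _))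
      (inf_normal s fun K hK => hs K (Finset.mem_insert_of_mem hK)) hle with h1 | h1
    · exact ⟨K, Finset.mem_insert_self _ _, h1⟩
    · obtain ⟨L, hL, hLJ⟩ := ih (fun K hK => hs K (Finset.mem_insert_of_mem hK)) h1
      exact ⟨L, Finset.mem_insert_of_mem hL, hLJ⟩

/-- Chinese remainder theorem for nonabelian simple quotients. -/
theorem exists_crt (s : Finset (Subgroup W)) (hs : ∀ J ∈ s, SimpleQuot J) (w : Subgroup W → W) :
    ∃ x : W, ∀ J ∈ s, (w J)⁻¹ * x ∈ J := by
  classical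
  induction s using Finset.induction_on with
  | empty => exact ⟨1, by simp⟩
  | insert J s hJs ih =>
    have hs' : ∀ K ∈ s, SimpleQuot K := fun K hK => hs K (Finset.mem_insert_of_mem hK)
    have hJ := hs J (Finset.mem_insert_self _ _)
    obtain ⟨x, hx⟩ := ih hs'
    have hn : (s.inf id).Normal := inf_normal s fun K hK => (hs' K hK).nrm
    have h1 : ¬ s.inf id ≤ J := by
      intro hle
      obtain ⟨K, hK, hKJ⟩ := hJ.exists_le s (fun K hK => (hs' K hK).nrm) hle
      rcases (hs' K hK).max J hJ.nrm hKJ with h2 | h2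
      · exact hJs (h2 ▸ hK)
      · exact hJ.ne_top h2
    have h2 := hJ.sup_eq_top hn h1
    have := hJ.nrm
    obtain ⟨k, hk, j, hj, hkj⟩ := Subgroup.mem_sup_of_normal_left.1 (h2 ▸ Subgroup.mem_top (x⁻¹ * w J) :
      x⁻¹ * w J ∈ s.inf id ⊔ J)
    refine ⟨x * k, fun K hK => ?_⟩
    rcases Finset.mem_insert.1 hK with rfl | hK
    · have e : (w K)⁻¹ * (x * k) = j⁻¹ := by
        have : w K = x * k * j := by rw [mul_assoc, hkj]; group
        rw [this]; group
      rw [e]
      exact K.inv_mem hj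
    · rw [← mul_assoc]
      refine K.mul_mem (hx K hK) ?_
      have : s.inf id ≤ K := Finset.inf_le hK
      exact this hk

/-- A covered group has fewer than `r` nonabelian simple quotients. -/
theorem simpleQuot_card_lt {r : ℕ} {a : Fin r → W}
    (hcov : ∀ g : W, ∃ i, ∃ k : ℤ, IsConj g (a i ^ k)) (s : Finset (Subgroup W))
    (hs : ∀ J ∈ s, SimpleQuot J) : s.card < r := by
  classical
  by_contra hcon
  push Not at hcon
  obtain ⟨t, hts, htr⟩ := Finset.exists_subset_card_eq hcon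
  let e : t ≃ Fin r := t.equivFinOfCardEq htr
  -- an element of `W` whose image in `W ⧸ J` is not conjugate into the `i`-th cyclic group
  have hw : ∀ J : Subgroup W, ∃ y : W, ∀ hJ : J ∈ t, ∀ g : W, ∀ k : ℤ, ∀ j ∈ J,
      g⁻¹ * (y * j) * g ≠ a (e ⟨J, hJ⟩) ^ k := by
    intro J
    by_cases hJ : J ∈ t
    · have hJs := hs J (hts hJ)
      have := hJs.nrm
      have hfin : Finite (W ⧸ J) := Nat.finite_of_card_ne_zero hJs.idx
      have hC : zpowers (QuotientGroup.mk' J (a (e ⟨J, hJ⟩))) ≠ ⊤ := by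
        intro htop
        obtain ⟨x, y, hxy⟩ := hJs.nc
        apply hxy
        rw [← QuotientGroup.eq_one_iff]
        have hx : QuotientGroup.mk' J x ∈ zpowers (QuotientGroup.mk' J (a (e ⟨J, hJ⟩))) := by
          rw [htop]; trivial
        have hy : QuotientGroup.mk' J y ∈ zpowers (QuotientGroup.mk' J (a (e ⟨J, hJ⟩))) := by
          rw [htop]; trivial
        obtain ⟨m, hm⟩ := Subgroup.mem_zpowers_iff.1 hx
        obtain ⟨n, hn⟩ := Subgroup.mem_zpowers_iff.1 hy
        change QuotientGroup.mk' J ⁅x, y⁆ = 1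
        rw [map_commutatorElement, ← hm, ← hn, commutatorElement_eq_one_iff_mul_comm]
        exact ((Commute.refl _).zpow_zpow m n).eq
      obtain ⟨y, hy⟩ := exists_not_conj _ hC
      obtain ⟨y, rfl⟩ := QuotientGroup.mk'_surjective J y
      refine ⟨y, fun hJ' g k j hj heq => hy (QuotientGroup.mk' J g) ?_⟩
      rw [Subgroup.mem_zpowers_iff]
      refine ⟨k, ?_⟩
      rw [← map_zpow, ← heq]
      have hj1 : QuotientGroup.mk' J j = 1 := (QuotientGroup.eq_one_iff _).2 hj
      simp only [map_mul, map_inv, hj1, mul_one]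
    · exact ⟨1, fun h => absurd h hJ⟩
  choose w hw using hw
  obtain ⟨x, hx⟩ := exists_crt t (fun J hJ => hs J (hts hJ)) w
  obtain ⟨i, k, hik⟩ := hcov x
  set J := e.symm i with hJ
  obtain ⟨c, hc⟩ := isConj_iff.1 hik
  have h1 := hw J.1 J.2 c⁻¹ k ((w J.1)⁻¹ * x) (hx J.1 J.2)
  apply h1
  have e1 : w J.1 * ((w J.1)⁻¹ * x) = x := by group
  rw [e1, inv_inv]
  have e2 : e ⟨J.1, J.2⟩ = i := by simp [hJ]
  rw [e2]
  exact hc

end Vale.Agent.P216.RFS
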