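import Vale.Agent.P216.H215.CompCount
import Vale.Agent.P216.H215.Simple
import Vale.Agent.P216.T1.Final
import Mathlib.Data.Finite.Perm

/-!
Groups covered by finitely many conjugates of cyclic groups, whose finite-index subgroups have
bounded finite solvable quotients, and whose almost simple finite sections have solvable quotient
by the socle, have bounded finite quotients.
-/

set_option linter.all false

namespace Vale.Agent.P216.RFS

open Subgroup
open scoped commutatorElement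

/-- Every almost simple finite quotient `A = U ⧸ N` (with nonabelian simple socle `S`) of a
finite-index subgroup `U` of `G` has a solvable quotient `A ⧸ S`. -/
def AlmostSimpleSolvable (G : Type*) [Group G] : Prop :=
  ∀ U : Subgroup G, U.index ≠ 0 → ∀ (N : Subgroup U) (_ : N.Normal), N.index ≠ 0 →
    ∀ (S : Subgroup (U ⧸ N)) (_ : S.Normal), IsSimpleGroup S → (∃ x y : S, x * y ≠ y * x) →
      Subgroup.centralizer (S : Set (U ⧸ N)) = ⊥ → Group.IsSolvable ((U ⧸ N) ⧸ S)

/-- Bounded finite solvable quotients. -/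
def BddSolv (G : Type*) [Group G] : Prop :=
  ∃ B : ℕ, ∀ N : Subgroup G, ∀ _ : N.Normal, N.index ≠ 0 → Group.IsSolvable (G ⧸ N) → N.index ≤ B

variable {G : Type*} [Group G]

lemma cov_of_fcc (h : FinitelyCyclicallyCovered G) :
    ∃ (r : ℕ) (a : Fin r → G), ∀ g : G, ∃ i, ∃ k : ℤ, IsConj g (a i ^ k) := by
  classical
  obtain ⟨F, hF, hcov⟩ := h
  have := hF.fintype
  let e := Fintype.equivFin F
  refine ⟨Fintype.card F, fun i => (e.symm i : G), fun g => ?_⟩
  obtain ⟨a, ha, k, hk⟩ := hcov g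
  exact ⟨e ⟨a, ha⟩, k, by simpa using hk⟩

/-- The solvable residual. -/
lemma BddSolv.exists_residual (h : BddSolv G) :
    ∃ R : Subgroup G, R.Normal ∧ R.index ≠ 0 ∧
      ∀ N : Subgroup G, ∀ _ : N.Normal, N.index ≠ 0 → Group.IsSolvable (G ⧸ N) → R ≤ N := by
  classical
  obtain ⟨B, hB⟩ := h
  let P : Subgroup G → Prop := fun N => ∃ _ : N.Normal, N.index ≠ 0 ∧ Group.IsSolvable (G ⧸ N)
  have hPtop : P ⊤ := by
    have := QuotientGroup.subsingleton_quotient_top (G := G)
    exact ⟨inferInstance, by simp, Group.isSolvable_of_comm fun a b => Subsingleton.elim _ _⟩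
  obtain ⟨R, hR, hmax⟩ : ∃ R, P R ∧ ∀ N, P N → N.index ≤ R.index := by
    have hfin : ((fun N : Subgroup G => N.index) '' {N | P N}).Finite :=
      (Set.finite_Iic B).subset (by
        rintro _ ⟨N, ⟨hN, h1, h2⟩, rfl⟩
        exact hB N hN h1 h2)
    obtain ⟨_, ⟨R, hR, rfl⟩, hmax⟩ := Set.exists_max_image _ id hfin ⟨_, ⟨⊤, hPtop, rfl⟩⟩
    exact ⟨R, hR, fun N hN => hmax _ ⟨N, hN, rfl⟩⟩
  obtain ⟨hRn, hR0, hRs⟩ := hR
  refine ⟨R, hRn, hR0, fun N hN hN0 hNs => ?_⟩
  have hPinf : P (R ⊓ N) := by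
    refine ⟨Subgroup.normal_inf_normal _ _, Subgroup.index_inf_ne_zero hR0 hN0, ?_⟩
    have hn : (R ⊓ N).Normal := Subgroup.normal_inf_normal _ _
    let f : G ⧸ (R ⊓ N) →* (G ⧸ R) × (G ⧸ N) :=
      QuotientGroup.lift (R ⊓ N) ((QuotientGroup.mk' R).prod (QuotientGroup.mk' N)) (by
        intro x hx
        rw [Subgroup.mem_inf] at hx
        rw [MonoidHom.mem_ker]
        refine Prod.ext ?_ ?_
        · exact (QuotientGroup.eq_one_iff x).2 hx.1
        · exact (QuotientGroup.eq_one_iff x).2 hx.2)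
    have hf : Function.Injective f := by
      rw [injective_iff_map_eq_one]
      intro x hx
      obtain ⟨x, rfl⟩ := QuotientGroup.mk_surjective x
      have h1 : (QuotientGroup.mk' R x, QuotientGroup.mk' N x) = (1, 1) := hx
      rw [Prod.mk.injEq] at h1
      rw [QuotientGroup.eq_one_iff, Subgroup.mem_inf]
      exact ⟨(QuotientGroup.eq_one_iff x).1 h1.1, (QuotientGroup.eq_one_iff x).1 h1.2⟩
    exact Group.isSolvable_of_isSolvable_injective hf
  have h1 := hmax _ hPinf
  have h3 := Subgroup.relIndex_mul_index (inf_le_left : R ⊓ N ≤ R)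
  have h4 : (R ⊓ N).relIndex R = 1 := by
    have h6 := Nat.pos_of_ne_zero hR0
    have h8 : (R ⊓ N).relIndex R ≠ 0 := by
      intro h; rw [h, zero_mul] at h3
      exact hPinf.2.1 h3.symm
    by_contra hne
    have h9 : 2 ≤ (R ⊓ N).relIndex R := by omega
    nlinarith
  rw [Subgroup.relIndex_eq_one] at h4
  exact h4.trans inf_le_right

lemma index_normalCore_le {H : Subgroup G} (hH : H.index ≠ 0) :
    H.normalCore.index ≠ 0 ∧ H.normalCore.index ≤ (H.index).factorial := by
  have h : H.normalCore.index ∣ (H.index).factorial := by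
    have : Finite (G ⧸ H) := Nat.finite_of_card_ne_zero hH
    rw [normalCore_eq_ker, index_ker, index_eq_card, ← Nat.card_perm]
    exact Subgroup.card_subgroup_dvd_card _
  have h1 := Nat.factorial_pos H.index
  exact ⟨fun h0 => by rw [h0] at h; exact h1.ne' (Nat.eq_zero_of_zero_dvd h), Nat.le_of_dvd h1 h⟩

lemma index_map_subtype_ne_zero {U : Subgroup G} (hU : U.index ≠ 0) {R : Subgroup U}
    (hR : R.index ≠ 0) : (R.map U.subtype).index ≠ 0 := by
  have h1 : R.map U.subtype ≤ U := Subgroup.map_subtype_le R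
  rw [← Subgroup.relIndex_mul_index h1]
  refine mul_ne_zero ?_ hU
  have : (R.map U.subtype).relIndex U = R.index := by
    unfold Subgroup.relIndex Subgroup.subgroupOf
    rw [Subgroup.comap_map_eq_self_of_injective U.subtype_injective]
  rwa [this]

section Central

variable {N : Subgroup G} [N.Normal] [Finite (G ⧸ N)]

/-- `w` acts on `B` as `b` does. -/
def Acts (B : Subgroup (G ⧸ N)) (w : G) (b : G ⧸ N) : Prop :=
  ∀ x ∈ B, (w : G ⧸ N) * x * (w : G ⧸ N)⁻¹ = b * x * b⁻¹

lemma Acts.mul {B : Subgroup (G ⧸ N)} {w w' : G} {b b' : G ⧸ N} (h : Acts B w b)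
    (h' : Acts B w' b') (hb' : b' ∈ B) : Acts B (w * w') (b * b') := by
  intro x hx
  have h1 : b' * x * b'⁻¹ ∈ B := B.mul_mem (B.mul_mem hb' hx) (B.inv_mem hb')
  have h2 := h _ h1
  rw [← h' x hx] at h2
  calc ((w * w' : G) : G ⧸ N) * x * ((w * w' : G) : G ⧸ N)⁻¹
      = (w : G ⧸ N) * ((w' : G ⧸ N) * x * (w' : G ⧸ N)⁻¹) * (w : G ⧸ N)⁻¹ := by
        rw [QuotientGroup.mk_mul]; group
    _ = b * ((w' : G ⧸ N) * x * (w' : G ⧸ N)⁻¹) * b⁻¹ := h2
    _ = b * b' * x * (b * b')⁻¹ := by rw [h' x hx]; group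

lemma Acts.inv {B : Subgroup (G ⧸ N)} {w : G} {b : G ⧸ N} (h : Acts B w b) (hb : b ∈ B) :
    Acts B w⁻¹ b⁻¹ := by
  intro x hx
  have h1 : b⁻¹ * x * b ∈ B := B.mul_mem (B.mul_mem (B.inv_mem hb) hx) hb
  have h2 := h _ h1
  have h3 : (w : G ⧸ N) * (b⁻¹ * x * b) * (w : G ⧸ N)⁻¹ = x := by rw [h2]; group
  have h4 : ((w⁻¹ : G) : G ⧸ N) * x * ((w⁻¹ : G) : G ⧸ N)⁻¹ =
      (w : G ⧸ N)⁻¹ * x * (w : G ⧸ N) := by rw [QuotientGroup.mk_inv]; group
  rw [h4]
  conv_lhs => rw [← h3]
  group

lemma acts_one (B : Subgroup (G ⧸ N)) : Acts B (1 : G) 1 := by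
  intro x hx; simp

lemma acts_one_iff (B : Subgroup (G ⧸ N)) (w : G) :
    Acts B w 1 ↔ ∀ x ∈ B, (w : G ⧸ N) * x = x * (w : G ⧸ N) := by
  constructor
  · intro h x hx
    have := h x hx
    rw [one_mul, inv_one, mul_one] at this
    calc (w : G ⧸ N) * x = ((w : G ⧸ N) * x * (w : G ⧸ N)⁻¹) * (w : G ⧸ N) := by group
      _ = x * (w : G ⧸ N) := by rw [this]
  · intro h x hx
    rw [h x hx]; group

lemma Acts.eq_one {A B : Subgroup (G ⧸ N)} (hB : IsComp A B) {w : G} {b : G ⧸ N}
    (h : Acts B w b) (h1 : Acts B w 1) (hb : b ∈ B) : b = 1 := by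
  apply hB.center b hb
  intro y hy
  have e1 := h y hy
  have e2 := h1 y hy
  rw [e1, one_mul, inv_one, mul_one] at e2
  calc b * y = (b * y * b⁻¹) * b := by group
    _ = y * b := by rw [e2]

/-- The subgroup of those `b ∈ B` which act as some element of `X`. -/
def imB (B : Subgroup (G ⧸ N)) (X : Subgroup G) : Subgroup (G ⧸ N) where
  carrier := {b | b ∈ B ∧ ∃ w ∈ X, Acts B w b}
  one_mem' := ⟨B.one_mem, 1, X.one_mem, acts_one B⟩
  mul_mem' := by
    rintro b b' ⟨hb, w, hw, h⟩ ⟨hb', w', hw', h'⟩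
    exact ⟨B.mul_mem hb hb', w * w', X.mul_mem hw hw', h.mul h' hb'⟩
  inv_mem' := by
    rintro b ⟨hb, w, hw, h⟩
    exact ⟨B.inv_mem hb, w⁻¹, X.inv_mem hw, h.inv hb⟩

lemma mem_imB {B : Subgroup (G ⧸ N)} {X : Subgroup G} {b : G ⧸ N} :
    b ∈ imB B X ↔ b ∈ B ∧ ∃ w ∈ X, Acts B w b := Iff.rfl

/-- If `W` is normal and acts on the component `B` by inner automorphisms then `W` centralizes `B`
or the centralizer of `B` in `W` has simple nonabelian quotient. -/
theorem simpleQuot_of_inner {A B : Subgroup (G ⧸ N)} (hB : IsComp A B) {W : Subgroup G}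
    (hW : W.Normal) (hinn : ∀ w ∈ W, ∃ b ∈ B, Acts B w b) (C : Subgroup W)
    (hC : ∀ w : W, w ∈ C ↔ Acts B (w : G) 1) : C = ⊤ ∨ SimpleQuot C := by
  classical
  by_cases hCt : C = ⊤
  · exact Or.inl hCt
  right
  -- the image of `W` is all of `B`
  have hWB : imB B W = B := by
    rcases hB.simple (imB B W) (fun b hb => hb.1) (by
      rintro b' hb' b ⟨hb, w, hw, h⟩
      refine ⟨B.mul_mem (B.mul_mem hb' hb) (B.inv_mem hb'), ?_⟩
      obtain ⟨g, rfl⟩ := QuotientGroup.mk_surjective b'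
      refine ⟨g * w * g⁻¹, hW.conj_mem w hw g, fun x hx => ?_⟩
      have h1 : (g : G ⧸ N)⁻¹ * x * (g : G ⧸ N) ∈ B :=
        B.mul_mem (B.mul_mem (B.inv_mem hb') hx) hb'
      have h2 := h _ h1
      calc ((g * w * g⁻¹ : G) : G ⧸ N) * x * ((g * w * g⁻¹ : G) : G ⧸ N)⁻¹
          = (g : G ⧸ N) * ((w : G ⧸ N) * ((g : G ⧸ N)⁻¹ * x * (g : G ⧸ N)) * (w : G ⧸ N)⁻¹) *
              (g : G ⧸ N)⁻¹ := by
            rw [QuotientGroup.mk_mul, QuotientGroup.mk_mul, QuotientGroup.mk_inv]; group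
        _ = _ := by rw [h2]; group) with h | h
    · exfalso
      apply hCt
      rw [Subgroup.eq_top_iff']
      intro w
      rw [hC]
      obtain ⟨b, hb, hwb⟩ := hinn w w.2
      have : b ∈ imB B W := ⟨hb, w, w.2, hwb⟩
      rw [h, Subgroup.mem_bot] at this
      rwa [← this]
    · exact h
  have hact : ∀ b ∈ B, ∃ w ∈ W, Acts B w b := fun b hb => by
    rw [← hWB] at hb; exact hb.2
  -- normality
  have hCn : C.Normal := by
    constructor
    intro c hc w
    rw [hC] at hc ⊢
    obtain ⟨b, hb, hwb⟩ := hinn w w.2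
    have h1 := (hwb.mul hc B.one_mem).mul (hwb.inv hb) (B.inv_mem hb)
    rw [mul_one, mul_inv_cancel] at h1
    simpa using h1
  refine ⟨hCn, ?_, ?_, ?_⟩
  · -- finite index
    have h1 : ((QuotientGroup.mk' N).comp W.subtype).ker ≤ C := by
      intro w hw
      rw [MonoidHom.mem_ker] at hw
      rw [hC, acts_one_iff]
      have h2 : ((w : G) : G ⧸ N) = 1 := hw
      intro x hx
      rw [h2, one_mul, mul_one]
    have h2 := Subgroup.index_dvd_of_le h1
    have h3 : ((QuotientGroup.mk' N).comp W.subtype).ker.index ≠ 0 := by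
      rw [Subgroup.index_ker]
      exact Nat.card_pos.ne'
    intro h0
    rw [h0] at h2
    exact h3 (Nat.eq_zero_of_zero_dvd h2)
  · intro X hX hCX
    rcases hB.simple (imB B (X.map W.subtype)) (fun b hb => hb.1) (by
      rintro b' hb' b ⟨hb, w, hw, h⟩
      obtain ⟨w, hwX, rfl⟩ := Subgroup.mem_map.1 hw
      obtain ⟨w', hw', hwb'⟩ := hact b' hb'
      refine ⟨B.mul_mem (B.mul_mem hb' hb) (B.inv_mem hb'), w' * w * w'⁻¹, ?_, ?_⟩
      · refine Subgroup.mem_map.2 ⟨⟨w', hw'⟩ * w * (⟨w', hw'⟩)⁻¹, hX.conj_mem w hwX _, ?_⟩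
        simp
      · exact (hwb'.mul h hb).mul (hwb'.inv hb') (B.inv_mem hb')) with h | h
    · left
      refine le_antisymm (fun w hw => ?_) hCX
      rw [hC]
      obtain ⟨b, hb, hwb⟩ := hinn w w.2
      have : b ∈ imB B (X.map W.subtype) := ⟨hb, w, Subgroup.mem_map_of_mem _ hw, hwb⟩
      rw [h, Subgroup.mem_bot] at this
      rwa [← this]
    · right
      rw [Subgroup.eq_top_iff']
      intro w
      obtain ⟨b, hb, hwb⟩ := hinn w w.2
      rw [← h] at hb
      obtain ⟨hbB, x, hx, hxb⟩ := hb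
      obtain ⟨x, hxX, rfl⟩ := Subgroup.mem_map.1 hx
      have h1 : w * x⁻¹ ∈ C := by
        rw [hC]
        have := hwb.mul (hxb.inv hbB) (B.inv_mem hbB)
        rw [mul_inv_cancel] at this
        simpa using this
      have h2 := X.mul_mem (hCX h1) hxX
      simpa using h2
  · -- not commutative
    by_contra hcon
    push Not at hcon
    have hab : ∀ x ∈ B, ∀ y ∈ B, x * y = y * x := by
      intro x hx y hy
      obtain ⟨w, hw, hwx⟩ := hact x hx
      obtain ⟨v, hv, hvy⟩ := hact y hy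
      have h1 := hcon ⟨w, hw⟩ ⟨v, hv⟩
      rw [hC] at h1
      have h2 : Acts B ((w * v) * w⁻¹ * v⁻¹) ((x * y) * x⁻¹ * y⁻¹) :=
        ((hwx.mul hvy hy).mul (hwx.inv hx) (B.inv_mem hx)).mul (hvy.inv hy) (B.inv_mem hy)
      have h3 : Acts B ((w * v) * w⁻¹ * v⁻¹) 1 := by
        simpa [commutatorElement_def] using h1
      have h4 := h2.eq_one hB h3
        (B.mul_mem (B.mul_mem (B.mul_mem hx hy) (B.inv_mem hx)) (B.inv_mem hy))
      calc x * y = (x * y * x⁻¹ * y⁻¹) * (y * x) := by group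
        _ = y * x := by rw [h4, one_mul]
    apply hB.ne_bot
    rw [eq_bot_iff]
    intro x hx
    rw [Subgroup.mem_bot]
    exact hB.center x hx fun y hy => hab x hx y hy

/-- The Schreier property gives inner actions. -/
theorem inner_of_solvable {A B : Subgroup (G ⧸ N)} (hA : A.Normal)
    (hmin : ∀ W : Subgroup (G ⧸ N), W.Normal → W ≤ A → W = ⊥ ∨ W = A) (hB : IsComp A B)
    (hSch : AlmostSimpleSolvable G) {U : Subgroup G} (hU : U.Normal) (hU0 : U.index ≠ 0)
    (hUB : ∀ u ∈ U, ∀ b ∈ B, (u : G ⧸ N) * b * (u : G ⧸ N)⁻¹ ∈ B) {R : Subgroup U}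
    (hR : ∀ N : Subgroup U, ∀ _ : N.Normal, N.index ≠ 0 → Group.IsSolvable (U ⧸ N) → R ≤ N) :
    ∀ w ∈ R.map U.subtype, ∃ b ∈ B, Acts B w b := by
  classical
  -- the image of `U`
  have himn : (U.map (QuotientGroup.mk' N)).Normal :=
    hU.map _ (QuotientGroup.mk'_surjective N)
  rcases hmin (A ⊓ U.map (QuotientGroup.mk' N)) (Subgroup.normal_inf_normal _ _) inf_le_left
    with h | h
  · -- `U` centralizes `A`
    intro w hw
    refine ⟨1, B.one_mem, ?_⟩
    rw [acts_one_iff]
    intro x hx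
    obtain ⟨u, hu, rfl⟩ := Subgroup.mem_map.1 hw
    have hxA := hB.le hx
    have hum : ((u : G) : G ⧸ N) ∈ U.map (QuotientGroup.mk' N) :=
      Subgroup.mem_map_of_mem _ u.2
    have h1 : ⁅((u : G) : G ⧸ N), x⁆ ∈ A ⊓ U.map (QuotientGroup.mk' N) := by
      rw [Subgroup.mem_inf, commutatorElement_def]
      constructor
      · exact A.mul_mem (hA.conj_mem _ hxA _) (A.inv_mem hxA)
      · have := himn.conj_mem _ ((U.map (QuotientGroup.mk' N)).inv_mem hum) x
        have e : ((u : G) : G ⧸ N) * x * ((u : G) : G ⧸ N)⁻¹ * x⁻¹ =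
          ((u : G) : G ⧸ N) * (x * ((u : G) : G ⧸ N)⁻¹ * x⁻¹) := by group
        rw [e]
        exact Subgroup.mul_mem _ hum this
    rw [h, Subgroup.mem_bot, commutatorElement_eq_one_iff_mul_comm] at h1
    exact h1
  · have hAU : A ≤ U.map (QuotientGroup.mk' N) := by
      rw [← h]; exact inf_le_right
    have hBU : ∀ b ∈ B, ∃ u : U, ((u : G) : G ⧸ N) = b := by
      intro b hb
      obtain ⟨u, hu, hub⟩ := Subgroup.mem_map.1 (hAU (hB.le hb))
      exact ⟨⟨u, hu⟩, hub⟩
    -- centralizer of `B` in `U`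
    let K : Subgroup U :=
      (centralizer (B : Set (G ⧸ N))).comap ((QuotientGroup.mk' N).comp U.subtype)
    have hK : ∀ u : U, u ∈ K ↔ ∀ x ∈ B, ((u : G) : G ⧸ N) * x = x * ((u : G) : G ⧸ N) := by
      intro u
      rw [Subgroup.mem_comap, Subgroup.mem_centralizer_iff]
      exact ⟨fun h x hx => (h x hx).symm, fun h x hx => (h x hx).symm⟩
    have hKn : K.Normal := by
      constructor
      intro k hk u
      rw [hK] at hk ⊢
      intro x hx
      have h1 : ((u : G) : G ⧸ N)⁻¹ * x * ((u : G) : G ⧸ N) ∈ B := by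
        have := hUB _ (U.inv_mem u.2) x hx
        rw [QuotientGroup.mk_inv, inv_inv] at this
        exact this
      have h2 := hk _ h1
      have e1 : ((u * k * u⁻¹ : U) : G) = (u : G) * (k : G) * (u : G)⁻¹ := by simp
      rw [e1, QuotientGroup.mk_mul, QuotientGroup.mk_mul, QuotientGroup.mk_inv]
      calc ((u : G) : G ⧸ N) * ((k : G) : G ⧸ N) * ((u : G) : G ⧸ N)⁻¹ * x
          = ((u : G) : G ⧸ N) * (((k : G) : G ⧸ N) *
              (((u : G) : G ⧸ N)⁻¹ * x * ((u : G) : G ⧸ N))) * ((u : G) : G ⧸ N)⁻¹ := by group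
        _ = x * (((u : G) : G ⧸ N) * ((k : G) : G ⧸ N) * ((u : G) : G ⧸ N)⁻¹) := by
          rw [h2]; group
    have hK0 : K.index ≠ 0 := by
      have h1 : ((QuotientGroup.mk' N).comp U.subtype).ker ≤ K := by
        intro w hw
        rw [MonoidHom.mem_ker] at hw
        have h2 : ((w : G) : G ⧸ N) = 1 := hw
        rw [hK]
        intro x hx
        rw [h2, one_mul, mul_one]
      have h2 := Subgroup.index_dvd_of_le h1
      have h3 : ((QuotientGroup.mk' N).comp U.subtype).ker.index ≠ 0 := by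
        rw [Subgroup.index_ker]
        exact Nat.card_pos.ne'
      intro h0
      rw [h0] at h2
      exact h3 (Nat.eq_zero_of_zero_dvd h2)
    -- preimage of `B`
    let T : Subgroup U := B.comap ((QuotientGroup.mk' N).comp U.subtype)
    have hT : ∀ u : U, u ∈ T ↔ ((u : G) : G ⧸ N) ∈ B := fun u => Iff.rfl
    have hTn : T.Normal := by
      constructor
      intro t ht u
      rw [hT] at ht ⊢
      have := hUB u u.2 _ ht
      simpa using this
    let S : Subgroup (U ⧸ K) := T.map (QuotientGroup.mk' K)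
    have hSn : S.Normal := hTn.map _ (QuotientGroup.mk'_surjective K)
    have hmk : ∀ u v : U, (QuotientGroup.mk' K u = QuotientGroup.mk' K v) ↔ u⁻¹ * v ∈ K :=
      fun u v => QuotientGroup.eq
    -- if the images of `t, t'` agree on the quotient by `K` and are both in `B` they agree
    have hTK : ∀ t : U, t ∈ T → t ∈ K → ((t : G) : G ⧸ N) = 1 := by
      intro t ht htK
      rw [hK] at htK
      exact hB.center _ ht htK
    have hS0 : S ≠ ⊥ := by
      intro hS
      apply hB.ne_bot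
      rw [eq_bot_iff]
      intro b hb
      obtain ⟨u, rfl⟩ := hBU b hb
      rw [Subgroup.mem_bot]
      apply hTK u hb
      have h1 : QuotientGroup.mk' K u ∈ S := Subgroup.mem_map_of_mem _ hb
      rw [hS, Subgroup.mem_bot] at h1
      exact (QuotientGroup.eq_one_iff u).1 h1
    have hSs : IsSimpleGroup S := by
      rw [Subgroup.isSimpleGroup_iff]
      refine ⟨hS0, fun S' hS'S hS'n => ?_⟩
      have hS'conj : ∀ s ∈ S, ∀ x ∈ S', s * x * s⁻¹ ∈ S' := by
        intro s hs x hx
        have := hS'n.conj_mem ⟨x, hS'S hx⟩ (by rw [Subgroup.mem_subgroupOf]; exact hx) ⟨s, hs⟩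
        rw [Subgroup.mem_subgroupOf] at this
        simpa using this
      let B' : Subgroup (G ⧸ N) :=
        ((S'.comap (QuotientGroup.mk' K)) ⊓ T).map ((QuotientGroup.mk' N).comp U.subtype)
      have hB'B : B' ≤ B := by
        rintro _ ⟨u, hu, rfl⟩
        exact (Subgroup.mem_inf.1 hu).2
      rcases hB.simple B' hB'B (by
        rintro b hb _ ⟨u, hu, rfl⟩
        obtain ⟨v, rfl⟩ := hBU b hb
        obtain ⟨hu1, hu2⟩ := Subgroup.mem_inf.1 hu
        refine ⟨v * u * v⁻¹, Subgroup.mem_inf.2 ⟨?_, hTn.conj_mem u hu2 v⟩, by simp⟩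
        rw [Subgroup.mem_comap] at hu1 ⊢
        rw [map_mul, map_mul, map_inv]
        exact hS'conj _ (Subgroup.mem_map_of_mem _ hb) _ hu1) with h1 | h1
      · left
        rw [eq_bot_iff]
        intro s hs
        obtain ⟨t, ht, rfl⟩ := Subgroup.mem_map.1 (hS'S hs)
        have h2 : ((t : G) : G ⧸ N) ∈ B' := ⟨t, Subgroup.mem_inf.2 ⟨hs, ht⟩, rfl⟩
        rw [h1, Subgroup.mem_bot] at h2
        rw [Subgroup.mem_bot]
        apply (QuotientGroup.eq_one_iff t).2
        rw [hK]
        intro x hx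
        rw [h2, one_mul, mul_one]
      · right
        refine le_antisymm hS'S fun s hs => ?_
        obtain ⟨t, ht, rfl⟩ := Subgroup.mem_map.1 hs
        have h2 : ((t : G) : G ⧸ N) ∈ B' := by rw [h1]; exact ht
        obtain ⟨u, hu, hut⟩ := h2
        obtain ⟨hu1, hu2⟩ := Subgroup.mem_inf.1 hu
        have h3 : QuotientGroup.mk' K t = QuotientGroup.mk' K u := by
          rw [hmk, hK]
          have h4 : ((u : G) : G ⧸ N) = ((t : G) : G ⧸ N) := hut
          have h5 : ((t⁻¹ * u : U) : G) = (t : G)⁻¹ * (u : G) := by simp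
          intro x hx
          rw [h5, QuotientGroup.mk_mul, QuotientGroup.mk_inv, h4, inv_mul_cancel, one_mul,
            mul_one]
        rw [h3]
        exact hu1
    have hSnc : ∃ x y : S, x * y ≠ y * x := by
      by_contra hcon
      push Not at hcon
      apply hB.ne_bot
      rw [eq_bot_iff]
      intro b hb
      rw [Subgroup.mem_bot]
      apply hB.center b hb
      intro c hc
      obtain ⟨u, rfl⟩ := hBU b hb
      obtain ⟨v, rfl⟩ := hBU c hc
      have h1 := hcon ⟨QuotientGroup.mk' K u, Subgroup.mem_map_of_mem _ hb⟩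
        ⟨QuotientGroup.mk' K v, Subgroup.mem_map_of_mem _ hc⟩
      have h2 : QuotientGroup.mk' K (u * v) = QuotientGroup.mk' K (v * u) := by
        rw [map_mul, map_mul]
        exact congrArg Subtype.val h1
      rw [hmk] at h2
      have h3 : (u * v)⁻¹ * (v * u) ∈ T := T.mul_mem (T.inv_mem (T.mul_mem hb hc)) (T.mul_mem hc hb)
      have h4 := hTK _ h3 h2
      have h5 : (((u * v)⁻¹ * (v * u) : U) : G) = ((u : G) * v)⁻¹ * (v * u) := by simp
      rw [h5, QuotientGroup.mk_mul, QuotientGroup.mk_inv, QuotientGroup.mk_mul,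
        QuotientGroup.mk_mul, inv_mul_eq_one] at h4
      exact h4
    have hSc : Subgroup.centralizer (S : Set (U ⧸ K)) = ⊥ := by
      rw [eq_bot_iff]
      intro s hs
      obtain ⟨u, rfl⟩ := QuotientGroup.mk'_surjective K s
      rw [Subgroup.mem_bot]
      apply (QuotientGroup.eq_one_iff u).2
      rw [hK]
      intro b hb
      obtain ⟨v, rfl⟩ := hBU b hb
      rw [Subgroup.mem_centralizer_iff] at hs
      have h1 := hs (QuotientGroup.mk' K v) (Subgroup.mem_map_of_mem _ hb)
      rw [← map_mul, ← map_mul, hmk] at h1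
      -- `(v * u)⁻¹ * (u * v)` lies in `T` and `K`
      have h3 : (v * u)⁻¹ * (u * v) ∈ T := by
        have e : (v * u)⁻¹ * (u * v) = (u⁻¹ * v⁻¹ * u⁻¹⁻¹) * v := by group
        rw [e]
        exact T.mul_mem (hTn.conj_mem _ (T.inv_mem hb) u⁻¹) hb
      have h4 := hTK _ h3 h1
      have h5 : (((v * u)⁻¹ * (u * v) : U) : G) = ((v : G) * u)⁻¹ * (u * v) := by simp
      rw [h5, QuotientGroup.mk_mul, QuotientGroup.mk_inv, QuotientGroup.mk_mul,
        QuotientGroup.mk_mul, inv_mul_eq_one] at h4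
      exact h4.symm
    have hsol := hSch U hU0 K hKn hK0 S hSn hSs hSnc hSc
    let ψ : U →* (U ⧸ K) ⧸ S := (QuotientGroup.mk' S).comp (QuotientGroup.mk' K)
    have hψs : Function.Surjective ψ :=
      (QuotientGroup.mk'_surjective S).comp (QuotientGroup.mk'_surjective K)
    have hψsol : Group.IsSolvable (U ⧸ ψ.ker) :=
      Group.isSolvable_of_isSolvable_injective (f := QuotientGroup.kerLift ψ)
        (QuotientGroup.kerLift_injective ψ)
    have hfinK : Finite (U ⧸ K) := Nat.finite_of_card_ne_zero hK0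
    have hψ0 : ψ.ker.index ≠ 0 := by
      rw [Subgroup.index_ker]
      exact Nat.card_pos.ne'
    have hRψ := hR ψ.ker inferInstance hψ0 hψsol
    rintro _ ⟨u, hu, rfl⟩
    have h1 : QuotientGroup.mk' K u ∈ S := by
      have := hRψ hu
      rw [MonoidHom.mem_ker] at this
      exact (QuotientGroup.eq_one_iff _).1 this
    obtain ⟨t, ht, htu⟩ := Subgroup.mem_map.1 h1
    rw [hmk] at htu
    refine ⟨((t : G) : G ⧸ N), ht, fun x hx => ?_⟩
    rw [hK] at htu
    have h2 := htu x hx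
    have h5 : ((t⁻¹ * u : U) : G) = (t : G)⁻¹ * (u : G) := by simp
    rw [h5, QuotientGroup.mk_mul, QuotientGroup.mk_inv] at h2
    change ((u : G) : G ⧸ N) * x * ((u : G) : G ⧸ N)⁻¹ = _
    calc ((u : G) : G ⧸ N) * x * ((u : G) : G ⧸ N)⁻¹
        = ((t : G) : G ⧸ N) * ((((t : G) : G ⧸ N)⁻¹ * ((u : G) : G ⧸ N)) * x) *
            ((u : G) : G ⧸ N)⁻¹ := by group
      _ = ((t : G) : G ⧸ N) * x * ((t : G) : G ⧸ N)⁻¹ := by rw [h2]; group

end Central

/-- A fixed normal subgroup of finite index centralizes all nonabelian chief factors. -/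
theorem exists_centralizing {r : ℕ} {a : Fin r → G}
    (hcov : ∀ g : G, ∃ i, ∃ k : ℤ, IsConj g (a i ^ k))
    (hS : ∀ H : Subgroup G, H.index ≠ 0 → BddSolv H) (hSch : AlmostSimpleSolvable G) :
    ∃ F : Subgroup G, F.Normal ∧ F.index ≠ 0 ∧ ∀ (N : Subgroup G) (_ : N.Normal), N.index ≠ 0 →
      ∀ A : Subgroup (G ⧸ N), A.Normal →
        (∀ W : Subgroup (G ⧸ N), W.Normal → W ≤ A → W = ⊥ ∨ W = A) →
        (∃ x ∈ A, ∃ y ∈ A, x * y ≠ y * x) →
        ∀ f ∈ F, ∀ x ∈ A, (f : G ⧸ N) * x = x * (f : G ⧸ N) := by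
  classical
  set U : Subgroup G := T1.coreBdd G r.factorial with hUdef
  have hUn : U.Normal := T1.coreBdd_normal _
  have hU0 : U.index ≠ 0 := T1.coreBdd_index_ne_zero hcov _
  obtain ⟨R, hRn, hR0, hR⟩ := (hS U hU0).exists_residual
  set W : Subgroup G := (R.map U.subtype).normalCore with hWdef
  have hWn : W.Normal := Subgroup.normalCore_normal _
  have hRU0 := index_map_subtype_ne_zero hU0 hR0
  have hW0 : W.index ≠ 0 := (index_normalCore_le hRU0).1
  have hWR : W ≤ R.map U.subtype := Subgroup.normalCore_le _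
  -- the nonabelian simple quotients of `W`
  have hWfi : W.FiniteIndex := ⟨hW0⟩
  obtain ⟨r', a', hcov'⟩ := cov_of_fcc ((T1.fcc_of_cov hcov).subgroup W)
  have hJfin : {J : Subgroup W | SimpleQuot J}.Finite := by
    by_contra hinf
    obtain ⟨s, hs1, hs2⟩ := (Set.not_finite.1 hinf : Set.Infinite _).exists_subset_card_eq r'
    have := simpleQuot_card_lt hcov' s fun J hJ => hs1 hJ
    omega
  set F₀ : Subgroup W := hJfin.toFinset.inf id with hF₀
  have hF₀0 : F₀.index ≠ 0 := by
    have key : ∀ s : Finset (Subgroup W), (∀ J ∈ s, SimpleQuot J) → (s.inf id).index ≠ 0 := by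
      intro s
      induction s using Finset.induction_on with
      | empty => intro _; simp
      | insert J s _ ih =>
        intro hs
        rw [Finset.inf_insert]
        exact Subgroup.index_inf_ne_zero (hs J (Finset.mem_insert_self _ _)).idx
          (ih fun K hK => hs K (Finset.mem_insert_of_mem hK))
    exact key _ fun J hJ => by simpa using hJ
  set F : Subgroup G := (F₀.map W.subtype).normalCore with hFdef
  have hFn : F.Normal := Subgroup.normalCore_normal _
  have hFW0 := index_map_subtype_ne_zero hW0 hF₀0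
  have hF0 : F.index ≠ 0 := (index_normalCore_le hFW0).1
  have hFF₀ : F ≤ F₀.map W.subtype := Subgroup.normalCore_le _
  refine ⟨F, hFn, hF0, fun N hN hN0 A hA hmin hnc => ?_⟩
  have hfin : Finite (G ⧸ N) := Nat.finite_of_card_ne_zero hN0
  have hcovQ : ∀ x : G ⧸ N, ∃ i, ∃ k : ℤ, IsConj x ((QuotientGroup.mk' N) (a i) ^ k) := by
    intro x
    obtain ⟨x, rfl⟩ := QuotientGroup.mk'_surjective N x
    obtain ⟨i, k, h⟩ := hcov x
    refine ⟨i, k, ?_⟩
    rw [← map_zpow]
    exact (QuotientGroup.mk' N).map_isConj h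
  obtain ⟨B, hB⟩ := exists_isComp hA hmin hnc
  have hidx := hB.index_le hcovQ
  -- `U` normalizes `B`
  have hUle : U ≤ (normalizer (B : Set (G ⧸ N))).comap (QuotientGroup.mk' N) := by
    have h1 : ((normalizer (B : Set (G ⧸ N))).comap (QuotientGroup.mk' N)).index ≤ r := by
      rwa [Subgroup.index_comap_of_surjective _ (QuotientGroup.mk'_surjective N)]
    have h1' : ((normalizer (B : Set (G ⧸ N))).comap (QuotientGroup.mk' N)).index ≠ 0 := by
      rw [Subgroup.index_comap_of_surjective _ (QuotientGroup.mk'_surjective N)]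
      exact Subgroup.index_ne_zero_of_finite
    have h2 := index_normalCore_le h1'
    refine (T1.coreBdd_le (Subgroup.normalCore_normal _) h2.1 ?_).trans (Subgroup.normalCore_le _)
    exact h2.2.trans (Nat.factorial_le h1)
  have hUB : ∀ u ∈ U, ∀ b ∈ B, (u : G ⧸ N) * b * (u : G ⧸ N)⁻¹ ∈ B := by
    intro u hu b hb
    have := hUle hu
    rw [Subgroup.mem_comap, Subgroup.mem_normalizer_iff] at this
    exact (this b).1 hb
  have hinn : ∀ w ∈ W, ∃ b ∈ B, Acts B w b := fun w hw =>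
    inner_of_solvable hA hmin hB hSch hUn hU0 hUB hR w (hWR hw)
  let C : Subgroup W :=
    (centralizer (B : Set (G ⧸ N))).comap ((QuotientGroup.mk' N).comp W.subtype)
  have hC : ∀ w : W, w ∈ C ↔ Acts B (w : G) 1 := by
    intro w
    rw [acts_one_iff, Subgroup.mem_comap, Subgroup.mem_centralizer_iff]
    exact ⟨fun h x hx => (h x hx).symm, fun h x hx => (h x hx).symm⟩
  -- `F` centralizes `B`
  have hFB : ∀ f ∈ F, ∀ x ∈ B, (f : G ⧸ N) * x = x * (f : G ⧸ N) := by
    intro f hf
    obtain ⟨w, hw, rfl⟩ := Subgroup.mem_map.1 (hFF₀ hf)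
    rw [← acts_one_iff]
    change Acts B (w : G) 1
    rw [← hC]
    rcases simpleQuot_of_inner hB hWn hinn C hC with h | h
    · rw [h]; trivial
    · have h1 : C ∈ hJfin.toFinset := hJfin.mem_toFinset.2 h
      have : F₀ ≤ C := Finset.inf_le (f := id) h1
      exact this hw
  -- and its conjugates
  intro f hf
  have hle : A ≤ centralizer ({(f : G ⧸ N)} : Set (G ⧸ N)) := by
    rw [← hB.sup]
    refine iSup_le fun g x hx => ?_
    rw [Subgroup.mem_centralizer_iff]
    rintro _ rfl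
    obtain ⟨g, rfl⟩ := QuotientGroup.mk_surjective g
    rw [mem_cj] at hx
    have h1 := hFB (g⁻¹ * f * g⁻¹⁻¹) (hFn.conj_mem f hf g⁻¹) _ hx
    rw [inv_inv, QuotientGroup.mk_mul, QuotientGroup.mk_mul, QuotientGroup.mk_inv] at h1
    calc (f : G ⧸ N) * x = (g : G ⧸ N) * (((g : G ⧸ N)⁻¹ * f * g) *
          ((g : G ⧸ N)⁻¹ * x * g)) * (g : G ⧸ N)⁻¹ := by group
      _ = x * (f : G ⧸ N) := by rw [h1]; group
  intro x hx
  have := hle hx
  rw [Subgroup.mem_centralizer_iff] at this
  exact this _ rfl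

/-- A subgroup centralizing all nonabelian chief factors has solvable images. -/
theorem solvable_of_centralizes {F : Subgroup G} (hF : F.Normal)
    (hcen : ∀ (N : Subgroup G) (_ : N.Normal), N.index ≠ 0 →
      ∀ A : Subgroup (G ⧸ N), A.Normal →
        (∀ W : Subgroup (G ⧸ N), W.Normal → W ≤ A → W = ⊥ ∨ W = A) →
        (∃ x ∈ A, ∃ y ∈ A, x * y ≠ y * x) →
        ∀ f ∈ F, ∀ x ∈ A, (f : G ⧸ N) * x = x * (f : G ⧸ N)) :
    ∀ (n : ℕ) (N : Subgroup G) (hN : N.Normal), N.index ≤ n → N.index ≠ 0 →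
      Group.IsSolvable (F ⧸ N.subgroupOf F) := by
  classical
  intro n
  induction n with
  | zero =>
    intro N hN h1 h2
    exact absurd (Nat.le_zero.1 h1) h2
  | succ n ih =>
    intro N hN hNn hN0
    have hfin : Finite (G ⧸ N) := Nat.finite_of_card_ne_zero hN0
    set Fb : Subgroup (G ⧸ N) := F.map (QuotientGroup.mk' N) with hFb
    have hFbn : Fb.Normal := hF.map _ (QuotientGroup.mk'_surjective N)
    by_cases hbot : Fb = ⊥
    · -- `F ≤ N`
      refine Group.isSolvable_of_comm fun x y => ?_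
      obtain ⟨x, rfl⟩ := QuotientGroup.mk_surjective x
      obtain ⟨y, rfl⟩ := QuotientGroup.mk_surjective y
      have key : ∀ z : F, ((z : F) : F ⧸ N.subgroupOf F) = 1 := by
        intro z
        rw [QuotientGroup.eq_one_iff, Subgroup.mem_subgroupOf]
        have : (QuotientGroup.mk' N) (z : G) ∈ Fb := Subgroup.mem_map_of_mem _ z.2
        rw [hbot, Subgroup.mem_bot] at this
        exact (QuotientGroup.eq_one_iff _).1 this
      rw [key x, key y]
    -- a minimal normal subgroup contained in the image of `F`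
    obtain ⟨A, ⟨hAn, hA0, hAF⟩, hAmin⟩ : ∃ A : Subgroup (G ⧸ N), (A.Normal ∧ A ≠ ⊥ ∧ A ≤ Fb) ∧
        ∀ W : Subgroup (G ⧸ N), (W.Normal ∧ W ≠ ⊥ ∧ W ≤ Fb) → W ≤ A → W = A := by
      obtain ⟨A, hA⟩ := Set.Finite.exists_minimal
        (s := {W : Subgroup (G ⧸ N) | W.Normal ∧ W ≠ ⊥ ∧ W ≤ Fb}) (Set.toFinite _)
        ⟨Fb, hFbn, hbot, le_rfl⟩
      exact ⟨A, hA.prop, fun W hW hWA => le_antisymm hWA (hA.le_of_le hW hWA)⟩
    have hmin : ∀ W : Subgroup (G ⧸ N), W.Normal → W ≤ A → W = ⊥ ∨ W = A := by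
      intro W hW hWA
      by_cases hW0 : W = ⊥
      · exact Or.inl hW0
      · exact Or.inr (hAmin W ⟨hW, hW0, hWA.trans hAF⟩ hWA)
    -- `A` is abelian
    have hAab : ∀ x ∈ A, ∀ y ∈ A, x * y = y * x := by
      by_contra hcon
      push Not at hcon
      obtain ⟨x, hx, y, hy, hxy⟩ := hcon
      obtain ⟨f, hf, rfl⟩ := Subgroup.mem_map.1 (hAF hx)
      exact hxy (hcen N hN hN0 A hAn hmin ⟨_, hx, y, hy, hxy⟩ f hf y hy)
    set M : Subgroup G := A.comap (QuotientGroup.mk' N) with hM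
    have hMn : M.Normal := hAn.comap _
    have hNM : N ≤ M := by
      intro x hx
      rw [hM, Subgroup.mem_comap]
      have : (QuotientGroup.mk' N) x = 1 := (QuotientGroup.eq_one_iff x).2 hx
      rw [this]
      exact A.one_mem
    have hMidx : M.index = A.index :=
      Subgroup.index_comap_of_surjective _ (QuotientGroup.mk'_surjective N)
    have hM0 : M.index ≠ 0 := by rw [hMidx]; exact Subgroup.index_ne_zero_of_finite
    have hMlt : M.index ≤ n := by
      have h1 := Subgroup.card_mul_index A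
      have h2 : 1 < Nat.card A := by
        rw [Subgroup.one_lt_card_iff_ne_bot]; exact hA0
      have h3 : Nat.card (G ⧸ N) = N.index := rfl
      rw [h3] at h1
      rw [hMidx]
      have h4 : 0 < A.index := Nat.pos_of_ne_zero Subgroup.index_ne_zero_of_finite
      nlinarith
    have hIH := ih M hMn hMlt hM0
    have hle : N.subgroupOf F ≤ (M.subgroupOf F).comap (MonoidHom.id F) := fun x hx => hNM hx
    let q : (F ⧸ N.subgroupOf F) →* (F ⧸ M.subgroupOf F) :=
      QuotientGroup.map (N.subgroupOf F) (M.subgroupOf F) (MonoidHom.id F) hle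
    have hker : Group.IsSolvable q.ker := by
      refine Group.isSolvable_of_comm fun x y => ?_
      obtain ⟨x, hx⟩ := x
      obtain ⟨y, hy⟩ := y
      obtain ⟨x, rfl⟩ := QuotientGroup.mk_surjective x
      obtain ⟨y, rfl⟩ := QuotientGroup.mk_surjective y
      have key : ∀ z : F, ((z : F) : F ⧸ N.subgroupOf F) ∈ q.ker →
          ((z : G) : G ⧸ N) ∈ A := by
        intro z hz
        rw [MonoidHom.mem_ker] at hz
        have h1 : ((z : F) : F ⧸ M.subgroupOf F) = 1 := hz
        rw [QuotientGroup.eq_one_iff, Subgroup.mem_subgroupOf] at h1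
        exact h1
      apply Subtype.ext
      change ((x : F) : F ⧸ N.subgroupOf F) * (y : F ⧸ N.subgroupOf F) =
        (y : F ⧸ N.subgroupOf F) * (x : F ⧸ N.subgroupOf F)
      rw [← QuotientGroup.mk_mul, ← QuotientGroup.mk_mul, QuotientGroup.eq,
        Subgroup.mem_subgroupOf]
      have h1 := hAab _ (key x hx) _ (key y hy)
      rw [← QuotientGroup.mk_mul, ← QuotientGroup.mk_mul, QuotientGroup.eq] at h1
      simpa using h1
    exact Group.isSolvable_of_ker_le_range q.ker.subtype q (by simp)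

/-- **Main theorem of this file.** -/
theorem bounded_of_solvable {r : ℕ} {a : Fin r → G}
    (hcov : ∀ g : G, ∃ i, ∃ k : ℤ, IsConj g (a i ^ k))
    (hS : ∀ H : Subgroup G, H.index ≠ 0 → BddSolv H) (hSch : AlmostSimpleSolvable G) :
    ∃ B : ℕ, ∀ N : Subgroup G, N.Normal → N.index ≠ 0 → N.index ≤ B := by
  obtain ⟨F, hFn, hF0, hF⟩ := exists_centralizing hcov hS hSch
  obtain ⟨B, hB⟩ := hS F hF0
  refine ⟨B * F.index, fun N hN hN0 => ?_⟩
  have hsol := solvable_of_centralizes hFn hF N.index N hN le_rfl hN0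
  have hNF0 : (N.subgroupOf F).index ≠ 0 := by
    have h1 : N.relIndex F ≠ 0 := by
      intro h0
      have h2 := Subgroup.relIndex_dvd_index_of_normal N F
      rw [h0] at h2
      exact hN0 (Nat.eq_zero_of_zero_dvd h2)
    exact h1
  have h1 := hB _ inferInstance hNF0 hsol
  have h2 : (N ⊓ F).index = N.relIndex F * F.index := by
    rw [← Subgroup.relIndex_mul_index (inf_le_right : N ⊓ F ≤ F), Subgroup.inf_relIndex_right]
  have h3 : N.index ≤ (N ⊓ F).index := by
    refine Nat.le_of_dvd (Nat.pos_of_ne_zero ?_) (Subgroup.index_dvd_of_le inf_le_left)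
    rw [h2]
    exact mul_ne_zero hNF0 hF0
  calc N.index ≤ N.relIndex F * F.index := h2 ▸ h3
    _ ≤ B * F.index := Nat.mul_le_mul_right _ h1

end Vale.Agent.P216.RFS
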