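import Vale.Agent.P216.H215.RFS
import Vale.Agent.P216.T1.Solv
import Mathlib.GroupTheory.CosetCover

/-!
Residually finite strongly finitely cyclically covered groups.
-/

set_option linter.all false

namespace Vale.Agent.P216.RFS

open Subgroup
open scoped Pointwise

/-- A commutative finitely cyclically covered group has a cyclic subgroup of finite index. -/
theorem exists_cyclic_of_comm {H : Type*} [Group H] (hc : ∀ x y : H, x * y = y * x)
    (hcov : FinitelyCyclicallyCovered H) : ∃ K : Subgroup H, K.FiniteIndex ∧ IsCyclic K := by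
  classical
  obtain ⟨F, hF, h⟩ := hcov
  have hcov : ⋃ a ∈ hF.toFinset, (1 : H) • ((Subgroup.zpowers a : Subgroup H) : Set H) =
      Set.univ := by
    rw [Set.eq_univ_iff_forall]
    intro g
    obtain ⟨a, ha, k, hk⟩ := h g
    simp only [Set.mem_iUnion]
    refine ⟨a, by simpa using ha, ?_⟩
    rw [one_smul]
    obtain ⟨c, hc'⟩ := isConj_iff.1 hk
    have : g = a ^ k := by
      rw [← hc', hc c g]; group
    exact ⟨k, this.symm⟩
  obtain ⟨a, _, hfin⟩ := Subgroup.exists_finiteIndex_of_leftCoset_cover hcov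
  exact ⟨Subgroup.zpowers a, hfin, inferInstance⟩

/-- Groups covered as above: either virtually all finite quotients are cyclic, or the finite
quotients are bounded. -/
theorem vcyc_or_bounded {G : Type*} [Group G] (hG : T1.SFCC G)
    (hQ : AlmostSimpleSolvable G ∨ ∃ H : Subgroup G, H.FiniteIndex ∧
      ∀ n : ℕ, ∃ (N : Subgroup H) (_ : N.Normal),
          N.FiniteIndex ∧ n ≤ N.index ∧ Group.IsSolvable (H ⧸ N)) :
    T1.VCyc G ∨ ∃ B : ℕ, ∀ N : Subgroup G, N.Normal → N.index ≠ 0 → N.index ≤ B := by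
  have key : ∀ H : Subgroup G, H.FiniteIndex → (∀ n : ℕ, ∃ (N : Subgroup H) (_ : N.Normal),
      N.FiniteIndex ∧ n ≤ N.index ∧ Group.IsSolvable (H ⧸ N)) → T1.VCyc G := by
    intro H hH hn
    refine T1.VCyc.of_subgroup (H := H) ?_
    refine (hG.subgroup H).exists_cyclic_quotients_of_solvable fun n => ?_
    obtain ⟨N, hN, hNf, hNn, hNs⟩ := hn n
    exact ⟨N, hN, hNf.index_ne_zero, hNn, hNs⟩
  rcases hQ with hSch | ⟨H, hH, hn⟩
  · by_cases hall : ∀ H : Subgroup G, H.index ≠ 0 → BddSolv H
    · right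
      obtain ⟨r, a, hcov⟩ := cov_of_fcc hG.fcc
      exact bounded_of_solvable hcov hall hSch
    · left
      push Not at hall
      obtain ⟨H, hH0, hH⟩ := hall
      refine key H ⟨hH0⟩ fun n => ?_
      unfold BddSolv at hH
      push Not at hH
      obtain ⟨N, hN, hN0, hNs, hlt⟩ := hH n
      exact ⟨N, hN, ⟨hN0⟩, hlt.le, hNs⟩
  · exact Or.inl (key H hH hn)

/-- Residually finite case. -/
theorem exists_cyclic_of_rf {G : Type*} [Group G] (hG : T1.SFCC G)
    (hRF : ∀ g : G, g ≠ 1 → ∃ N : Subgroup G, N.FiniteIndex ∧ g ∉ N)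
    (hQ : AlmostSimpleSolvable G ∨ ∃ H : Subgroup G, H.FiniteIndex ∧
      ∀ n : ℕ, ∃ (N : Subgroup H) (_ : N.Normal),
          N.FiniteIndex ∧ n ≤ N.index ∧ Group.IsSolvable (H ⧸ N)) :
    ∃ K : Subgroup G, K.FiniteIndex ∧ IsCyclic K := by
  rcases vcyc_or_bounded hG hQ with ⟨H, hH, hcyc⟩ | ⟨B, hB⟩
  · have hc : ∀ x y : H, x * y = y * x := by
      intro x y
      by_contra hne
      have h1 : (x * y * x⁻¹ * y⁻¹ : H) ≠ 1 := by
        intro h
        apply hne
        rw [mul_inv_eq_one, mul_inv_eq_iff_eq_mul] at h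
        exact h
      have h2 : ((x * y * x⁻¹ * y⁻¹ : H) : G) ≠ 1 := by
        intro h; exact h1 (Subtype.ext h)
      obtain ⟨N, hN, hgN⟩ := hRF _ h2
      have hN' : (N.subgroupOf H).normalCore.FiniteIndex := inferInstance
      have h3 := hcyc (N.subgroupOf H).normalCore hN'
      have h4 : (x : H ⧸ (N.subgroupOf H).normalCore) * y = y * x := by
        obtain ⟨g, hg⟩ := h3.exists_generator
        obtain ⟨i, hi⟩ := hg (x : H ⧸ (N.subgroupOf H).normalCore)
        obtain ⟨j, hj⟩ := hg (y : H ⧸ (N.subgroupOf H).normalCore)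
        simp only at hi hj
        rw [← hi, ← hj, ← zpow_add, ← zpow_add, add_comm]
      have h5 : (x * y * x⁻¹ * y⁻¹ : H) ∈ (N.subgroupOf H).normalCore := by
        rw [← QuotientGroup.eq_one_iff, QuotientGroup.mk_mul, QuotientGroup.mk_mul,
          QuotientGroup.mk_mul, QuotientGroup.mk_inv, QuotientGroup.mk_inv, h4]
        group
      exact hgN (Subgroup.mem_subgroupOf.1 (Subgroup.normalCore_le _ h5))
    obtain ⟨K, hK, hKc⟩ := exists_cyclic_of_comm hc (hG.subgroup H).fcc
    refine ⟨K.map H.subtype, ⟨index_map_subtype_ne_zero hH.index_ne_zero hK.index_ne_zero⟩, ?_⟩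
    exact isCyclic_of_surjective (K.equivMapOfInjective H.subtype H.subtype_injective)
      (K.equivMapOfInjective H.subtype H.subtype_injective).surjective
  · obtain ⟨r, a, hcov⟩ := cov_of_fcc hG.fcc
    have hK0 := T1.coreBdd_index_ne_zero (a := a) hcov B
    have hbot : T1.coreBdd G B = ⊥ := by
      rw [eq_bot_iff]
      intro g hg
      by_contra hne
      obtain ⟨N, hN, hgN⟩ := hRF g (by simpa using hne)
      have h1 : N.normalCore.index ≠ 0 := (index_normalCore_le hN.index_ne_zero).1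
      have h2 := T1.coreBdd_le (D := B) N.normalCore_normal h1 (hB _ N.normalCore_normal h1)
      exact hgN (Subgroup.normalCore_le _ (h2 hg))
    refine ⟨⊥, ⟨by rw [← hbot]; exact hK0⟩, inferInstance⟩

end Vale.Agent.P216.RFS
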