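import Vale.Agent.P216.Bdl.B1

/-!
Finitely many closed geodesics: the fundamental group is a finite union of conjugates of cyclic
subgroups, with control of the exponents by a subadditive length.
-/

open Set Filter Topology Bundle Manifold
open scoped ContDiff

namespace Vale.Agent.P216

section Discrete

variable {M Γ : Type*} [MetricSpace M] [Group Γ] (S : LocalCocycle M Γ)

lemma LocalCocycle.HasChain.exists_small' (hM : HasSegments M) {g : Γ} {n : ℕ} {E : ℝ} (hn : 0 < n)
    (h : S.HasChain g n E) {ε : ℝ} (hε : 0 < ε) :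
    ∃ (N : ℕ) (E' : ℝ), 2 ≤ N ∧ E' ≤ ε ∧ (N : ℝ) * E' = n * E ∧ S.HasChain g N E' := by
  have key : ∀ k : ℕ, S.HasChain g (2 ^ k * n) (E / 2 ^ k) := by
    intro k
    induction k with
    | zero => simpa using h
    | succ k ih =>
      have := ih.double S hM
      rw [← mul_assoc, ← pow_succ', div_div, ← pow_succ] at this
      exact this
  obtain ⟨k, hk⟩ := exists_nat_gt (max E 0 / ε)
  refine ⟨2 ^ (k + 1) * n, E / 2 ^ (k + 1), ?_, ?_, ?_, key (k + 1)⟩
  · have : 1 ≤ 2 ^ k := Nat.one_le_two_pow
    rw [pow_succ]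
    nlinarith only [hn, this]
  · have h2 : (k : ℝ) < 2 ^ (k + 1) := by
      have : k < 2 ^ (k + 1) := (Nat.lt_two_pow_self).trans (Nat.pow_lt_pow_right (by norm_num) (by omega))
      exact_mod_cast this
    rw [div_lt_iff₀ hε] at hk
    rw [div_le_iff₀ (by positivity)]
    have : E ≤ max E 0 := le_max_left _ _
    nlinarith only [hk, this, hε, h2]
  · push_cast
    field_simp

/-- In a compact geodesic space, a nontrivial class contains a cyclic chain all of whose steps have
the same length `a > 0`, all of whose corners are straight, and whose length is controlled. -/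
lemma exists_straight_chain' [CompactSpace M] (hM : HasSegments M) {g : Γ} (hg : g ≠ 1) {n : ℕ}
    {E : ℝ} (hn : 0 < n) (h : S.HasChain g n E) {ρ : ℝ} (hρ : 0 < ρ) (hρr : 16 * ρ ≤ S.r) :
    ∃ (N : ℕ) (_ : NeZero N) (x : ZMod N → M) (a : ℝ), 0 < a ∧ a ≤ ρ ∧
      (∀ i, dist (x i) (x (i + 1)) = a) ∧ (∀ i, dist (x (i - 1)) (x (i + 1)) = 2 * a) ∧
      IsConj g (S.P (fun i : ℕ => x i) N) ∧ (N * a) ^ 2 ≤ n * E := by
  obtain ⟨N, E', hN, hE'ρ, hNE, hch⟩ := h.exists_small' S hM hn (ε := ρ ^ 2) (by positivity)
  have hr := S.r_pos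
  have : NeZero N := ⟨by omega⟩
  let A : Set (ZMod N → M) := {x | energy x ≤ E' ∧ IsConj g (S.P (fun i : ℕ => x i) N)}
  have step : ∀ x : ZMod N → M, energy x ≤ E' → ∀ i, dist (x i) (x (i + 1)) ≤ ρ := by
    intro x hx i
    have := (sq_dist_le_energy x i).trans (hx.trans hE'ρ)
    exact abs_le_of_sq_le_sq' this hρ.le |>.2
  have stepN : ∀ x : ZMod N → M, energy x ≤ E' →
      ∀ i < N, dist (x (i : ℕ)) (x ((i + 1 : ℕ) : ZMod N)) < S.r / 2 := by
    intro x hx i _
    have := step x hx i
    push_cast
    linarith only [hρ, hρr, this]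
  have hconj : ∀ x y : ZMod N → M, energy x ≤ E' → energy y ≤ E' →
      (∀ i, dist (x i) (y i) < S.r / 2) →
      IsConj (S.P (fun i : ℕ => x i) N) (S.P (fun i : ℕ => y i) N) := by
    intro x y hx hy hxy
    apply S.P_isConj (stepN x hx) (stepN y hy) (fun i _ => hxy _) <;> simp
  have Acl : IsClosed A := by
    rw [← closure_subset_iff_isClosed]
    intro x hx
    have h1 : energy x ≤ E' := by
      have : closure A ⊆ {x | energy x ≤ E'} :=
        closure_minimal (fun y hy => hy.1) (isClosed_le continuous_energy continuous_const)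
      exact this hx
    refine ⟨h1, ?_⟩
    obtain ⟨y, hyA, hy⟩ := Metric.mem_closure_iff.1 hx ρ hρ
    refine hyA.2.trans (hconj y x hyA.1 h1 fun i => ?_)
    have := dist_le_pi_dist x y i
    rw [dist_comm]
    linarith only [hρ, hρr, hy, this]
  have Ane : A.Nonempty := by
    obtain ⟨y, hy0, hy1, hy2, hy3⟩ := hch
    let x : ZMod N → M := fun i => y i.val
    have hx : ∀ i : ℕ, i ≤ N → x (i : ZMod N) = y i := by
      intro i hi
      rcases hi.eq_or_lt with rfl | hlt
      · simp [x, hy0]
      · simp only [x, ZMod.val_natCast_of_lt hlt]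
    refine ⟨x, ?_, ?_⟩
    · rw [energy, sum_zmod_eq_sum_range]
      refine le_trans (le_of_eq ?_) hy3
      apply Finset.sum_congr rfl
      intro i hi
      rw [Finset.mem_range] at hi
      have h1 := hx i (by omega)
      have h2 := hx (i + 1) (by omega)
      push_cast at h2
      rw [h1, h2]
    · rwa [S.P_congr (y := y) (fun i hi => hx i hi)]
  obtain ⟨x, hxA, hmin⟩ := Acl.isCompact.exists_isMinOn Ane continuous_energy.continuousOn
  have hst := step x hxA.1
  -- the variation at a corner
  have corner : ∀ j, dist (x (j - 1)) (x j) = dist (x j) (x (j + 1)) ∧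
      dist (x (j - 1)) (x (j + 1)) = dist (x (j - 1)) (x j) + dist (x j) (x (j + 1)) := by
    intro j
    obtain ⟨m, hm1, hm2⟩ := hM.midpoint (x (j - 1)) (x (j + 1))
    set y := Function.update x j m with hy
    have hE := energy_update (by omega) x j m
    rw [hm1, hm2, ← hy] at hE
    set d := dist (x (j - 1)) (x (j + 1)) with hd
    set a := dist (x (j - 1)) (x j) with ha
    set b := dist (x j) (x (j + 1)) with hb
    have htri : d ≤ a + b := dist_triangle _ _ _
    have ha0 : 0 ≤ a := dist_nonneg
    have hb0 : 0 ≤ b := dist_nonneg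
    have hd0 : 0 ≤ d := dist_nonneg
    have hd2 : d ^ 2 ≤ (a + b) ^ 2 := by gcongr
    have hEy : energy y ≤ energy x := by
      rw [hE]; nlinarith only [sq_nonneg (a - b), hd2]
    have haρ : a ≤ ρ := by
      have := hst (j - 1)
      rwa [sub_add_cancel] at this
    have hbρ : b ≤ ρ := hst j
    have hyA : y ∈ A := by
      refine ⟨hEy.trans hxA.1, hxA.2.trans (hconj x y hxA.1 (hEy.trans hxA.1) fun i => ?_)⟩
      by_cases hij : i = j
      · subst hij
        rw [hy, Function.update_self]
        have h1 := dist_triangle (x i) (x (i + 1)) m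
        rw [dist_comm (x (i + 1)) m, hm2] at h1
        rw [← hb] at h1
        linarith only [hρ, hρr, htri, haρ, hbρ, h1]
      · rw [hy, Function.update_of_ne hij, dist_self]; linarith only [hρ, hρr]
    have hle : energy x ≤ energy y := hmin hyA
    rw [hE] at hle
    have h1 : a ^ 2 + b ^ 2 ≤ d ^ 2 / 2 := by nlinarith only [hle]
    have h2 : (a - b) ^ 2 ≤ 0 := by nlinarith only [hd2, hle]
    have h3 : a = b := by
      have : a - b = 0 := by
        apply pow_eq_zero_iff (two_ne_zero) |>.1
        exact le_antisymm h2 (sq_nonneg _)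
      linarith only [this]
    refine ⟨h3, ?_⟩
    apply le_antisymm htri
    apply abs_le_of_sq_le_sq' _ hd0 |>.2
    nlinarith
  have hconst : ∀ k : ℕ, dist (x (k : ZMod N)) (x (k + 1)) = dist (x 0) (x 1) := by
    intro k
    induction k with
    | zero => simp
    | succ k ih =>
      have := (corner (k + 1)).1
      rw [add_sub_cancel_right] at this
      push_cast
      rw [← this, ih]
  have hconst' : ∀ i : ZMod N, dist (x i) (x (i + 1)) = dist (x 0) (x 1) := by
    intro i
    have := hconst i.val
    simpa using this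
  refine ⟨N, inferInstance, x, dist (x 0) (x 1), ?_, ?_, hconst', ?_, hxA.2, ?_⟩
  · rw [dist_pos]
    intro h01
    apply hg
    have hx1 : ∀ i : ZMod N, x (i + 1) = x i := by
      intro i
      have := hconst' i
      rw [h01, dist_self, dist_eq_zero] at this
      exact this.symm
    have hP : ∀ k : ℕ, S.P (fun i : ℕ => x i) k = 1 := by
      intro k
      induction k with
      | zero => rfl
      | succ k ih =>
        rw [S.P_succ, ih]
        push_cast
        rw [hx1, S.self_eq, one_mul]
    have := hxA.2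
    rw [hP N] at this
    exact isConj_one_left.1 this
  · have := hst 0
    simpa using this
  · intro i
    have h1 := corner i
    rw [h1.2, ← h1.1]
    have := hconst' (i - 1)
    rw [sub_add_cancel] at this
    rw [this]; ring
  · have h1 : energy x = N * dist (x 0) (x 1) ^ 2 := by
      rw [energy, Finset.sum_congr rfl (fun i _ => by rw [hconst' i])]
      simp [ZMod.card]
    have h2 := hxA.1
    rw [h1] at h2
    rw [← hNE]
    have h3 : (0 : ℝ) ≤ N := Nat.cast_nonneg N
    calc ((N : ℝ) * dist (x 0) (x 1)) ^ 2 = N * (N * dist (x 0) (x 1) ^ 2) := by ring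
      _ ≤ N * E' := by gcongr

/-- Main existence theorem: a nontrivial class contains a closed unit speed geodesic, of controlled
length. -/
theorem exists_closed_geodesic' [CompactSpace M] (hM : HasSegments M) {g : Γ} (hg : g ≠ 1) {n : ℕ}
    {E : ℝ} (hn : 0 < n) (h : S.HasChain g n E) {δ : ℝ} (hδ : 0 < δ) (hδr : 3 * δ < S.r) :
    ∃ (c : ℝ → M) (τ : ℝ) (f : ℝ → Γ), 0 < τ ∧ Function.Periodic c τ ∧
      IsGeodesicWithSpeed c 1 ∧ f 0 = 1 ∧ S.IsLift c δ f ∧ IsConj g (f τ) ∧ τ ^ 2 ≤ n * E := by
  obtain ⟨N, _, x, a, ha, haρ, hx1, hx2, hx3, hx4⟩ := exists_straight_chain' S hM hg hn h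
    (ρ := δ / 16) (by positivity) (by linarith only [S.r_pos, hδ, hδr])
  have hN : (0 : ℝ) < N := by exact_mod_cast Nat.pos_of_ne_zero (NeZero.ne N)
  choose γ hγ0 hγ1 hγ using fun i : ZMod N => hM (x i) (x (i + 1))
  simp only [hx1] at hγ1 hγ
  let c : ℝ → M := fun t => γ (⌊t / a⌋ : ℤ) (t - ⌊t / a⌋ * a)
  -- on each interval, the curve is given by the segment
  have hc : ∀ (i : ℤ) (t : ℝ), i * a ≤ t → t ≤ (i + 1) * a → c t = γ i (t - i * a) := by
    intro i t h1 h2
    rcases h2.eq_or_lt with h2 | h2
    · have e : t / a = ((i + 1 : ℤ) : ℝ) := by rw [h2]; push_cast; field_simp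
      have e' : ⌊t / a⌋ = i + 1 := by rw [e, Int.floor_intCast]
      simp only [c, e']
      rw [h2]
      have z : (i + 1 : ℝ) * a - ((i + 1 : ℤ) : ℝ) * a = 0 := by push_cast; ring
      have z' : (i + 1 : ℝ) * a - i * a = a := by ring
      rw [z, z', hγ0, hγ1]
      push_cast; rfl
    · have e' : ⌊t / a⌋ = i := by
        rw [Int.floor_eq_iff]
        constructor
        · rwa [le_div_iff₀ ha]
        · rwa [div_lt_iff₀ ha]
      simp only [c, e']
  have hcx : ∀ i : ℤ, c (i * a) = x i := by
    intro i
    rw [hc i _ le_rfl (by nlinarith only [ha]), sub_self, hγ0]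
  -- the curve is minimising on pairs of consecutive intervals
  have single : ∀ (i : ℤ) (s t : ℝ), i * a ≤ s → s ≤ t → t ≤ (i + 1) * a →
      dist (c s) (c t) = t - s := by
    intro i s t h1 h2 h3
    rw [hc i s h1 (by linarith only [h2, h3]), hc i t (by linarith) h3, hγ i _ ⟨by linarith, by nlinarith only [h2, h3]⟩ _
      ⟨by linarith only [h1, h2], by nlinarith only [h3]⟩]
    rw [abs_sub_comm, abs_of_nonneg (by linarith only [h2])]
    ring
  have double : ∀ (i : ℤ) (s t : ℝ), (i - 1) * a ≤ s → s ≤ t → t ≤ (i + 1) * a →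
      dist (c s) (c t) = t - s := by
    intro i s t h1 h2 h3
    rcases le_total t (i * a) with h4 | h4
    · have := single (i - 1) s t (by push_cast; linarith only [h1]) h2 (by push_cast; linarith only [h4])
      exact this
    rcases le_total (i * a) s with h5 | h5
    · exact single i s t h5 h2 h3
    · have e1 := single (i - 1) s (i * a) (by push_cast; linarith only [h1]) h5 (by push_cast; linarith only [])
      have e2 := single i (i * a) t le_rfl h4 h3
      have e3 := single (i - 1) ((i - 1) * a) s (by push_cast; linarith only []) h1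
        (by push_cast; linarith)
      have e4 := single i t ((i + 1) * a) h4 h3 le_rfl
      have e5 : dist (c ((i - 1) * a)) (c ((i + 1) * a)) = 2 * a := by
        have q1 := hcx (i - 1)
        have q2 := hcx (i + 1)
        push_cast at q1 q2
        rw [q1, q2]
        exact hx2 i
      apply le_antisymm
      · linarith only [dist_triangle (c s) (c (i * a)) (c t), e1, e2]
      · have q1 := dist_triangle (c ((i - 1) * a)) (c s) (c ((i + 1) * a))
        have q2 := dist_triangle (c s) (c t) (c ((i + 1) * a))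
        linarith only [e3, e4, e5, q1, q2]
  have hgeo : IsGeodesicWithSpeed c 1 := by
    intro t
    refine ⟨a / 2, by positivity, fun s s' hs hs' => ?_⟩
    set i : ℤ := round (t / a) with hi
    have h1 : |t / a - i| ≤ 1 / 2 := abs_sub_round _
    have h2 : |t - i * a| ≤ a / 2 := by
      have : t - i * a = (t / a - i) * a := by field_simp
      rw [this, abs_mul, abs_of_pos ha]
      nlinarith only [ha, h1]
    rw [abs_le] at h2
    rw [abs_lt] at hs hs'
    rw [one_mul]
    rcases le_total s s' with hss | hss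
    · rw [double i s s' (by linarith only [hs, h2]) hss (by linarith only [hs', h2]), abs_sub_comm, abs_of_nonneg (by linarith only [hss])]
    · rw [dist_comm, double i s' s (by linarith only [hs', h2]) hss (by linarith only [hs, h2]), abs_of_nonneg (by linarith only [hss])]
  have hlip : ∀ s t, dist (c s) (c t) ≤ |s - t| := by
    intro s t; simpa using hgeo.dist_le s t
  obtain ⟨f, hf0, hf⟩ := S.exists_lift hlip hδ hδr
  have hfP : ∀ k : ℕ, f (k * a) = S.P (fun i : ℕ => x i) k := by
    intro k
    induction k with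
    | zero => simpa using hf0
    | succ k ih =>
      have := hf (k * a) (((k + 1 : ℕ) : ℝ) * a) (by
        push_cast
        rw [abs_sub_comm, show ((k : ℝ) + 1) * a - k * a = a by ring, abs_of_pos ha]
        linarith only [ha, haρ])
      rw [S.P_succ, ← ih]
      have q1 := hcx k
      have q2 := hcx (k + 1)
      push_cast at q1 q2 this ⊢
      rw [q1, q2] at this
      rw [← this]; group
  refine ⟨c, N * a, f, by positivity, ?_, hgeo, hf0, hf, ?_, hx4⟩
  · intro t
    have e : (t + N * a) / a = t / a + (N : ℕ) := by field_simp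
    have e' : ⌊(t + N * a) / a⌋ = ⌊t / a⌋ + N := by rw [e, Int.floor_add_natCast]
    simp only [c, e']
    have e1 : (((⌊t / a⌋ + N : ℤ)) : ZMod N) = (⌊t / a⌋ : ZMod N) := by simp
    rw [e1]
    congr 1
    push_cast; ring
  · rw [hfP N]
    exact hx3

end Discrete

section Based

namespace LocalCocycle

variable {M Γ : Type*} [MetricSpace M] [Group Γ] (S : LocalCocycle M Γ)

/-- A chain of `n` short steps from `x₀` to `x₀` with product `z * g * z⁻¹`. -/
def HasBased (x₀ : M) (z g : Γ) (n : ℕ) : Prop :=
  ∃ x : ℕ → M, x 0 = x₀ ∧ x n = x₀ ∧ (∀ i < n, dist (x i) (x (i + 1)) < S.r / 2) ∧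
    S.P x n = z * g * z⁻¹

lemma HasBased.mul {x₀ : M} {z g h : Γ} {m n : ℕ} (hg : S.HasBased x₀ z g m)
    (hh : S.HasBased x₀ z h n) : S.HasBased x₀ z (g * h) (m + n) := by
  obtain ⟨x, hx0, hx1, hx2, hx3⟩ := hg
  obtain ⟨y, hy0, hy1, hy2, hy3⟩ := hh
  let w : ℕ → M := fun i => if i ≤ m then x i else y (i - m)
  have w1 : ∀ i, i ≤ m → w i = x i := fun i hi => by simp [w, hi]
  have w2 : ∀ i, w (m + i) = y i := by
    intro i
    rcases Nat.eq_zero_or_pos i with rfl | hi
    · simp [w, hx1, hy0]
    · have : ¬ (m + i ≤ m) := by omega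
      simp only [w, if_neg this]
      congr 1; omega
  have hP1 : S.P w m = S.P x m := S.P_congr fun i hi => w1 i hi
  have hP2 : ∀ i, S.P w (m + i) = S.P x m * S.P y i := by
    intro i
    induction i with
    | zero => simp [hP1]
    | succ i ih =>
      rw [← Nat.add_assoc, S.P_succ, ih, S.P_succ, w2, Nat.add_assoc, w2, mul_assoc]
  refine ⟨w, by rw [w1 0 (Nat.zero_le _), hx0], by rw [w2, hy1], ?_, ?_⟩
  · intro i hi
    rcases lt_or_ge i m with him | him
    · rw [w1 i him.le, w1 (i + 1) him]
      exact hx2 i him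
    · obtain ⟨j, rfl⟩ := Nat.exists_eq_add_of_le him
      rw [Nat.add_assoc, w2, w2]
      exact hy2 j (by omega)
  · rw [hP2, hx3, hy3]; group

lemma HasBased.hasChain {x₀ : M} {z g : Γ} {n : ℕ} (h : S.HasBased x₀ z g n) :
    S.HasChain g n (n * (S.r / 2) ^ 2) := by
  obtain ⟨x, hx0, hx1, hx2, hx3⟩ := h
  refine ⟨x, by rw [hx0, hx1], hx2, ?_, ?_⟩
  · rw [hx3, isConj_iff]; exact ⟨z, rfl⟩
  · have : ∑ i ∈ Finset.range n, dist (x i) (x (i + 1)) ^ 2 ≤
        ∑ _i ∈ Finset.range n, (S.r / 2) ^ 2 := by
      apply Finset.sum_le_sum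
      intro i hi
      rw [Finset.mem_range] at hi
      have h1 := hx2 i hi
      have h2 : 0 ≤ dist (x i) (x (i + 1)) := dist_nonneg
      gcongr
    refine this.trans ?_
    simp

end LocalCocycle

end Based

/-- A group which is a finite union of conjugates of cyclic subgroups, the exponents being
controlled by a subadditive length function. -/
def StronglyFinitelyCyclicallyCovered (Γ : Type*) [Group Γ] : Prop :=
  ∃ (F : Set Γ) (lam : Γ → ℝ), F.Finite ∧ (∀ g h, lam (g * h) ≤ lam g + lam h) ∧
    ∀ g : Γ, ∃ a ∈ F, ∃ k : ℤ, (|k| : ℝ) ≤ lam g ∧ IsConj g (a ^ k)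

variable {M : Type*} [MetricSpace M]

/-- Finitely many images of closed geodesics: the group is a finite union of conjugates of
cyclic subgroups, with length control. -/
theorem stronglyFinitelyCyclicallyCovered_of_finite [CompactSpace M] {Γ : Type*} [Group Γ]
    (hM : HasSegments M) (hNB : NonBranching M) (S : LocalCocycle M Γ) (x₀ : M) (z : Γ)
    (hgen : ∀ g : Γ, ∃ n : ℕ, 0 < n ∧ S.HasBased x₀ z g n)
    (hfin : (primeClosedGeodesicImages M).Finite) : StronglyFinitelyCyclicallyCovered Γ := by
  classical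
  set δ := S.r / 4 with hδ
  have hr := S.r_pos
  have hδ0 : 0 < δ := by positivity
  -- a representative for every image
  have hrep : ∀ A : primeClosedGeodesicImages M, ∃ (c : ℝ → M) (τ₀ : ℝ) (f : ℝ → Γ),
      IsGeodesicWithSpeed c 1 ∧ Function.Periodic c τ₀ ∧ (A : Set M) = range c ∧
      (∀ p, Function.Periodic c p → ∃ k : ℤ, p = k * τ₀) ∧ f 0 = 1 ∧ S.IsLift c δ f ∧ 0 < τ₀ := by
    rintro ⟨A, c, τ, ⟨⟨v, hv, hc⟩, hτ, hper, -⟩, rfl⟩
    have h1 := hc.normalize hv
    have hper' : Function.Periodic (fun t => c (t / v)) (τ * v) := by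
      intro t
      have : (t + τ * v) / v = t / v + τ := by field_simp
      simp only [this]
      exact hper _
    obtain ⟨τ₀, h2, h3, h4⟩ := exists_generator_periods one_pos h1
      (by positivity : 0 < τ * v) hper'
    obtain ⟨f, hf0, hf⟩ := S.exists_lift (c := fun t => c (t / v))
      (fun s t => by simpa using h1.dist_le s t) hδ0 (by linarith only [hδ, hδ0])
    refine ⟨fun t => c (t / v), τ₀, f, h1, h3, ?_, h4, hf0, hf, h2⟩
    ext x
    constructor
    · rintro ⟨t, rfl⟩
      exact ⟨t * v, by simp only; congr 1; field_simp⟩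
    · rintro ⟨t, rfl⟩
      exact ⟨t / v, rfl⟩
  choose C T F hC hT hA hP hF0 hF hTpos using hrep
  have hfin' : Finite (primeClosedGeodesicImages M) := hfin.to_subtype
  have hfint : Fintype (primeClosedGeodesicImages M) := Fintype.ofFinite _
  -- the constant
  set K : ℝ := ∑ A, (S.r / 2) / T A with hK
  have hKA : ∀ A, (S.r / 2) / T A ≤ K := fun A =>
    Finset.single_le_sum (f := fun A => (S.r / 2) / T A)
      (fun B _ => div_nonneg (by positivity) (hTpos B).le) (Finset.mem_univ A)
  have hK0 : 0 ≤ K := Finset.sum_nonneg fun B _ => div_nonneg (by positivity) (hTpos B).le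
  -- the length
  let ℓ : Γ → ℕ := fun g => Nat.find (hgen g)
  have hℓ : ∀ g, 0 < ℓ g ∧ S.HasBased x₀ z g (ℓ g) := fun g => Nat.find_spec (hgen g)
  refine ⟨insert 1 (range fun A => F A (T A)), fun g => K * ℓ g, (finite_range _).insert 1, ?_,
    fun g => ?_⟩
  · intro g h
    have h1 : ℓ (g * h) ≤ ℓ g + ℓ h :=
      Nat.find_min' (hgen (g * h)) ⟨by have := (hℓ g).1; omega, (hℓ g).2.mul S (hℓ h).2⟩
    have h2 : (ℓ (g * h) : ℝ) ≤ ℓ g + ℓ h := by exact_mod_cast h1
    calc K * (ℓ (g * h) : ℝ) ≤ K * (ℓ g + ℓ h) := by gcongr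
      _ = K * ℓ g + K * ℓ h := by ring
  by_cases hg : g = 1
  · exact ⟨1, mem_insert _ _, 0, by simpa using by positivity, by rw [hg]; simp⟩
  obtain ⟨c, τ, f, hτ, hper, hc, hf0, hf, hconj, hτn⟩ := exists_closed_geodesic' S hM hg (hℓ g).1
    ((hℓ g).2.hasChain S) hδ0 (by linarith only [hδ, hδ0])
  have hτle : τ ≤ ℓ g * (S.r / 2) := by
    have h1 : τ ^ 2 ≤ (ℓ g * (S.r / 2)) ^ 2 := by
      refine hτn.trans (le_of_eq ?_); ring
    exact abs_le_of_sq_le_sq' h1 (by positivity) |>.2
  have hmem := range_mem_images hc hτ hper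
  set A : primeClosedGeodesicImages M := ⟨range c, hmem⟩ with hAdef
  refine ⟨F A (T A), mem_insert_of_mem _ (mem_range_self A), ?_⟩
  obtain ⟨e, he, β, hβ⟩ := eq_comp_of_range_subset hNB hc (hC A) (hA A).subset
  have he2 : e * e = 1 := by rcases he with rfl | rfl <;> norm_num
  have heabs : |e| = 1 := by rcases he with rfl | rfl <;> simp
  -- the lift of `c` in terms of the lift of the representative
  have hl : S.IsLift c δ (fun t => F A (e * t + β)) := by
    intro s t hst
    rw [hβ s, hβ t]
    apply hF A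
    rwa [show e * s + β - (e * t + β) = e * (s - t) by ring, abs_mul, heabs, one_mul]
  have hfl := hl.unique S hδ0 hf τ
  rw [hf0, mul_zero, zero_add] at hfl
  have hpe : Function.Periodic (C A) (e * τ) := by
    intro s
    have h1 := hper (e * (s - β))
    rw [hβ, hβ] at h1
    have e1 : e * (e * (s - β) + τ) + β = s + e * τ := by
      have : e * (e * (s - β) + τ) + β = (e * e) * (s - β) + e * τ + β := by ring
      rw [this, he2]; ring
    have e2 : e * (e * (s - β)) + β = s := by
      have : e * (e * (s - β)) + β = (e * e) * (s - β) + β := by ring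
      rw [this, he2]; ring
    rwa [e1, e2] at h1
  obtain ⟨k, hk⟩ := hP A _ hpe
  have hkabs : (|k| : ℝ) * T A = τ := by
    have : |e * τ| = |(k : ℝ) * T A| := by rw [hk]
    rw [abs_mul, abs_mul, heabs, one_mul, abs_of_pos hτ, abs_of_pos (hTpos A)] at this
    exact this.symm
  refine ⟨k, ?_, hconj.trans ?_⟩
  · have h1 : (|k| : ℝ) ≤ (S.r / 2) / T A * ℓ g := by
      rw [div_mul_eq_mul_div, le_div_iff₀ (hTpos A), hkabs]
      linarith only [hτle]
    exact h1.trans (mul_le_mul_of_nonneg_right (hKA A) (Nat.cast_nonneg _))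
  have h3 := (hF A).periodic_zsmul S hδ0 (hF0 A) (hT A) k β
  rw [hfl, add_comm (e * τ) β, hk, h3, isConj_iff]
  exact ⟨F A β, by group⟩

section Cocycle

open unitInterval

variable {M : Type*} [MetricSpace M]

open Path.Homotopic.Quotient in
lemma based_aux {x₀ a b : M} (κ : ∀ y, Path x₀ y) (ha : a = x₀) (hb : b = x₀)
    (p : Path x₀ x₀) (q : Path a b) (hq : q = p.cast ha hb) :
    (FundamentalGroup.fromPath (((mk (κ a)).trans (mk q)).trans (symm (mk (κ b)))) :
      FundamentalGroup M x₀) =
    (FundamentalGroup.fromPath (symm (mk (κ x₀))) : FundamentalGroup M x₀) *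
      FundamentalGroup.fromPath (mk p) *
      (FundamentalGroup.fromPath (symm (mk (κ x₀))) : FundamentalGroup M x₀)⁻¹ := by
  subst ha
  subst hb
  rw [FundamentalGroup.mul_def, FundamentalGroup.mul_def, FundamentalGroup.inv_def, hq]
  simp only [FundamentalGroup.fromPath, FundamentalGroup.fromArrow, Path.cast_rfl_rfl,
    trans_assoc]
  congr 1
  simp only [← mk_symm, Path.symm_symm]

open Path.Homotopic.Quotient in
/-- The local cocycle with values in the fundamental group; every element is represented by a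
based chain, up to a fixed conjugation. -/
theorem exists_cocycle_based (hM : HasSegments M) {r₀ : ℝ} (hr₀ : 0 < r₀)
    (hS : SmallPathsHomotopic M r₀) (x₀ : M) :
    ∃ (S : LocalCocycle M (FundamentalGroup M x₀)) (z : FundamentalGroup M x₀),
      ∀ g : FundamentalGroup M x₀, ∃ n : ℕ, 0 < n ∧ S.HasBased x₀ z g n := by
  choose s hs using fun x y => hM.exists_path x y
  let κ : ∀ y, Path x₀ y := fun y => s x₀ y
  let sg : ∀ x y : M, Path.Homotopic.Quotient x y := fun x y => mk (s x y)
  have tri : ∀ x y z, dist x y < r₀ / 3 → dist y z < r₀ / 3 → dist x z < r₀ / 3 →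
      (sg x y).trans (sg y z) = sg x z := by
    intro x y z h1 h2 h3
    simp only [sg, ← mk_trans]
    rw [Path.Homotopic.Quotient.eq]
    apply hS x x z
    · intro t
      have : ((s x y).trans (s y z)) t ∈ range ((s x y).trans (s y z)) := mem_range_self t
      rw [Path.trans_range] at this
      rcases this with ⟨u, hu⟩ | ⟨u, hu⟩
      · rw [← hu]; linarith only [hs x y u, hr₀, h1, hs]
      · rw [← hu]
        have e1 := hs y z u
        have e2 := dist_triangle (s y z u) y x
        rw [dist_comm y x] at e2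
        linarith only [hr₀, h1, h2, e1, e2]
    · intro t; linarith only [hs x z t, hr₀, h3, hs]
  let S : LocalCocycle M (FundamentalGroup M x₀) :=
    { r := r₀ / 3
      r_pos := by positivity
      coc := fun x y => FundamentalGroup.fromPath
        (((mk (κ y)).trans (sg y x)).trans (symm (mk (κ x))))
      mul' := by
        intro x y z h1 h2 h3
        have e1 := tri z y x (by rwa [dist_comm]) (by rwa [dist_comm]) (by rwa [dist_comm])
        rw [FundamentalGroup.mul_def]
        simp only [FundamentalGroup.fromPath, FundamentalGroup.fromArrow]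
        rw [← e1]
        simp only [trans_assoc]
        congr 2
        rw [← trans_assoc (symm (mk (κ y))), symm_trans, refl_trans] }
  refine ⟨S, FundamentalGroup.fromPath (symm (mk (κ x₀))), fun g => ?_⟩
  obtain ⟨p, hp⟩ := Path.Homotopic.Quotient.mk_surjective g
  -- uniform continuity
  have huc : UniformContinuous p := CompactSpace.uniformContinuous_of_continuous p.continuous
  obtain ⟨η, hη, hp2⟩ := Metric.uniformContinuous_iff.1 huc (r₀ / 6) (by positivity)
  obtain ⟨n, hn⟩ := exists_nat_gt (1 / η)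
  have hn0 : (0 : ℝ) < n := lt_trans (by positivity) hn
  have hn1 : 0 < n := by exact_mod_cast hn0
  -- the subdivision, run backwards
  let u : ℕ → I := fun i => Set.projIcc 0 1 zero_le_one (1 - (i : ℝ) / n)
  have hu : ∀ i, i ≤ n → (u i : ℝ) = 1 - i / n := by
    intro i hi
    have h1 : (i : ℝ) / n ≤ 1 := by
      rw [div_le_one hn0]; exact_mod_cast hi
    have h2 : 0 ≤ (i : ℝ) / n := by positivity
    simp only [u]
    rw [Set.projIcc_of_mem zero_le_one (x := 1 - (i : ℝ) / n) ⟨by linarith only [h1], by linarith only [h2]⟩]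
  have hu0 : u 0 = 1 := by
    ext; rw [hu 0 (by omega)]; simp
  have hun : u n = 0 := by
    ext; rw [hu n le_rfl, div_self hn0.ne']; simp
  have hstep : ∀ i < n, ∀ a b : I, (u (i + 1) : ℝ) ≤ a → (a : ℝ) ≤ u i → (u (i + 1) : ℝ) ≤ b →
      (b : ℝ) ≤ u i → dist (p a) (p b) < r₀ / 6 := by
    intro i hi a b h1 h2 h3 h4
    apply hp2
    rw [Subtype.dist_eq, Real.dist_eq, abs_lt]
    rw [hu i (by omega)] at h2 h4
    rw [hu (i + 1) (by omega)] at h1 h3
    have h5 : (1 : ℝ) / n < η := by
      rw [div_lt_iff₀ hn0]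
      rw [div_lt_iff₀ hη] at hn
      linarith only [hn]
    push_cast at h1 h3
    have h6 : ((i : ℝ) + 1) / n = i / n + 1 / n := by ring
    rw [h6] at h1 h3
    constructor <;> linarith only [h4, h5, h1, h2, h3]
  let x : ℕ → M := fun i => p (u i)
  have hmono : ∀ i < n, (u (i + 1) : ℝ) ≤ u i := by
    intro i hi
    rw [hu i (by omega), hu (i + 1) (by omega)]
    push_cast
    have : (i : ℝ) / n ≤ ((i : ℝ) + 1) / n := by gcongr; linarith only []
    linarith only [this]
  have hx : ∀ i < n, dist (x i) (x (i + 1)) < r₀ / 6 := fun i hi =>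
    hstep i hi _ _ (hmono i hi) le_rfl le_rfl (hmono i hi)
  have hx0 : x 0 = x₀ := by simp only [x, hu0, p.target]
  have hxn : x n = x₀ := by simp only [x, hun, p.source]
  -- small subpaths are homotopic to segments
  have hseg : ∀ i < n, mk (p.subpath (u (i + 1)) (u i)) = sg (x (i + 1)) (x i) := by
    intro i hi
    rw [Path.Homotopic.Quotient.eq]
    apply hS (x (i + 1))
    · intro t
      have hr : (p.subpath (u (i + 1)) (u i)) t ∈ range (p.subpath (u (i + 1)) (u i)) :=
        mem_range_self t
      rw [Path.range_subpath_of_le _ _ _ (hmono i hi)] at hr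
      obtain ⟨a, ha, hat⟩ := hr
      rw [← hat]
      have := hstep i hi a (u (i + 1)) ha.1 ha.2 le_rfl (hmono i hi)
      simp only [x]
      linarith only [hr₀, this]
    · intro t
      have h1 := hs (x (i + 1)) (x i) t
      have h2 := hx i hi
      rw [dist_comm] at h2
      linarith only [hr₀, h1, h2]
  have key : ∀ k ≤ n, S.P x k = FundamentalGroup.fromPath
      (((mk (κ (x k))).trans (mk (p.subpath (u k) (u 0)))).trans (symm (mk (κ (x 0))))) := by
    intro k hk
    induction k with
    | zero =>
      rw [S.P_zero, Path.subpath_self, mk_refl, FundamentalGroup.one_def]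
      simp only [FundamentalGroup.fromPath, FundamentalGroup.fromArrow]
      rw [trans_refl, trans_symm]
    | succ k ih =>
      rw [S.P_succ, ih (by omega)]
      have e1 : mk (p.subpath (u (k + 1)) (u 0)) =
          (sg (x (k + 1)) (x k)).trans (mk (p.subpath (u k) (u 0))) := by
        rw [← hseg k (by omega), ← mk_trans, Path.Homotopic.Quotient.eq]
        exact ⟨(Path.Homotopy.subpathTransSubpath p _ _ _).symm⟩
      rw [FundamentalGroup.mul_def, e1]
      simp only [FundamentalGroup.fromPath, FundamentalGroup.fromArrow, S]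
      simp only [trans_assoc]
      congr 2
      rw [← trans_assoc (symm (mk (κ (x k)))), symm_trans, refl_trans]
  refine ⟨n, hn1, x, hx0, hxn, ?_, ?_⟩
  · intro i hi
    have := hx i hi
    have hr : S.r = r₀ / 3 := rfl
    rw [hr]; linarith only [this]
  · rw [key n le_rfl, ← hp]
    apply based_aux κ hxn hx0 p
    ext t
    rw [Path.cast_coe]
    change p (Set.Icc.convexComb (u n) (u 0) t) = p t
    rw [hun, hu0]
    congr 1
    ext
    simp

end Cocycle

section

variable {E : Type*} [NormedAddCommGroup E] [NormedSpace ℝ E] [FiniteDimensional ℝ E]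
  {M : Type*} [MetricSpace M] [ChartedSpace E M] [IsManifold 𝓘(ℝ, E) ∞ M]
  [RiemannianBundle (fun (x : M) ↦ TangentSpace 𝓘(ℝ, E) x)]
  [IsContMDiffRiemannianBundle 𝓘(ℝ, E) ∞ E (fun (x : M) ↦ TangentSpace 𝓘(ℝ, E) x)]
  [IsRiemannianManifold 𝓘(ℝ, E) M]

variable (E M) in
include E in
/-- If a compact Riemannian manifold has only finitely many closed geodesics, its fundamental
group is a finite union of conjugates of cyclic subgroups, with control of the exponents. -/
theorem stronglyFinitelyCyclicallyCovered_fundamentalGroup [CompactSpace M] (x₀ : M)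
    (hfin : (primeClosedGeodesicImages M).Finite) :
    StronglyFinitelyCyclicallyCovered (FundamentalGroup M x₀) := by
  have hM := hasSegments_of_riemannian 𝓘(ℝ, E) M
  obtain ⟨r₀, hr₀, hS⟩ := exists_smallPathsHomotopic E M
  obtain ⟨S, z, hgen⟩ := exists_cocycle_based hM hr₀ hS x₀
  exact stronglyFinitelyCyclicallyCovered_of_finite hM (nonBranching_of_riemannian E M) S x₀ z
    hgen hfin

end

end Vale.Agent.P216
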