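import Vale.Agent.P216.H215.Monogenic
import Mathlib.Topology.Covering.Basic
import Mathlib.AlgebraicTopology.FundamentalGroupoid.FundamentalGroup
import Mathlib.Analysis.InnerProductSpace.PiL2
import Mathlib.Algebra.Group.Conj

/-!
# Compact covering spaces with a cohomology class which is not zero on a sphere
-/

open Topology

namespace Vale.Agent.P216.H215

/-- Some compact path connected Hausdorff covering space `N` of `M` has a fundamental group with
infinitely many conjugacy classes and a class of degree at least two in `H^*(N; k)`, `k` a field,
whose pull back to a sphere by some continuous map is not zero. -/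
inductive SphereCovered (M : Type) [TopologicalSpace M] : Prop
  | intro {N : Type} [TopologicalSpace N] [CompactSpace N] [T2Space N] [PathConnectedSpace N]
      (p : N → M) (hp : IsCoveringMap p) (y : N)
      (hy : Infinite (ConjClasses (FundamentalGroup N y)))
      {k : Type} [Field k] {q : ℕ} (U : ASCoh.Cochain N k (q + 2)) (hU : ASCoh.IsCocycle U)
      (s : C(Metric.sphere (0 : EuclideanSpace ℝ (Fin (q + 3))) 1, N))
      (hs : ¬ ASCoh.IsCobd (fun σ => U (fun i => s (σ i)) : ASCoh.Cochain _ k (q + 2))) :
      SphereCovered M

end Vale.Agent.P216.H215
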